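import Mathlib

/-!
# P073, block GB4c: one-dimensional functions for the product collar of a box
-/

namespace P073.GB73

/-- push the interval `[A, B]` onto `[A + σ, B - σ]`, identity on `[A + m, B - m]` -/
noncomputable def cF (A B m κ σ r : ℝ) : ℝ :=
  r - min σ (κ * max 0 (r - (B - m))) + min σ (κ * max 0 (A + m - r))

/-- the inverse of `cF` -/
noncomputable def dF (A B m κ σ w : ℝ) : ℝ :=
  w + min σ (κ / (1 - κ) * max 0 (w - (B - m))) - min σ (κ / (1 - κ) * max 0 (A + m - w))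

variable {A B m κ σ r w : ℝ}

theorem min_zero_of (hσ : 0 ≤ σ) (k : ℝ) {t : ℝ} (ht : t ≤ 0) : min σ (k * max 0 t) = 0 := by
  rw [max_eq_left ht, mul_zero, min_eq_right hσ]

theorem cF_hi (hσ : 0 ≤ σ) (hAB : A + m < B - m) (hr : B - m ≤ r) :
    cF A B m κ σ r = r - min σ (κ * (r - (B - m))) := by
  unfold cF
  rw [min_zero_of hσ κ (by linarith : A + m - r ≤ 0), max_eq_right (by linarith), add_zero]

theorem cF_lo (hσ : 0 ≤ σ) (hAB : A + m < B - m) (hr : r ≤ A + m) :
    cF A B m κ σ r = r + min σ (κ * (A + m - r)) := by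
  unfold cF
  rw [min_zero_of hσ κ (by linarith : r - (B - m) ≤ 0), max_eq_right (by linarith), sub_zero]

theorem cF_mid (hσ : 0 ≤ σ) (h1 : A + m ≤ r) (h2 : r ≤ B - m) : cF A B m κ σ r = r := by
  unfold cF
  rw [min_zero_of hσ κ (by linarith : r - (B - m) ≤ 0),
    min_zero_of hσ κ (by linarith : A + m - r ≤ 0)]
  ring

theorem dF_hi (hσ : 0 ≤ σ) (hAB : A + m < B - m) (hw : B - m ≤ w) :
    dF A B m κ σ w = w + min σ (κ / (1 - κ) * (w - (B - m))) := by
  unfold dF
  rw [min_zero_of hσ _ (by linarith : A + m - w ≤ 0), max_eq_right (by linarith), sub_zero]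

theorem dF_lo (hσ : 0 ≤ σ) (hAB : A + m < B - m) (hw : w ≤ A + m) :
    dF A B m κ σ w = w - min σ (κ / (1 - κ) * (A + m - w)) := by
  unfold dF
  rw [min_zero_of hσ _ (by linarith : w - (B - m) ≤ 0), max_eq_right (by linarith), add_zero]

theorem dF_mid (hσ : 0 ≤ σ) (h1 : A + m ≤ w) (h2 : w ≤ B - m) : dF A B m κ σ w = w := by
  unfold dF
  rw [min_zero_of hσ _ (by linarith : w - (B - m) ≤ 0),
    min_zero_of hσ _ (by linarith : A + m - w ≤ 0)]
  ring

/-- the basic one-sided identities -/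
theorem push_pull (hκ0 : 0 < κ) (hκ1 : κ < 1) (hσ : 0 ≤ σ) {u : ℝ} (hu : 0 ≤ u) :
    0 ≤ u - min σ (κ * u) ∧
    (u - min σ (κ * u)) + min σ (κ / (1 - κ) * (u - min σ (κ * u))) = u := by
  have h1 : 0 < 1 - κ := by linarith
  have hmin : min σ (κ * u) ≤ κ * u := min_le_right _ _
  have hku : κ * u ≤ u := by nlinarith
  refine ⟨by linarith, ?_⟩
  rcases le_total σ (κ * u) with h | h
  · rw [min_eq_left h]
    have h2 : σ ≤ κ / (1 - κ) * (u - σ) := by
      rw [div_mul_eq_mul_div, le_div_iff₀ h1]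
      nlinarith
    rw [min_eq_left h2]; ring
  · rw [min_eq_right h]
    have h2 : κ / (1 - κ) * (u - κ * u) = κ * u := by
      field_simp
    rw [h2, min_eq_right h]; ring

theorem pull_push (hκ0 : 0 < κ) (hκ1 : κ < 1) (hσ : 0 ≤ σ) {w : ℝ} (hw : 0 ≤ w) :
    0 ≤ w + min σ (κ / (1 - κ) * w) ∧
    (w + min σ (κ / (1 - κ) * w)) - min σ (κ * (w + min σ (κ / (1 - κ) * w))) = w := by
  have h1 : 0 < 1 - κ := by linarith
  have hl : 0 ≤ κ / (1 - κ) * w := mul_nonneg (div_nonneg hκ0.le h1.le) hw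
  refine ⟨add_nonneg hw (le_min hσ hl), ?_⟩
  rcases le_total σ (κ / (1 - κ) * w) with h | h
  · rw [min_eq_left h]
    have h2 : σ ≤ κ * (w + σ) := by
      rw [div_mul_eq_mul_div, le_div_iff₀ h1] at h
      nlinarith
    rw [min_eq_left h2]; ring
  · rw [min_eq_right h]
    have h2 : κ * (w + κ / (1 - κ) * w) = κ / (1 - κ) * w := by
      field_simp
      ring
    rw [h2, min_eq_right h]; ring

theorem dF_cF (hκ0 : 0 < κ) (hκ1 : κ < 1) (hm : 0 < m) (hσ : 0 ≤ σ)
    (hAB : A + m < B - m) (_hA : A ≤ r) (_hB : r ≤ B) :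
    dF A B m κ σ (cF A B m κ σ r) = r := by
  rcases le_total r (A + m) with h | h
  · obtain ⟨a, b⟩ := push_pull hκ0 hκ1 hσ (u := A + m - r) (by linarith)
    rw [cF_lo hσ hAB h, dF_lo hσ hAB (by linarith)]
    have e : A + m - (r + min σ (κ * (A + m - r))) = A + m - r - min σ (κ * (A + m - r)) := by ring
    rw [e]; linarith
  · rcases le_total r (B - m) with h' | h'
    · rw [cF_mid hσ h h', dF_mid hσ h h']
    · obtain ⟨a, b⟩ := push_pull hκ0 hκ1 hσ (u := r - (B - m)) (by linarith)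
      rw [cF_hi hσ hAB h', dF_hi hσ hAB (by linarith)]
      have e : r - min σ (κ * (r - (B - m))) - (B - m) = r - (B - m) - min σ (κ * (r - (B - m))) := by
        ring
      rw [e]; linarith

theorem cF_dF (hκ0 : 0 < κ) (hκ1 : κ < 1) (hm : 0 < m) (hσ : 0 ≤ σ)
    (hAB : A + m < B - m) : cF A B m κ σ (dF A B m κ σ w) = w := by
  rcases le_total w (A + m) with h | h
  · obtain ⟨a, b⟩ := pull_push hκ0 hκ1 hσ (w := A + m - w) (by linarith)
    rw [dF_lo hσ hAB h, cF_lo hσ hAB (by linarith)]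
    have e : A + m - (w - min σ (κ / (1 - κ) * (A + m - w))) =
        A + m - w + min σ (κ / (1 - κ) * (A + m - w)) := by ring
    rw [e]; linarith
  · rcases le_total w (B - m) with h' | h'
    · rw [dF_mid hσ h h', cF_mid hσ h h']
    · obtain ⟨a, b⟩ := pull_push hκ0 hκ1 hσ (w := w - (B - m)) (by linarith)
      rw [dF_hi hσ hAB h', cF_hi hσ hAB (by linarith)]
      have e : w + min σ (κ / (1 - κ) * (w - (B - m))) - (B - m) =
          w - (B - m) + min σ (κ / (1 - κ) * (w - (B - m))) := by ring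
      rw [e]; linarith

theorem cF_A (hσ : 0 ≤ σ) (hσm : σ ≤ κ * m) (hm : 0 < m) (hAB : A + m < B - m) :
    cF A B m κ σ A = A + σ := by
  rw [cF_lo hσ hAB (by linarith), show A + m - A = m by ring, min_eq_left hσm]

theorem cF_B (hσ : 0 ≤ σ) (hσm : σ ≤ κ * m) (hm : 0 < m) (hAB : A + m < B - m) :
    cF A B m κ σ B = B - σ := by
  rw [cF_hi hσ hAB (by linarith), show B - (B - m) = m by ring, min_eq_left hσm]

theorem cF_mem (hκ0 : 0 < κ) (hκ1 : κ < 1) (hm : 0 < m) (hσ : 0 ≤ σ) (hσm : σ ≤ κ * m)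
    (hAB : A + m < B - m) (hA : A ≤ r) (hB : r ≤ B) :
    A + σ ≤ cF A B m κ σ r ∧ cF A B m κ σ r ≤ B - σ := by
  have hσm' : σ ≤ m := hσm.trans (by nlinarith)
  rcases le_total r (A + m) with h | h
  · rw [cF_lo hσ hAB h]
    rcases le_total σ (κ * (A + m - r)) with h' | h'
    · rw [min_eq_left h']; constructor <;> nlinarith
    · rw [min_eq_right h']; constructor <;> nlinarith
  · rcases le_total r (B - m) with h' | h'
    · rw [cF_mid hσ h h']; constructor <;> linarith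
    · rw [cF_hi hσ hAB h']
      rcases le_total σ (κ * (r - (B - m))) with h'' | h''
      · rw [min_eq_left h'']; constructor <;> nlinarith
      · rw [min_eq_right h'']; constructor <;> nlinarith

theorem dF_A (hκ0 : 0 < κ) (hκ1 : κ < 1) (hm : 0 < m) (hσ : 0 ≤ σ) (hσm : σ ≤ κ * m)
    (hAB : A + m < B - m) : dF A B m κ σ (A + σ) = A := by
  have := dF_cF hκ0 hκ1 hm hσ hAB (le_refl A) (by linarith)
  rwa [cF_A hσ hσm hm hAB] at this

theorem dF_B (hκ0 : 0 < κ) (hκ1 : κ < 1) (hm : 0 < m) (hσ : 0 ≤ σ) (hσm : σ ≤ κ * m)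
    (hAB : A + m < B - m) : dF A B m κ σ (B - σ) = B := by
  have := dF_cF hκ0 hκ1 hm hσ hAB (by linarith) (le_refl B)
  rwa [cF_B hσ hσm hm hAB] at this

theorem dF_mem (hκ0 : 0 < κ) (hκ1 : κ < 1) (hm : 0 < m) (hσ : 0 ≤ σ) (hσm : σ ≤ κ * m)
    (hAB : A + m < B - m) (hA : A + σ ≤ w) (hB : w ≤ B - σ) :
    A ≤ dF A B m κ σ w ∧ dF A B m κ σ w ≤ B := by
  have h1 : 0 < 1 - κ := by linarith
  have hσm' : σ ≤ m := hσm.trans (by nlinarith)
  have key : ∀ u : ℝ, 0 ≤ u → u ≤ m - σ → u + min σ (κ / (1 - κ) * u) ≤ m := by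
    intro u _ hu
    have := min_le_left σ (κ / (1 - κ) * u)
    linarith
  have hnn : ∀ u : ℝ, 0 ≤ u → 0 ≤ min σ (κ / (1 - κ) * u) := fun u hu =>
    le_min hσ (mul_nonneg (div_nonneg hκ0.le h1.le) hu)
  rcases le_total w (A + m) with h | h
  · rw [dF_lo hσ hAB h]
    have a := key (A + m - w) (by linarith) (by linarith)
    have b := hnn (A + m - w) (by linarith)
    constructor <;> linarith
  · rcases le_total w (B - m) with h' | h'
    · rw [dF_mid hσ h h']; constructor <;> linarith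
    · rw [dF_hi hσ hAB h']
      have a := key (w - (B - m)) (by linarith) (by linarith)
      have b := hnn (w - (B - m)) (by linarith)
      constructor <;> linarith

end P073.GB73
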