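import Vale.Agent.P073.GB73.GB4
import Vale.Agent.P073.GB73.CollarFun
import Vale.Agent.P073.PR.Faces

/-!
# P073, block GB4c: the product collar of a box, `collar_of_iso`, `SpecCollar`
-/

open Set Metric Topology Filter

namespace P073.GB73

open P073
open Vale.Agent.P073.St (V)

/-- depth of a point of the box -/
noncomputable def dep (a b z : V) : ℝ :=
  min (min (min (z 0 - a 0) (b 0 - z 0)) (min (z 1 - a 1) (b 1 - z 1))) (min (z 2 - a 2) (b 2 - z 2))

theorem le_dep {a b z : V} {σ : ℝ} : σ ≤ dep a b z ↔ ∀ i, a i + σ ≤ z i ∧ z i ≤ b i - σ := by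
  unfold dep
  simp only [le_min_iff]
  constructor
  · rintro ⟨⟨⟨h1, h2⟩, ⟨h3, h4⟩⟩, ⟨h5, h6⟩⟩ i
    fin_cases i
    · show a 0 + σ ≤ z 0 ∧ z 0 ≤ b 0 - σ
      exact ⟨by linarith, by linarith⟩
    · show a 1 + σ ≤ z 1 ∧ z 1 ≤ b 1 - σ
      exact ⟨by linarith, by linarith⟩
    · show a 2 + σ ≤ z 2 ∧ z 2 ≤ b 2 - σ
      exact ⟨by linarith, by linarith⟩
  · intro h
    refine ⟨⟨⟨?_, ?_⟩, ⟨?_, ?_⟩⟩, ⟨?_, ?_⟩⟩
    · linarith [(h 0).1]
    · linarith [(h 0).2]
    · linarith [(h 1).1]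
    · linarith [(h 1).2]
    · linarith [(h 2).1]
    · linarith [(h 2).2]

theorem dep_le {a b z : V} (i : Fin 3) : dep a b z ≤ z i - a i ∧ dep a b z ≤ b i - z i := by
  have := (le_dep.1 (le_refl (dep a b z))) i
  exact ⟨by linarith [this.1], by linarith [this.2]⟩

theorem exists_dep (a b z : V) : ∃ i, dep a b z = z i - a i ∨ dep a b z = b i - z i := by
  unfold dep
  rcases min_choice (min (min (z 0 - a 0) (b 0 - z 0)) (min (z 1 - a 1) (b 1 - z 1)))
    (min (z 2 - a 2) (b 2 - z 2)) with h | h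
  · rw [h]
    rcases min_choice (min (z 0 - a 0) (b 0 - z 0)) (min (z 1 - a 1) (b 1 - z 1)) with h' | h'
    · rw [h']
      exact ⟨0, min_choice _ _⟩
    · rw [h']
      exact ⟨1, min_choice _ _⟩
  · rw [h]
    exact ⟨2, min_choice _ _⟩

theorem continuous_dep (a b : V) : Continuous (dep a b) := by
  unfold dep; fun_prop

theorem mem_shr {a b z : V} {σ : ℝ} : z ∈ shr a b σ ↔ σ ≤ dep a b z := by
  rw [le_dep]
  constructor
  · rintro ⟨h1, h2⟩ i; exact ⟨h1 i, h2 i⟩
  · intro h; exact ⟨fun i => (h i).1, fun i => (h i).2⟩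

theorem mem_Icc_iff_dep {a b z : V} : z ∈ Icc a b ↔ 0 ≤ dep a b z := by
  rw [le_dep]
  constructor
  · rintro ⟨h1, h2⟩ i; exact ⟨by linarith [h1 i], by linarith [h2 i]⟩
  · intro h; exact ⟨fun i => by linarith [(h i).1], fun i => by linarith [(h i).2]⟩

theorem mem_frontier_iff_dep {a b z : V} (hab : ∀ i, a i < b i) :
    z ∈ frontier (Icc a b) ↔ dep a b z = 0 := by
  rw [(isClosed_Icc (a := a) (b := b)).frontier_eq, Set.mem_sdiff, mem_Icc_iff_dep]
  have hint : z ∈ interior (Icc a b) ↔ 0 < dep a b z := by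
    rw [interior_Icc_pi']
    constructor
    · intro h
      obtain ⟨i, hi | hi⟩ := exists_dep a b z
      · rw [hi]; linarith [(h i).1]
      · rw [hi]; linarith [(h i).2]
    · intro h i
      obtain ⟨h1, h2⟩ := dep_le (a := a) (b := b) (z := z) i
      exact ⟨by linarith, by linarith⟩
  rw [hint]
  constructor
  · rintro ⟨h1, h2⟩; exact le_antisymm (not_lt.1 h2) h1
  · intro h; rw [h]; exact ⟨le_refl _, lt_irrefl _⟩

/-- the collar map -/
noncomputable def pC (a b : V) (m θ : ℝ) (w : V × ℝ) : V :=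
  fun i => cF (a i) (b i) m (θ / m) (θ * (1 - w.2)) (w.1 i)

/-- its inverse -/
noncomputable def qC (a b : V) (m θ : ℝ) (z : V) : V × ℝ :=
  (fun i => dF (a i) (b i) m (θ / m) (dep a b z) (z i), 1 - dep a b z / θ)

theorem continuous_pC (a b : V) (m θ : ℝ) : Continuous (pC a b m θ) := by
  refine continuous_pi fun i => ?_
  unfold pC cF
  fun_prop

theorem conicalOn_pC (a b : V) (m θ : ℝ) {X : Set (V × ℝ)} (hX : ConicalSet X) :
    ConicalOn (pC a b m θ) X := by
  intro x hx
  refine conicalWithinAt_pi (hX x hx) fun i => ?_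
  have hr : ConicalOn (fun w : V × ℝ => w.1 i) X :=
    conicalOn_linear ((LinearMap.proj i : V →ₗ[ℝ] ℝ) ∘ₗ LinearMap.fst ℝ V ℝ) hX
  have hs : ConicalOn (fun w : V × ℝ => θ * (1 - w.2)) X :=
    ((conicalOn_const (1:ℝ) hX).sub (conicalOn_linear (LinearMap.snd ℝ V ℝ) hX)).const_smul θ
  have h1 : ConicalOn (fun w : V × ℝ => θ / m * max 0 (w.1 i - (b i - m))) X :=
    ((conicalOn_const (0:ℝ) hX).rmax (hr.sub (conicalOn_const (b i - m) hX)) (by fun_prop)
      (by fun_prop)).const_smul (θ / m)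
  have h2 : ConicalOn (fun w : V × ℝ => θ / m * max 0 (a i + m - w.1 i)) X :=
    ((conicalOn_const (0:ℝ) hX).rmax ((conicalOn_const (a i + m) hX).sub hr) (by fun_prop)
      (by fun_prop)).const_smul (θ / m)
  have h3 := (hr.sub (hs.rmin h1 (by fun_prop) (by fun_prop))).add
    (hs.rmin h2 (by fun_prop) (by fun_prop))
  exact h3 x hx

section box

variable {a b : V} {m θ : ℝ}

theorem dep_pC (hm : 0 < m) (hab : ∀ i, 2 * m < b i - a i) (hθ : 0 < θ) (hθm : θ < m) {x : V}
    (hx : x ∈ frontier (Icc a b)) {t : ℝ} (ht : t ∈ Icc (0:ℝ) 1) :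
    dep a b (pC a b m θ (x, t)) = θ * (1 - t) := by
  have hκ0 : 0 < θ / m := div_pos hθ hm
  have hκ1 : θ / m < 1 := (div_lt_one hm).2 hθm
  have hκm : θ / m * m = θ := div_mul_cancel₀ _ hm.ne'
  have hσ : 0 ≤ θ * (1 - t) := mul_nonneg hθ.le (by linarith [ht.2])
  have hσm : θ * (1 - t) ≤ θ / m * m := by rw [hκm]; nlinarith [ht.1]
  have hab' : ∀ i, a i < b i := fun i => by linarith [hab i]
  have hAB : ∀ i, a i + m < b i - m := fun i => by linarith [hab i]
  have hx0 := (mem_frontier_iff_dep hab').1 hx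
  have hxI : ∀ i, a i ≤ x i ∧ x i ≤ b i := fun i => by
    obtain ⟨h1, h2⟩ := dep_le (a := a) (b := b) (z := x) i
    rw [hx0] at h1 h2
    exact ⟨by linarith, by linarith⟩
  apply le_antisymm
  · obtain ⟨i, hi | hi⟩ := exists_dep a b x
    · rw [hx0] at hi
      have hxi : x i = a i := by linarith
      have h1 := (dep_le (a := a) (b := b) (z := pC a b m θ (x, t)) i).1
      have h2 : pC a b m θ (x, t) i = a i + θ * (1 - t) := by
        show cF (a i) (b i) m (θ / m) (θ * (1 - t)) (x i) = _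
        rw [hxi, cF_A hσ hσm hm (hAB i)]
      rw [h2] at h1; linarith
    · rw [hx0] at hi
      have hxi : x i = b i := by linarith
      have h1 := (dep_le (a := a) (b := b) (z := pC a b m θ (x, t)) i).2
      have h2 : pC a b m θ (x, t) i = b i - θ * (1 - t) := by
        show cF (a i) (b i) m (θ / m) (θ * (1 - t)) (x i) = _
        rw [hxi, cF_B hσ hσm hm (hAB i)]
      rw [h2] at h1; linarith
  · rw [le_dep]
    intro i
    exact cF_mem hκ0 hκ1 hm hσ hσm (hAB i) (hxI i).1 (hxI i).2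

theorem qC_pC (hm : 0 < m) (hab : ∀ i, 2 * m < b i - a i) (hθ : 0 < θ) (hθm : θ < m) {x : V}
    (hx : x ∈ frontier (Icc a b)) {t : ℝ} (ht : t ∈ Icc (0:ℝ) 1) :
    qC a b m θ (pC a b m θ (x, t)) = (x, t) := by
  have hκ0 : 0 < θ / m := div_pos hθ hm
  have hκ1 : θ / m < 1 := (div_lt_one hm).2 hθm
  have hσ : 0 ≤ θ * (1 - t) := mul_nonneg hθ.le (by linarith [ht.2])
  have hab' : ∀ i, a i < b i := fun i => by linarith [hab i]
  have hAB : ∀ i, a i + m < b i - m := fun i => by linarith [hab i]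
  have hx0 := (mem_frontier_iff_dep hab').1 hx
  have hxI : ∀ i, a i ≤ x i ∧ x i ≤ b i := fun i => by
    obtain ⟨h1, h2⟩ := dep_le (a := a) (b := b) (z := x) i
    rw [hx0] at h1 h2
    exact ⟨by linarith, by linarith⟩
  unfold qC
  rw [dep_pC hm hab hθ hθm hx ht]
  refine Prod.ext ?_ ?_
  · funext i
    exact dF_cF hκ0 hκ1 hm hσ (hAB i) (hxI i).1 (hxI i).2
  · show 1 - θ * (1 - t) / θ = t
    rw [mul_div_cancel_left₀ _ hθ.ne']; ring

theorem pC_qC (hm : 0 < m) (hab : ∀ i, 2 * m < b i - a i) (hθ : 0 < θ) (hθm : θ < m) {z : V}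
    (hz : 0 ≤ dep a b z) (hz' : dep a b z ≤ θ) :
    (qC a b m θ z).1 ∈ frontier (Icc a b) ∧ (qC a b m θ z).2 ∈ Icc (0:ℝ) 1 ∧
      pC a b m θ (qC a b m θ z) = z := by
  have hκ0 : 0 < θ / m := div_pos hθ hm
  have hκ1 : θ / m < 1 := (div_lt_one hm).2 hθm
  have hκm : θ / m * m = θ := div_mul_cancel₀ _ hm.ne'
  have hab' : ∀ i, a i < b i := fun i => by linarith [hab i]
  have hAB : ∀ i, a i + m < b i - m := fun i => by linarith [hab i]
  set σ := dep a b z with hσdef
  have hσm : σ ≤ θ / m * m := by rw [hκm]; exact hz'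
  have hzi : ∀ i, a i + σ ≤ z i ∧ z i ≤ b i - σ := le_dep.1 (le_refl _)
  refine ⟨?_, ?_, ?_⟩
  · rw [mem_frontier_iff_dep hab']
    apply le_antisymm
    · obtain ⟨i, hi | hi⟩ := exists_dep a b z
      · have h1 := (dep_le (a := a) (b := b) (z := (qC a b m θ z).1) i).1
        have h2 : (qC a b m θ z).1 i = a i := by
          show dF (a i) (b i) m (θ / m) σ (z i) = a i
          have : z i = a i + σ := by rw [← hσdef] at hi; linarith
          rw [this, dF_A hκ0 hκ1 hm hz hσm (hAB i)]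
        rw [h2] at h1; linarith
      · have h1 := (dep_le (a := a) (b := b) (z := (qC a b m θ z).1) i).2
        have h2 : (qC a b m θ z).1 i = b i := by
          show dF (a i) (b i) m (θ / m) σ (z i) = b i
          have : z i = b i - σ := by rw [← hσdef] at hi; linarith
          rw [this, dF_B hκ0 hκ1 hm hz hσm (hAB i)]
        rw [h2] at h1; linarith
    · rw [← mem_Icc_iff_dep]
      exact ⟨fun i => (dF_mem hκ0 hκ1 hm hz hσm (hAB i) (hzi i).1 (hzi i).2).1,
        fun i => (dF_mem hκ0 hκ1 hm hz hσm (hAB i) (hzi i).1 (hzi i).2).2⟩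
  · show 1 - σ / θ ∈ Icc (0:ℝ) 1
    have h1 : σ / θ ≤ 1 := (div_le_one hθ).2 hz'
    have h2 : 0 ≤ σ / θ := div_nonneg hz hθ.le
    exact ⟨by linarith, by linarith⟩
  · funext i
    show cF (a i) (b i) m (θ / m) (θ * (1 - (1 - σ / θ))) (dF (a i) (b i) m (θ / m) σ (z i)) = z i
    have : θ * (1 - (1 - σ / θ)) = σ := by field_simp; ring
    rw [this]
    exact cF_dF hκ0 hκ1 hm hz (hAB i)

/-- the collar region -/
def colSet (a b : V) (θ : ℝ) : Set V := {z | 0 ≤ dep a b z ∧ dep a b z ≤ θ}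

theorem conicalSet_frontier_box (a b : V) : ConicalSet (frontier (Icc a b)) :=
  (locCone_Icc_pi a b).frontier.conicalSet

/-- the collar homeomorphism -/
theorem exists_collar (hm : 0 < m) (hab : ∀ i, 2 * m < b i - a i) (hθ : 0 < θ) (hθm : θ < m) :
    ∃ Q : ConHomeo (frontier (Icc a b) ×ˢ Icc (0:ℝ) 1) (colSet a b θ),
      Q.toFun = pC a b m θ := by
  have hcomp : IsCompact (frontier (Icc a b) ×ˢ Icc (0:ℝ) 1) :=
    (isCompact_Icc.of_isClosed_subset isClosed_frontier
      isClosed_Icc.frontier_subset).prod isCompact_Icc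
  have hinj : InjOn (pC a b m θ) (frontier (Icc a b) ×ˢ Icc (0:ℝ) 1) := by
    rintro ⟨x, t⟩ ⟨hx, ht⟩ ⟨x', t'⟩ ⟨hx', ht'⟩ h
    rw [← qC_pC hm hab hθ hθm hx ht, h, qC_pC hm hab hθ hθm hx' ht']
  have himg : pC a b m θ '' (frontier (Icc a b) ×ˢ Icc (0:ℝ) 1) = colSet a b θ := by
    apply Subset.antisymm
    · rintro _ ⟨⟨x, t⟩, ⟨hx, ht⟩, rfl⟩
      have h1 := dep_pC hm hab hθ hθm hx ht
      simp only at ht
      refine ⟨?_, ?_⟩
      · rw [h1]; exact mul_nonneg hθ.le (by linarith [ht.2])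
      · rw [h1]; nlinarith [ht.1]
    · rintro z ⟨h1, h2⟩
      obtain ⟨g1, g2, g3⟩ := pC_qC hm hab hθ hθm h1 h2
      exact ⟨_, ⟨g1, g2⟩, g3⟩
  refine ⟨ConHomeo.ofCompact hcomp (pC a b m θ) (continuous_pC a b m θ).continuousOn hinj
    (conicalOn_pC a b m θ (conicalSet_prod (conicalSet_frontier_box a b) conicalSet_Icc01)) himg, ?_⟩
  rw [ConHomeo.ofCompact_toFun]

/-- **(collar)** an isotopy of the surface of a box gives an extension to the box which is the
identity inside and on the perpendicular segments at the marked points. -/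
theorem collar_of_iso (hm : 0 < m) (hab : ∀ i, 2 * m < b i - a i) {X : Set V}
    (hXf : X ⊆ frontier (Icc a b))
    (hX : ∀ x ∈ X, ∃ i, (x i = a i ∨ x i = b i) ∧ ∀ j ≠ i, a j + m ≤ x j ∧ x j ≤ b j - m)
    {φ : ConHomeo (frontier (Icc a b)) (frontier (Icc a b))} (hφ : Iso (frontier (Icc a b)) X φ)
    (hθ : 0 < θ) (hθm : θ < m) :
    ∃ Φ : ConHomeo (Icc a b) (Icc a b),
      EqOn Φ.toFun φ.toFun (frontier (Icc a b)) ∧ (∀ x ∈ shr a b θ, Φ.toFun x = x) ∧
      ∀ x ∈ X, ∀ z ∈ Icc a b, ‖z - x‖ ≤ m →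
        (∃ i, (x i = a i ∨ x i = b i) ∧ (∀ j ≠ i, z j = x j)) → Φ.toFun z = z := by
  obtain ⟨F, F1, F2, F3⟩ := hφ
  obtain ⟨Q, hQ⟩ := exists_collar hm hab hθ hθm
  have hab' : ∀ i, a i < b i := fun i => by linarith [hab i]
  have hAB : ∀ i, a i + m < b i - m := fun i => by linarith [hab i]
  let G : ConHomeo (colSet a b θ) (colSet a b θ) := Q.symm.trans (F.trans Q)
  have hG : ∀ x ∈ frontier (Icc a b), ∀ t ∈ Icc (0:ℝ) 1,
      G.toFun (pC a b m θ (x, t)) = pC a b m θ (F.toFun (x, t)) := by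
    intro x hx t ht
    have h1 : Q.invFun (Q.toFun (x, t)) = (x, t) := Q.left_inv ⟨hx, ht⟩
    rw [hQ] at h1
    show Q.toFun (F.toFun (Q.invFun (pC a b m θ (x, t)))) = _
    rw [h1, hQ]
  have h0 : (0:ℝ) ∈ Icc (0:ℝ) 1 := by simp
  have h1 : (1:ℝ) ∈ Icc (0:ℝ) 1 := by simp
  have hcl1 : IsClosed (colSet a b θ) :=
    (isClosed_le continuous_const (continuous_dep a b)).inter
      (isClosed_le (continuous_dep a b) continuous_const)
  have hcl2 : IsClosed (shr a b θ) := isClosed_Icc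
  have hshr : ConicalSet (shr a b θ) := (locCone_Icc_pi _ _).conicalSet
  -- the points of depth `θ`
  have hin : ∀ z, dep a b z = θ → G.toFun z = z := by
    intro z hz
    obtain ⟨g1, g2, g3⟩ := pC_qC hm hab hθ hθm (by rw [hz]; exact hθ.le) hz.le
    have ht : (qC a b m θ z).2 = 0 := by
      show 1 - dep a b z / θ = 0
      rw [hz, div_self hθ.ne', sub_self]
    have hw : qC a b m θ z = ((qC a b m θ z).1, 0) := Prod.ext rfl ht
    rw [hw] at g3
    conv_lhs => rw [← g3]
    rw [hG _ g1 0 h0, F2 _ g1, g3]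
  have hag : EqOn G.toFun (ConHomeo.refl hshr).toFun (colSet a b θ ∩ shr a b θ) := by
    rintro z ⟨hz1, hz2⟩
    exact hin z (le_antisymm hz1.2 (mem_shr.1 hz2))
  have himg : colSet a b θ ∩ shr a b θ ⊆ G.toFun '' (colSet a b θ ∩ shr a b θ) := by
    rintro z ⟨hz1, hz2⟩
    exact ⟨z, ⟨hz1, hz2⟩, hin z (le_antisymm hz1.2 (mem_shr.1 hz2))⟩
  have hun : colSet a b θ ∪ shr a b θ = Icc a b := by
    ext z
    rw [mem_union, mem_shr, mem_Icc_iff_dep]
    constructor
    · rintro (h | h)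
      · exact h.1
      · linarith
    · intro h
      rcases le_total (dep a b z) θ with h' | h'
      · exact Or.inl ⟨h, h'⟩
      · exact Or.inr h'
  have e1 := ConHomeo.glue_left G (ConHomeo.refl hshr) hcl1 hcl2 hcl1 hcl2 hag himg
  have e2 := ConHomeo.glue_right G (ConHomeo.refl hshr) hcl1 hcl2 hcl1 hcl2 hag himg
  refine ⟨(ConHomeo.glue G (ConHomeo.refl hshr) hcl1 hcl2 hcl1 hcl2 hag himg).cast hun hun,
    ?_, ?_, ?_⟩
  · intro x hx
    have hx0 := (mem_frontier_iff_dep hab').1 hx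
    have hxc : x ∈ colSet a b θ := ⟨hx0.ge, by rw [hx0]; exact hθ.le⟩
    have hpx : ∀ y ∈ frontier (Icc a b), pC a b m θ (y, 1) = y := by
      intro y hy
      funext i
      show cF (a i) (b i) m (θ / m) (θ * (1 - 1)) (y i) = y i
      rw [sub_self, mul_zero]
      unfold cF
      have hk : 0 ≤ θ / m := (div_pos hθ hm).le
      rw [min_eq_left (mul_nonneg hk (le_max_left _ _)),
        min_eq_left (mul_nonneg hk (le_max_left _ _))]
      ring
    rw [ConHomeo.cast_toFun, e1 hxc]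
    conv_lhs => rw [← hpx x hx]
    rw [hG x hx 1 h1, F1 x hx, hpx _ (φ.mapsTo hx)]
  · intro x hx
    rw [ConHomeo.cast_toFun, e2 hx]
    rfl
  · rintro x hxX z hz hzx ⟨i, hi, hij⟩
    rw [ConHomeo.cast_toFun]
    by_cases hzs : z ∈ shr a b θ
    · rw [e2 hzs]; rfl
    · -- the index is the one of the marked point
      obtain ⟨i', hi', hj'⟩ := hX x hxX
      have hii : i = i' := by
        by_contra hne
        obtain ⟨k1, k2⟩ := hj' i hne
        rcases hi with h | h <;> linarith [hAB i]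
      subst hii
      have hxf := hXf hxX
      have hdz : 0 ≤ dep a b z := mem_Icc_iff_dep.1 hz
      have hdθ : dep a b z < θ := by
        by_contra hcon
        push Not at hcon
        exact hzs (mem_shr.2 hcon)
      -- depth is attained in direction `i`
      have hzi : |z i - x i| ≤ m := (norm_le_pi_norm (z - x) i).trans hzx
      have hzi' := abs_le.1 hzi
      have hmem : z ∈ colSet a b θ := ⟨hdz, hdθ.le⟩
      have hother : ∀ j, j ≠ i → m ≤ z j - a j ∧ m ≤ b j - z j := by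
        intro j hj
        rw [hij j hj]
        have := hj' j hj
        exact ⟨by linarith [this.1], by linarith [this.2]⟩
      have hzI : a i ≤ z i ∧ z i ≤ b i := ⟨hz.1 i, hz.2 i⟩
      have hdi : dep a b z = min (z i - a i) (b i - z i) := by
        apply le_antisymm
        · exact le_min (dep_le i).1 (dep_le i).2
        · obtain ⟨k, hk⟩ := exists_dep a b z
          by_cases hki : k = i
          · subst hki
            rcases hk with hk | hk
            · rw [hk]; exact min_le_left _ _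
            · rw [hk]; exact min_le_right _ _
          · exfalso
            obtain ⟨o1, o2⟩ := hother k hki
            rcases hk with hk | hk <;> linarith
      have hσ : 0 ≤ dep a b z := hdz
      have hκm : θ / m * m = θ := div_mul_cancel₀ _ hm.ne'
      have hσm : dep a b z ≤ θ / m * m := by rw [hκm]; exact hdθ.le
      have ht : 1 - dep a b z / θ ∈ Icc (0:ℝ) 1 := by
        have h1 : dep a b z / θ ≤ 1 := (div_le_one hθ).2 hdθ.le
        have h2 : 0 ≤ dep a b z / θ := div_nonneg hdz hθ.le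
        exact ⟨by linarith, by linarith⟩
      have hzp : pC a b m θ (x, 1 - dep a b z / θ) = z := by
        funext k
        show cF (a k) (b k) m (θ / m) (θ * (1 - (1 - dep a b z / θ))) (x k) = z k
        have : θ * (1 - (1 - dep a b z / θ)) = dep a b z := by field_simp; ring
        rw [this]
        by_cases hki : k = i
        · subst hki
          rcases hi with h | h
          · rw [h, cF_A hσ hσm hm (hAB k), hdi]
            rw [h] at hzi'
            rw [min_eq_left (by linarith [hab k])]; ring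
          · rw [h, cF_B hσ hσm hm (hAB k), hdi]
            rw [h] at hzi'
            rw [min_eq_right (by linarith [hab k])]; ring
        · have := hj' k hki
          rw [cF_mid hσ (by linarith [this.1]) (by linarith [this.2]), hij k hki]
      rw [e1 hmem]
      conv_lhs => rw [← hzp]
      rw [hG x hxf _ ht, F3 x hxX _ ht, hzp]

end box

end P073.GB73
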