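import Vale.Agent.P073.GB73.Iso

/-!
# P073, block GB4: discs in a surface `S`: moving points, extension by the identity, isotopies
-/

open Set Metric Topology Filter

namespace P073.GB73

open P073

variable {E F : Type*} [NormedAddCommGroup E] [NormedSpace ℝ E]
  [NormedAddCommGroup F] [NormedSpace ℝ F]

/-- moving a point inside the standard ball -/
theorem exists_move_std {n : ℕ} [Nonempty (Fin n)] {a b : Fin n → ℝ} (ha : ‖a‖ < 1)
    (hb : ‖b‖ < 1) : ∃ Φ : ConHomeo (closedBall (0 : Fin n → ℝ) 1) (closedBall (0 : Fin n → ℝ) 1),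
      (∀ x ∈ sphere (0 : Fin n → ℝ) 1, Φ.toFun x = x) ∧ Φ.toFun a = b := by
  have hK : IsCompact (closedBall (0 : Fin n → ℝ) 1) := isCompact_closedBall _ _
  have hc : Convex ℝ (closedBall (0 : Fin n → ℝ) 1) := convex_closedBall _ _
  have han : closedBall (0 : Fin n → ℝ) 1 ∈ 𝓝 a :=
    mem_of_superset (isOpen_ball.mem_nhds (by rwa [mem_ball_zero_iff])) ball_subset_closedBall
  have hbn : closedBall (0 : Fin n → ℝ) 1 ∈ 𝓝 b :=
    mem_of_superset (isOpen_ball.mem_nhds (by rwa [mem_ball_zero_iff])) ball_subset_closedBall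
  have hfr : frontier (closedBall (0 : Fin n → ℝ) 1) = sphere 0 1 :=
    frontier_closedBall _ one_ne_zero
  have hfc : ConicalSet (frontier (closedBall (0 : Fin n → ℝ) 1)) := by
    rw [hfr]; exact conicalSet_sphere_pi n
  obtain ⟨Φ, h1, h2⟩ := ConHomeo.exists_extend_convexBody hK hc han hK hc hbn
    (ConHomeo.refl hfc)
  refine ⟨Φ, fun x hx => h1 (hfr.symm ▸ hx), ?_⟩
  obtain ⟨x, hx⟩ : (sphere (0 : Fin n → ℝ) 1).Nonempty :=
    NormedSpace.sphere_nonempty.2 zero_le_one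
  have := h2 x (hfr.symm ▸ hx) 0 ⟨le_refl _, zero_le_one⟩
  simpa using this

/-- interior points have coordinates of norm `< 1` -/
theorem ConBall.coord_lt {n : ℕ} {D B : Set E} {φ : ConHomeo D (closedBall (0 : Fin n → ℝ) 1)}
    (hBD : B ⊆ D) (hφ : φ.toFun '' B = sphere 0 1) {p : E} (hp : p ∈ D \ B) :
    ‖φ.toFun p‖ < 1 := by
  have h1 : ‖φ.toFun p‖ ≤ 1 := mem_closedBall_zero_iff.1 (φ.mapsTo hp.1)
  refine lt_of_le_of_ne h1 fun h => hp.2 ?_
  have : φ.toFun p ∈ sphere (0 : Fin n → ℝ) 1 := mem_sphere_zero_iff_norm.2 h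
  rw [← hφ] at this
  obtain ⟨x, hx, hxp⟩ := this
  rwa [← φ.injOn (hBD hx) hp.1 hxp]

/-- a coordinate of a ball centred at a given interior point -/
theorem ConBall.exists_coord {n : ℕ} [Nonempty (Fin n)] {D B : Set E} (h : ConBall n D B) {p : E}
    (hp : p ∈ D \ B) : ∃ g : ConHomeo D (closedBall (0 : Fin n → ℝ) 1), g.toFun '' B = sphere 0 1 ∧
      g.toFun p = 0 := by
  obtain ⟨hBD, φ, hφ⟩ := h
  obtain ⟨Φ, h1, h2⟩ := exists_move_std (ConBall.coord_lt hBD hφ hp)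
    (show ‖(0 : Fin n → ℝ)‖ < 1 by rw [norm_zero]; exact one_pos)
  refine ⟨φ.trans Φ, ?_, ?_⟩
  · rw [ConHomeo.trans_toFun, image_comp, hφ]
    have : EqOn Φ.toFun id (sphere 0 1) := fun x hx => h1 x hx
    rw [this.image_eq, image_id]
  · exact h2

/-- moving a point inside a ball -/
theorem ConBall.exists_move {n : ℕ} [Nonempty (Fin n)] {D B : Set E} (h : ConBall n D B) {p q : E}
    (hp : p ∈ D \ B) (hq : q ∈ D \ B) : ∃ Ψ : ConHomeo D D, (∀ x ∈ B, Ψ.toFun x = x) ∧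
      Ψ.toFun p = q := by
  obtain ⟨hBD, φ, hφ⟩ := h
  obtain ⟨Φ, h1, h2⟩ := exists_move_std (ConBall.coord_lt hBD hφ hp) (ConBall.coord_lt hBD hφ hq)
  refine ⟨φ.trans (Φ.trans φ.symm), ?_, ?_⟩
  · intro x hx
    show φ.invFun (Φ.toFun (φ.toFun x)) = x
    rw [h1 _ (hφ ▸ mem_image_of_mem _ hx), φ.left_inv (hBD hx)]
  · show φ.invFun (Φ.toFun (φ.toFun p)) = q
    rw [h2, φ.left_inv hq.1]

/-- Alexander trick for a disc -/
theorem ConBall.exists_cyl {D B : Set E} (h : ConBall 2 D B) {p : E} (hp : p ∈ D \ B)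
    (η : ConHomeo D D) (hη : ∀ x ∈ B, η.toFun x = x) :
    ∃ F : ConHomeo (D ×ˢ Icc (0:ℝ) 1) (D ×ˢ Icc (0:ℝ) 1),
      (∀ x ∈ D, F.toFun (x, 1) = (η.toFun x, 1)) ∧ (∀ x ∈ D, F.toFun (x, 0) = (x, 0)) ∧
      (∀ x ∈ B, ∀ t ∈ Icc (0:ℝ) 1, F.toFun (x, t) = (x, t)) ∧
      (η.toFun p = p → ∀ t ∈ Icc (0:ℝ) 1, F.toFun (p, t) = (p, t)) := by
  obtain ⟨g, hgB, hgp⟩ := ConBall.exists_coord h hp
  have hBD := h.1
  have hsph : ∀ x ∈ sphere (0 : Fin 2 → ℝ) 1, g.toFun (g.invFun x) = x ∧ g.invFun x ∈ B := by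
    intro x hx
    rw [← hgB] at hx
    obtain ⟨y, hy, rfl⟩ := hx
    rw [g.left_inv (hBD hy)]
    exact ⟨rfl, hy⟩
  obtain ⟨F, h1, h2, h3, h4⟩ := GB73.exists_cyl (g.symm.trans (η.trans g)) (by
    intro x hx
    show g.toFun (η.toFun (g.invFun x)) = x
    rw [hη _ (hsph x hx).2, (hsph x hx).1])
  let G := prodId g conicalSet_Icc01
  refine ⟨G.trans (F.trans G.symm), ?_, ?_, ?_, ?_⟩
  · intro x hx
    show G.invFun (F.toFun (g.toFun x, 1)) = _
    rw [h1 _ (g.mapsTo hx)]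
    show (g.invFun (g.toFun (η.toFun (g.invFun (g.toFun x)))), (1:ℝ)) = _
    rw [g.left_inv hx, g.left_inv (η.mapsTo hx)]
  · intro x hx
    show G.invFun (F.toFun (g.toFun x, 0)) = _
    rw [h2 _ (g.mapsTo hx)]
    show (g.invFun (g.toFun x), (0:ℝ)) = _
    rw [g.left_inv hx]
  · intro x hx t ht
    show G.invFun (F.toFun (g.toFun x, t)) = _
    rw [h3 _ (hgB ▸ mem_image_of_mem _ hx) t ht]
    show (g.invFun (g.toFun x), t) = _
    rw [g.left_inv (hBD hx)]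
  · intro hηp t ht
    show G.invFun (F.toFun (g.toFun p, t)) = _
    have hg0 : g.invFun 0 = p := by
      have := g.left_inv hp.1
      rwa [hgp] at this
    rw [hgp, h4 ?_ t ht]
    · show (g.invFun 0, t) = _
      rw [hg0]
    · show g.toFun (η.toFun (g.invFun 0)) = 0
      rw [hg0, hηp, hgp]

/-- a disc `D` with boundary `B`, nicely placed in the surface `S` -/
structure DiscIn (S D B : Set E) : Prop where
  ball : ConBall 2 D B
  sub : D ⊆ S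
  closed : IsClosed (S \ (D \ B))
  conical : ConicalSet (S \ (D \ B))

namespace DiscIn

variable {S D B : Set E}

theorem union_eq (h : DiscIn S D B) : (S \ (D \ B)) ∪ D = S := by
  ext x
  constructor
  · rintro (h1 | h1)
    · exact h1.1
    · exact h.sub h1
  · intro hx
    by_cases hxD : x ∈ D
    · exact Or.inr hxD
    · exact Or.inl ⟨hx, fun h' => hxD h'.1⟩

theorem inter_eq (h : DiscIn S D B) : (S \ (D \ B)) ∩ D = B := by
  ext x
  constructor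
  · rintro ⟨⟨_, h1⟩, h2⟩
    by_contra h3
    exact h1 ⟨h2, h3⟩
  · intro hx
    exact ⟨⟨h.sub (h.ball.1 hx), fun h' => h'.2 hx⟩, h.ball.1 hx⟩

theorem conicalSet (h : DiscIn S D B) : ConicalSet S := by
  have h1 : ConicalOn (fun x : E => x) ((S \ (D \ B)) ∪ D) :=
    (conicalOn_id h.conical).union (conicalOn_id h.ball.conicalSet)
      (fun x _ hcl => by rwa [h.closed.closure_eq] at hcl)
      (fun x _ hcl => by rwa [h.ball.isClosed.closure_eq] at hcl)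
  rw [h.union_eq] at h1
  exact h1.conicalSet

/-- extension by the identity -/
theorem exists_extend (h : DiscIn S D B) (Ψ : ConHomeo D D) (hΨ : ∀ x ∈ B, Ψ.toFun x = x) :
    ∃ η : ConHomeo S S, EqOn η.toFun Ψ.toFun D ∧ ∀ x ∈ S \ (D \ B), η.toFun x = x := by
  have hDc := h.ball.isClosed
  have hag : EqOn (ConHomeo.refl h.conical).toFun Ψ.toFun ((S \ (D \ B)) ∩ D) := by
    intro x hx
    rw [h.inter_eq] at hx
    exact (hΨ x hx).symm
  have himg : (S \ (D \ B)) ∩ D ⊆ (ConHomeo.refl h.conical).toFun '' ((S \ (D \ B)) ∩ D) :=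
    fun x hx => ⟨x, hx, rfl⟩
  refine ⟨(ConHomeo.glue (ConHomeo.refl h.conical) Ψ h.closed hDc h.closed hDc hag himg).cast
    h.union_eq h.union_eq, ?_, ?_⟩
  · exact ConHomeo.glue_right _ _ h.closed hDc h.closed hDc hag himg
  · exact ConHomeo.glue_left _ _ h.closed hDc h.closed hDc hag himg

/-- restriction to the disc of a homeomorphism which is the identity outside -/
theorem exists_restr (h : DiscIn S D B) (η : ConHomeo S S) (hη : ∀ x ∈ S \ (D \ B), η.toFun x = x) :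
    ∃ Ψ : ConHomeo D D, Ψ.toFun = η.toFun := by
  have himg : η.toFun '' D = D := by
    have h1 : ∀ x ∈ S, (η.toFun x ∈ D \ B ↔ x ∈ D \ B) := by
      intro x hx
      constructor
      · intro h2
        by_contra h3
        rw [hη x ⟨hx, h3⟩] at h2
        exact h3 h2
      · intro h2
        by_contra h3
        have h4 : η.toFun (η.toFun x) = η.toFun x := hη _ ⟨η.mapsTo hx, h3⟩
        have h5 := η.injOn (η.mapsTo hx) hx h4
        rw [h5] at h3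
        exact h3 h2
    have hB : ∀ x ∈ B, η.toFun x = x := fun x hx => hη x (h.inter_eq.symm ▸ hx : x ∈ (S \ (D \ B)) ∩ D).1
    apply Subset.antisymm
    · rintro _ ⟨x, hx, rfl⟩
      by_cases hxB : x ∈ B
      · rw [hB x hxB]; exact hx
      · exact ((h1 x (h.sub hx)).2 ⟨hx, hxB⟩).1
    · intro y hy
      by_cases hyB : y ∈ B
      · exact ⟨y, hy, hB y hyB⟩
      · have hyS := h.sub hy
        have h2 : η.toFun (η.invFun y) = y := η.right_inv hyS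
        refine ⟨η.invFun y, ?_, h2⟩
        have h3 := (h1 _ (η.mapsTo_inv hyS)).1 (by rw [h2]; exact ⟨hy, hyB⟩)
        exact h3.1
  exact ⟨(η.restr h.ball.conicalSet h.sub).cast rfl himg, rfl⟩

/-- a homeomorphism supported in a disc is isotopic to the identity, relative to the complement and
one more fixed point. -/
theorem iso (h : DiscIn S D B) {p : E} (hp : p ∈ D \ B) (η : ConHomeo S S)
    (hη : ∀ x ∈ S \ (D \ B), η.toFun x = x) :
    Iso S ((S \ (D \ B)) ∪ {x | x = p ∧ η.toFun p = p}) η := by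
  obtain ⟨Ψ, hΨ⟩ := h.exists_restr η hη
  have hB : ∀ x ∈ B, η.toFun x = x :=
    fun x hx => hη x (h.inter_eq.symm ▸ hx : x ∈ (S \ (D \ B)) ∩ D).1
  obtain ⟨F, h1, h2, h3, h4⟩ := ConBall.exists_cyl h.ball hp Ψ (fun x hx => by rw [hΨ]; exact hB x hx)
  have hDc := h.ball.isClosed
  let G : ConHomeo ((S \ (D \ B)) ×ˢ Icc (0:ℝ) 1) ((S \ (D \ B)) ×ˢ Icc (0:ℝ) 1) :=
    ConHomeo.refl (conicalSet_prod h.conical conicalSet_Icc01)
  have hc1 : IsClosed ((S \ (D \ B)) ×ˢ Icc (0:ℝ) 1) := h.closed.prod isClosed_Icc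
  have hc2 : IsClosed (D ×ˢ Icc (0:ℝ) 1) := hDc.prod isClosed_Icc
  have hag : EqOn G.toFun F.toFun (((S \ (D \ B)) ×ˢ Icc (0:ℝ) 1) ∩ (D ×ˢ Icc (0:ℝ) 1)) := by
    rintro ⟨x, t⟩ ⟨⟨hx, ht⟩, ⟨hx', -⟩⟩
    have : x ∈ B := by rw [← h.inter_eq]; exact ⟨hx, hx'⟩
    exact (h3 x this t ht).symm
  have himg : ((S \ (D \ B)) ×ˢ Icc (0:ℝ) 1) ∩ (D ×ˢ Icc (0:ℝ) 1) ⊆
      G.toFun '' (((S \ (D \ B)) ×ˢ Icc (0:ℝ) 1) ∩ (D ×ˢ Icc (0:ℝ) 1)) :=
    fun w hw => ⟨w, hw, rfl⟩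
  have hu : ((S \ (D \ B)) ×ˢ Icc (0:ℝ) 1) ∪ (D ×ˢ Icc (0:ℝ) 1) = S ×ˢ Icc (0:ℝ) 1 := by
    rw [← union_prod, h.union_eq]
  have e1 := ConHomeo.glue_left G F hc1 hc2 hc1 hc2 hag himg
  have e2 := ConHomeo.glue_right G F hc1 hc2 hc1 hc2 hag himg
  have e1' : ∀ x ∈ S \ (D \ B), ∀ t ∈ Icc (0:ℝ) 1,
      (ConHomeo.glue G F hc1 hc2 hc1 hc2 hag himg).toFun (x, t) = (x, t) :=
    fun x hx t ht => e1 (show (x, t) ∈ (S \ (D \ B)) ×ˢ Icc (0:ℝ) 1 from ⟨hx, ht⟩)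
  have e2' : ∀ x ∈ D, ∀ t ∈ Icc (0:ℝ) 1,
      (ConHomeo.glue G F hc1 hc2 hc1 hc2 hag himg).toFun (x, t) = F.toFun (x, t) :=
    fun x hx t ht => e2 (show (x, t) ∈ D ×ˢ Icc (0:ℝ) 1 from ⟨hx, ht⟩)
  have m0 : (0:ℝ) ∈ Icc (0:ℝ) 1 := by simp
  have m1 : (1:ℝ) ∈ Icc (0:ℝ) 1 := by simp
  refine ⟨(ConHomeo.glue G F hc1 hc2 hc1 hc2 hag himg).cast hu hu, ?_, ?_, ?_⟩
  · intro x hx
    rw [ConHomeo.cast_toFun]
    by_cases hxD : x ∈ D \ B
    · rw [e2' x hxD.1 1 m1, h1 x hxD.1, hΨ]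
    · rw [e1' x ⟨hx, hxD⟩ 1 m1, hη x ⟨hx, hxD⟩]
  · intro x hx
    rw [ConHomeo.cast_toFun]
    by_cases hxD : x ∈ D \ B
    · rw [e2' x hxD.1 0 m0, h2 x hxD.1]
    · rw [e1' x ⟨hx, hxD⟩ 0 m0]
  · rintro x (hx | ⟨rfl, hx⟩) t ht
    · rw [ConHomeo.cast_toFun, e1' x hx t ht]
    · rw [ConHomeo.cast_toFun, e2' x hp.1 t ht, h4 (by rw [hΨ]; exact hx) t ht]

/-- moving a point in a disc of `S` -/
theorem exists_move (h : DiscIn S D B) {p q : E} (hp : p ∈ D \ B) (hq : q ∈ D \ B) :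
    ∃ η : ConHomeo S S, (∀ x ∈ S \ (D \ B), η.toFun x = x) ∧ η.toFun p = q ∧ MapsTo η.toFun D D ∧
      Iso S (S \ (D \ B)) η := by
  obtain ⟨Ψ, h1, h2⟩ := ConBall.exists_move h.ball hp hq
  obtain ⟨η, h3, h4⟩ := h.exists_extend Ψ h1
  refine ⟨η, h4, by rw [h3 hp.1, h2], fun x hx => by rw [h3 hx]; exact Ψ.mapsTo hx, ?_⟩
  exact (h.iso hp η h4).mono subset_union_left

end DiscIn

end P073.GB73
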