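import Vale.Agent.P073.GB73.GB4

/-!
# P073, block GB4: the theorem for a finite set of points on the equator (closeness on the equator)
-/

open Set Metric Topology Filter

namespace P073.GB73

open P073
open Vale.Agent.P073.St (V)

theorem hemi_union : upperHemi ∪ lowerHemi = S2 := by
  ext v
  constructor
  · rintro (h | h)
    · exact h.1
    · exact h.1
  · intro h
    rcases le_total 0 (v 2) with h' | h'
    · exact Or.inl ⟨h, h'⟩
    · exact Or.inr ⟨h, h'⟩

theorem hemi_inter : upperHemi ∩ lowerHemi = equator3 := by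
  ext v
  constructor
  · rintro ⟨⟨h, h1⟩, ⟨_, h2⟩⟩
    exact ⟨h, le_antisymm h2 h1⟩
  · rintro ⟨h, h1⟩
    exact ⟨⟨h, (show v 2 = 0 from h1).ge⟩, ⟨h, (show v 2 = 0 from h1).le⟩⟩

theorem N0_upper : N0 ∈ upperHemi \ equator3 := by
  refine ⟨⟨N0_mem, ?_⟩, fun h => ?_⟩
  · show (0:ℝ) ≤ 1; norm_num
  · have : (1:ℝ) = 0 := h.2
    norm_num at this

/-- extension of a homeomorphism of the equator to the sphere -/
theorem exists_extend_equator (c : ConHomeo equator3 equator3) :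
    ∃ g : ConHomeo S2 S2, EqOn g.toFun c.toFun equator3 ∧ (∀ v ∈ S2, 0 < g.toFun v 2 ↔ 0 < v 2) ∧
      (∀ v ∈ S2, g.toFun v 2 < 0 ↔ v 2 < 0) ∧ g.toFun N0 = N0 := by
  obtain ⟨Φ0, hΦ0, -⟩ := conBall_upperHemi.exists_extend conBall_upperHemi c
  obtain ⟨Ψ, hΨ, -⟩ := conBall_lowerHemi.exists_extend conBall_lowerHemi c
  have hN : Φ0.toFun N0 ∈ upperHemi \ equator3 := by
    refine ⟨Φ0.mapsTo N0_upper.1, fun h => N0_upper.2 ?_⟩
    have h1 := c.mapsTo_inv h
    have h2 : Φ0.toFun (c.invFun (Φ0.toFun N0)) = Φ0.toFun N0 := by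
      rw [hΦ0 h1, c.right_inv h]
    have h3 := Φ0.injOn (conBall_upperHemi.1 h1) N0_upper.1 h2
    rwa [← h3]
  obtain ⟨μ, hμ, hμN⟩ := ConBall.exists_move conBall_upperHemi hN N0_upper
  set Φ := Φ0.trans μ with hΦdef
  have hΦ : ∀ v ∈ equator3, Φ.toFun v = c.toFun v := by
    intro v hv
    show μ.toFun (Φ0.toFun v) = c.toFun v
    rw [hΦ0 hv, hμ _ (c.mapsTo hv)]
  have hag : EqOn Φ.toFun Ψ.toFun (upperHemi ∩ lowerHemi) := by
    intro v hv
    rw [hemi_inter] at hv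
    rw [hΦ v hv, hΨ hv]
  have himg : upperHemi ∩ lowerHemi ⊆ Φ.toFun '' (upperHemi ∩ lowerHemi) := by
    intro v hv
    rw [hemi_inter] at hv ⊢
    exact ⟨c.invFun v, c.mapsTo_inv hv, by rw [hΦ _ (c.mapsTo_inv hv), c.right_inv hv]⟩
  have hu := conBall_upperHemi.isClosed
  have hl := conBall_lowerHemi.isClosed
  have e1 := ConHomeo.glue_left Φ Ψ hu hl hu hl hag himg
  have e2 := ConHomeo.glue_right Φ Ψ hu hl hu hl hag himg
  let g := (ConHomeo.glue Φ Ψ hu hl hu hl hag himg).cast hemi_union hemi_union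
  have g1 : ∀ v ∈ upperHemi, g.toFun v = Φ.toFun v := fun v hv => e1 hv
  have g2 : ∀ v ∈ lowerHemi, g.toFun v = Ψ.toFun v := fun v hv => e2 hv
  have gE : ∀ v ∈ equator3, g.toFun v = c.toFun v := fun v hv => by
    rw [g1 v (conBall_upperHemi.1 hv), hΦ v hv]
  -- points off the equator do not go to the equator
  have hoff : ∀ v ∈ S2, v 2 ≠ 0 → g.toFun v 2 ≠ 0 := by
    intro v hv h0 h1
    have h2 : g.toFun v ∈ equator3 := ⟨g.mapsTo hv, h1⟩
    have h3 := c.mapsTo_inv h2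
    have h4 : g.toFun (c.invFun (g.toFun v)) = g.toFun v := by rw [gE _ h3, c.right_inv h2]
    have h5 := g.injOn h3.1 hv h4
    rw [h5] at h3
    exact h0 h3.2
  have hup : ∀ v ∈ S2, 0 < v 2 → 0 < g.toFun v 2 := by
    intro v hv h
    have h1 : g.toFun v ∈ upperHemi := by rw [g1 v ⟨hv, h.le⟩]; exact Φ.mapsTo ⟨hv, h.le⟩
    exact lt_of_le_of_ne h1.2 (hoff v hv h.ne').symm
  have hdown : ∀ v ∈ S2, v 2 < 0 → g.toFun v 2 < 0 := by
    intro v hv h
    have h1 : g.toFun v ∈ lowerHemi := by rw [g2 v ⟨hv, h.le⟩]; exact Ψ.mapsTo ⟨hv, h.le⟩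
    exact lt_of_le_of_ne h1.2 (hoff v hv h.ne)
  have hmid : ∀ v ∈ S2, v 2 = 0 → g.toFun v 2 = 0 := by
    intro v hv h
    rw [gE v ⟨hv, h⟩]; exact (c.mapsTo ⟨hv, h⟩).2
  refine ⟨g, gE, ?_, ?_, ?_⟩
  · intro v hv
    refine ⟨fun h => ?_, hup v hv⟩
    by_contra hcon
    rcases eq_or_lt_of_le (not_lt.1 hcon) with h1 | h1
    · exact h.ne' (hmid v hv h1)
    · exact lt_asymm h (hdown v hv h1)
  · intro v hv
    refine ⟨fun h => ?_, hdown v hv⟩
    by_contra hcon
    rcases eq_or_lt_of_le (not_lt.1 hcon) with h1 | h1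
    · exact h.ne (hmid v hv h1.symm)
    · exact lt_asymm h (hup v hv h1)
  · rw [g1 N0 N0_upper.1]; exact hμN

theorem equator_split {a b : ℝ} (ha : -1 < a) (hb : b < 1) (hab : a < b) :
    {v | v ∈ equator3 ∧ 0 ≤ fab a b v} ∪ PP '' Icc a b = equator3 ∧
      {v | v ∈ equator3 ∧ 0 ≤ fab a b v} ∩ PP '' Icc a b ⊆ {PP a, PP b} := by
  rw [← flat_eq ha hb]
  constructor
  · ext v
    constructor
    · rintro (h | h)
      · exact h.1
      · exact h.1
    · intro h
      rcases le_total 0 (fab a b v) with h' | h'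
      · exact Or.inl ⟨h, h'⟩
      · exact Or.inr ⟨h, h'⟩
  · rintro v ⟨⟨h1, h2⟩, ⟨_, h3⟩⟩
    exact (fab_eq_zero ha hb hab h1).1 (le_antisymm h3 h2)

/-- a short flat arc free of a finite set -/
theorem exists_free_arc {X : Set V} (hX : X.Finite) : ∃ a b : ℝ, -1 < a ∧ b < 1 ∧ a < b ∧
    Disjoint X (PP '' Icc a b) := by
  have hfin : (PP ⁻¹' X).Finite := hX.preimage PP_injective.injOn
  have hopen : IsOpen (Ioo (-1:ℝ) 1 \ PP ⁻¹' X) := isOpen_Ioo.sdiff hfin.isClosed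
  obtain ⟨y, hy⟩ : (Ioo (-1:ℝ) 1 \ PP ⁻¹' X).Nonempty :=
    ((Ioo_infinite (by norm_num)).sdiff hfin).nonempty
  obtain ⟨r, hr, hsub⟩ := Metric.isOpen_iff.1 hopen y hy
  refine ⟨y - r / 2, y + r / 2, ?_, ?_, by linarith, ?_⟩
  · have : y - r / 2 ∈ ball y r := by
      rw [mem_ball, Real.dist_eq, show y - r / 2 - y = -(r / 2) by ring, abs_neg,
        abs_of_pos (by linarith)]
      linarith
    exact (hsub this).1.1
  · have : y + r / 2 ∈ ball y r := by
      rw [mem_ball, Real.dist_eq, show y + r / 2 - y = r / 2 by ring,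
        abs_of_pos (by linarith)]
      linarith
    exact (hsub this).1.2
  · rw [disjoint_left]
    rintro x hx ⟨z, hz, rfl⟩
    have : z ∈ ball y r := by
      rw [mem_ball, Real.dist_eq, abs_lt]
      constructor <;> linarith [hz.1, hz.2]
    exact (hsub this).2 hx

/-- moving finitely many points of the equator to the flat segment, preserving the equator -/
theorem exists_equator_flat {X : Set V} (hX : X.Finite) (hXE : X ⊆ equator3) :
    ∃ (g : ConHomeo S2 S2) (Y : Finset ℝ), (∀ y ∈ Y, |y| < 1) ∧ g.toFun '' X = PP '' (Y : Set ℝ) ∧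
      (∀ v ∈ S2, g.toFun v ∈ equator3 ↔ v ∈ equator3) ∧
      (∀ v ∈ S2, 0 < g.toFun v 2 ↔ 0 < v 2) ∧ g.toFun N0 = N0 := by
  obtain ⟨a, b, ha, hb, hab, hd⟩ := exists_free_arc hX
  have h1 := isArc_long ha hb hab
  have h2 := isArc_flat hab
  obtain ⟨hu, hi⟩ := equator_split ha hb hab
  have ha' : (-1:ℝ) < -1 / 2 := by norm_num
  have hb' : (1 / 2 : ℝ) < 1 := by norm_num
  have hab' : (-1 / 2 : ℝ) < 1 / 2 := by norm_num
  have k1 := isArc_long ha' hb' hab'
  have k2 := isArc_flat hab'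
  obtain ⟨ku, ki⟩ := equator_split ha' hb' hab'
  obtain ⟨c0, -, -, hc1, -⟩ := h1.exists_homeo_union h2 hi k2 k1 (by rw [inter_comm]; exact ki)
  let c : ConHomeo equator3 equator3 := c0.cast hu (by rw [union_comm]; exact ku)
  have hcX : c.toFun '' X ⊆ PP '' Icc (-1 / 2) (1 / 2) := by
    rw [← hc1]
    refine image_mono fun x hx => ⟨hXE hx, ?_⟩
    by_contra hcon
    push Not at hcon
    refine disjoint_left.1 hd hx ?_
    rw [← flat_eq ha hb]
    exact ⟨hXE hx, hcon.le⟩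
  obtain ⟨g, hg1, hg2, hg3, hg4⟩ := exists_extend_equator c
  have hgX : g.toFun '' X = c.toFun '' X := (hg1.mono hXE).image_eq
  have hfin : (PP ⁻¹' (g.toFun '' X)).Finite := (hX.image _).preimage PP_injective.injOn
  refine ⟨g, hfin.toFinset, ?_, ?_, ?_, hg2, hg4⟩
  · intro y hy
    rw [Set.Finite.mem_toFinset, mem_preimage, hgX] at hy
    obtain ⟨z, hz, hzy⟩ := hcX hy
    rw [← PP_injective hzy, abs_lt]
    constructor <;> linarith [hz.1, hz.2]
  · rw [Set.Finite.coe_toFinset, image_preimage_eq_inter_range, hgX]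
    symm
    rw [inter_eq_left]
    exact hcX.trans (image_subset_range _ _)
  · intro v hv
    constructor
    · intro h
      refine ⟨hv, ?_⟩
      show v 2 = 0
      have h0 : g.toFun v 2 = 0 := h.2
      by_contra hne
      rcases lt_or_gt_of_ne hne with h' | h'
      · exact ((hg3 v hv).2 h').ne h0
      · exact ((hg2 v hv).2 h').ne' h0
    · intro h
      rw [hg1 h]; exact c.mapsTo h

/-- **the theorem for the equator**: closeness is needed on the equator only. -/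
theorem iso_equator {X : Set V} (hX : X.Finite) (hXE : X ⊆ equator3) :
    ∃ ρ > 0, ∀ φ : ConHomeo S2 S2, (∀ x ∈ X, φ.toFun x = x) →
      (∀ v ∈ equator3, ‖φ.toFun v - v‖ ≤ ρ) → 0 < φ.invFun N0 2 → Iso S2 X φ := by
  have hXS : X ⊆ S2 := fun x hx => (hXE hx).1
  obtain ⟨g, Y, hY, hgY, hgE, hg2, hgN⟩ := exists_equator_flat hX hXE
  obtain ⟨ρ1, hρ1, H⟩ := iso_flat_set hY
  obtain ⟨ρ, hρ, hg⟩ := exists_conj_close (isCompact_sphere (0 : V) 1) g hρ1
  refine ⟨ρ, hρ, fun φ hφ hφc hside => ?_⟩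
  refine Iso.conj g hXS ?_
  rw [hgY]
  refine H _ ?_ ?_ ?_
  · intro y hy
    have hm : PP y ∈ g.toFun '' X := by rw [hgY]; exact ⟨y, hy, rfl⟩
    obtain ⟨x, hx, hxy⟩ := hm
    rw [← hxy]
    show g.toFun (φ.toFun (g.invFun (g.toFun x))) = g.toFun x
    rw [g.left_inv (hXS hx), hφ x hx]
  · intro v hv
    have hm := g.mapsTo_inv hv.1
    have hmE : g.invFun v ∈ equator3 := by
      rw [← hgE _ hm, g.right_inv hv.1]; exact hv
    have := hg _ hm _ (φ.mapsTo hm) (hφc _ hmE)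
    rw [g.right_inv hv.1] at this
    exact this
  · show 0 < g.toFun (φ.invFun (g.invFun N0)) 2
    have h1 : g.invFun N0 = N0 := by
      have := g.left_inv N0_mem
      rwa [hgN] at this
    rw [h1, hg2 _ (φ.mapsTo_inv N0_mem)]
    exact hside

end P073.GB73
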