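import Vale.Agent.P073.GB73.Equator

/-!
# P073, block GB4: the theorem for the equator orthogonal to any axis
-/

open Set Metric Topology Filter

namespace P073.GB73

open P073
open Vale.Agent.P073.St (V)

/-- permutation of coordinates -/
def permL (σ : Equiv.Perm (Fin 3)) : V →ₗ[ℝ] V := LinearMap.funLeft ℝ ℝ σ

@[simp] theorem permL_apply (σ : Equiv.Perm (Fin 3)) (v : V) (i : Fin 3) :
    permL σ v i = v (σ i) := rfl

theorem norm_permL (σ : Equiv.Perm (Fin 3)) (v : V) : ‖permL σ v‖ = ‖v‖ := by
  apply le_antisymm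
  · rw [pi_norm_le_iff_of_nonneg (norm_nonneg _)]
    intro i; exact norm_le_pi_norm v (σ i)
  · rw [pi_norm_le_iff_of_nonneg (norm_nonneg _)]
    intro i
    have := norm_le_pi_norm (permL σ v) (σ.symm i)
    rwa [permL_apply, Equiv.apply_symm_apply] at this

/-- permutation of coordinates on the sphere -/
def permH (σ : Equiv.Perm (Fin 3)) : ConHomeo S2 S2 where
  toFun := fun v => permL σ v
  invFun := fun v => permL σ.symm v
  mapsTo := fun v hv => by
    rw [mem_sphere_zero_iff_norm] at hv ⊢
    rw [norm_permL]; exact hv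
  mapsTo_inv := fun v hv => by
    rw [mem_sphere_zero_iff_norm] at hv ⊢
    rw [norm_permL]; exact hv
  left_inv := fun v _ => by funext i; simp
  right_inv := fun v _ => by funext i; simp
  cont := (permL σ).continuous_of_finiteDimensional.continuousOn
  cont_inv := (permL σ.symm).continuous_of_finiteDimensional.continuousOn
  conical := conicalOn_linear (permL σ) (conicalSet_sphere_pi 3)

/-- **the theorem for the equator orthogonal to `e_k`** -/
theorem iso_equatorK (k : Fin 3) {X : Set V} (hX : X.Finite) (hXE : ∀ x ∈ X, x ∈ S2 ∧ x k = 0) :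
    ∃ ρ > 0, ∀ φ : ConHomeo S2 S2, (∀ x ∈ X, φ.toFun x = x) →
      (∀ v ∈ S2, v k = 0 → ‖φ.toFun v - v‖ ≤ ρ) → 0 < φ.invFun (Pi.single k 1) k →
      Iso S2 X φ := by
  set σ : Equiv.Perm (Fin 3) := Equiv.swap k 2 with hσ
  have hσ2 : σ 2 = k := Equiv.swap_apply_right k 2
  have hσk : σ k = 2 := Equiv.swap_apply_left k 2
  have hσs : σ.symm = σ := Equiv.symm_swap k 2
  obtain ⟨ρ, hρ, H⟩ := iso_equator (hX.image (permH σ).toFun) (by
    rintro _ ⟨x, hx, rfl⟩
    refine ⟨(permH σ).mapsTo (hXE x hx).1, ?_⟩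
    show x (σ 2) = 0
    rw [hσ2]; exact (hXE x hx).2)
  refine ⟨ρ, hρ, fun φ hφ hφc hside => ?_⟩
  have hXS : X ⊆ S2 := fun x hx => (hXE x hx).1
  refine Iso.conj (permH σ) hXS (H _ ?_ ?_ ?_)
  · rintro _ ⟨x, hx, rfl⟩
    show (permH σ).toFun (φ.toFun ((permH σ).invFun ((permH σ).toFun x))) = (permH σ).toFun x
    rw [(permH σ).left_inv (hXS hx), hφ x hx]
  · intro v hv
    have hm := (permH σ).mapsTo_inv hv.1
    have h0 : (permH σ).invFun v k = 0 := by
      show v (σ.symm k) = 0
      rw [hσs, hσk]; exact hv.2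
    have h1 := hφc _ hm h0
    have h2 : (permH σ).toFun (φ.toFun ((permH σ).invFun v)) - v =
        permL σ (φ.toFun ((permH σ).invFun v) - (permH σ).invFun v) := by
      rw [map_sub]
      congr 1
      exact ((permH σ).right_inv hv.1).symm
    show ‖(permH σ).toFun (φ.toFun ((permH σ).invFun v)) - v‖ ≤ ρ
    rw [h2, norm_permL]; exact h1
  · show 0 < φ.invFun (permL σ.symm N0) (σ 2)
    have h1 : permL σ.symm N0 = Pi.single k 1 := by
      funext i
      rw [permL_apply, hσs]
      by_cases hik : i = k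
      · rw [hik, hσk, Pi.single_eq_same]; rfl
      · rw [Pi.single_eq_of_ne hik]
        have : σ i ≠ 2 := fun h => hik (by
          have := congrArg σ.symm h
          rwa [Equiv.symm_apply_apply, hσs, hσ2] at this)
        revert this
        generalize σ i = j
        intro hj
        fin_cases j
        · rfl
        · rfl
        · exact absurd rfl hj
    rw [h1, hσ2]; exact hside

end P073.GB73
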