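import Vale.Agent.P073.GB73.Lens

/-!
# P073, block GB4: exchange of arcs in the target, with control of the sides
-/

open Set Metric Topology Filter

namespace P073.GB73

open P073
open Vale.Agent.P073.St (V)

/-- the north pole -/
def N0 : V := ![0, 0, 1]

theorem N0_mem : N0 ∈ S2 := by rw [N0, mem_sphere_fin3]; simp

/-- **Exchange of arcs, in the target.** -/
theorem Lens.exchange_target {f : V → ℝ} {q q' : V} (h : Lens f q q') (φ : ConHomeo S2 S2)
    {N : Set V} (hN : IsArc N (φ.toFun q) (φ.toFun q')) (hNS : N ⊆ S2)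
    (hNC : ∀ v ∈ equator3, 0 ≤ f v → φ.toFun v ∈ N → v = q ∨ v = q')
    (α : ConHomeo {v | v ∈ equator3 ∧ f v ≤ 0} N) (hαq : α.toFun q = φ.toFun q)
    (hαq' : α.toFun q' = φ.toFun q') {p : V} (hp : p ∈ equator3) (hpf : f p < 0)
    {X : Set V} (hX : X ⊆ equator3) (hXfix : ∀ x ∈ X, φ.toFun x = x)
    (hXp : ∀ x ∈ X, f x < 0 → x = p ∧ α.toFun p = p) (hside : 0 < φ.invFun N0 2)
    (σ : ℝ → V) (hσ : ContinuousOn σ (Icc 0 1)) (hσS : ∀ t ∈ Icc (0:ℝ) 1, σ t ∈ S2)
    (hσ0 : σ 0 = N0) {c : V} (hc : c ∈ equator3) (hσ1 : σ 1 = φ.toFun c)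
    (hσN : ∀ t ∈ Icc (0:ℝ) 1, σ t ∉ N)
    (hσg : ∀ t ∈ Icc (0:ℝ) 1, ∀ v ∈ equator3, f v ≤ 0 → σ t ≠ φ.toFun v) :
    ∃ φ' : ConHomeo S2 S2, (∀ v ∈ equator3, 0 ≤ f v → φ'.toFun v = φ.toFun v) ∧
      (∀ v ∈ equator3, f v ≤ 0 → φ'.toFun v = α.toFun v) ∧ 0 < φ'.invFun N0 2 ∧
      (Iso S2 X φ' → Iso S2 X φ) := by
  have hqm : q ∈ S2 := h.arc.left_mem.1.1
  have hqm' : q' ∈ S2 := h.arc.right_mem.1.1
  have hM : IsArc (φ.invFun '' N) q q' := by
    have := hN.image φ.symm hNS
    rw [ConHomeo.symm_toFun, φ.left_inv hqm, φ.left_inv hqm'] at this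
    exact this
  have hMS : φ.invFun '' N ⊆ S2 := by
    rintro _ ⟨x, hx, rfl⟩; exact φ.mapsTo_inv (hNS hx)
  have hMC : ∀ v ∈ φ.invFun '' N, v ∈ equator3 → 0 ≤ f v → v = q ∨ v = q' := by
    rintro _ ⟨x, hx, rfl⟩ h1 h2
    exact hNC _ h1 h2 (by rw [φ.right_inv (hNS hx)]; exact hx)
  let β : ConHomeo {v | v ∈ equator3 ∧ f v ≤ 0} (φ.invFun '' N) :=
    α.trans (φ.symm.restr hN.conicalSet hNS)
  have hβ : ∀ v, β.toFun v = φ.invFun (α.toFun v) := fun v => rfl
  obtain ⟨η, δ, hδ, hη1, hη2, hη3⟩ := h.exchange hM hMS hMC β (by rw [hβ, hαq, φ.left_inv hqm])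
    (by rw [hβ, hαq', φ.left_inv hqm']) hp hpf
  have e1 : ∀ v ∈ equator3, 0 ≤ f v → (η.trans φ).toFun v = φ.toFun v := by
    intro v hv h0
    show φ.toFun (η.toFun v) = _
    rw [hη1 v hv.1 (by rw [show v 2 = 0 from hv.2, abs_zero]; exact mul_nonneg hδ.le h0)]
  have e2 : ∀ v ∈ equator3, f v ≤ 0 → (η.trans φ).toFun v = α.toFun v := by
    intro v hv h0
    show φ.toFun (η.toFun v) = _
    rw [hη2 v hv h0, hβ, φ.right_inv (hNS (α.mapsTo ⟨hv, h0⟩))]
  refine ⟨η.trans φ, e1, e2, ?_, ?_⟩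
  · -- sides
    have huc : ContinuousOn (fun t => φ.invFun (σ t) 2) (Icc 0 1) :=
      (continuous_apply 2).comp_continuousOn (φ.cont_inv.comp hσ hσS)
    have huc' : ContinuousOn (fun t => (η.trans φ).invFun (σ t) 2) (Icc 0 1) :=
      (continuous_apply 2).comp_continuousOn ((η.trans φ).cont_inv.comp hσ hσS)
    have hT : IsCompact (Icc (0:ℝ) 1 ∩ (fun t => φ.invFun (σ t) 2) ⁻¹' {0}) :=
      isCompact_Icc.of_isClosed_subset (huc.preimage_isClosed_of_isClosed isClosed_Icc
        isClosed_singleton) inter_subset_left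
    have hTn : (Icc (0:ℝ) 1 ∩ (fun t => φ.invFun (σ t) 2) ⁻¹' {0}).Nonempty := by
      refine ⟨1, ⟨zero_le_one, le_refl _⟩, ?_⟩
      show φ.invFun (σ 1) 2 = 0
      rw [hσ1, φ.left_inv hc.1]
      exact hc.2
    obtain ⟨τ, ⟨hτ, hτ0⟩, hτmin⟩ := hT.exists_isLeast hTn
    have hτ0' : φ.invFun (σ τ) 2 = 0 := hτ0
    have hτpos : 0 < τ := by
      rcases eq_or_lt_of_le hτ.1 with h | h
      · rw [← h, hσ0] at hτ0'
        rw [hτ0'] at hside
        exact absurd hside (lt_irrefl _)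
      · exact h
    -- the limit point
    set v := φ.invFun (σ τ) with hv
    have hvS : v ∈ S2 := φ.mapsTo_inv (hσS τ hτ)
    have hφv : φ.toFun v = σ τ := φ.right_inv (hσS τ hτ)
    have hvE : v ∈ equator3 := ⟨hvS, hτ0'⟩
    have hfv : 0 < f v := by
      by_contra hcon
      push Not at hcon
      exact hσg τ hτ v hvE hcon hφv.symm
    -- nonvanishing
    have hsub : Ico 0 τ ⊆ Icc (0:ℝ) 1 := fun t ht => ⟨ht.1, ht.2.le.trans hτ.2⟩
    have hne : ∀ t ∈ Ico 0 τ, φ.invFun (σ t) 2 ≠ 0 := by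
      intro t ht h0
      exact absurd (hτmin ⟨hsub ht, h0⟩) (not_le.2 ht.2)
    have hpos : ∀ t ∈ Ico 0 τ, 0 < φ.invFun (σ t) 2 := by
      rcases subset_or_of_sign isPreconnected_Ico (huc.mono hsub) hne with h | h
      · exact h
      · have := h 0 ⟨le_refl _, hτpos⟩
        simp only [hσ0] at this
        exact absurd hside (not_lt.2 this.le)
    have hne' : ∀ t ∈ Ico 0 τ, (η.trans φ).invFun (σ t) 2 ≠ 0 := by
      intro t ht h0
      have hm := hσS t (hsub ht)
      set w := (η.trans φ).invFun (σ t) with hw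
      have hwS : w ∈ S2 := (η.trans φ).mapsTo_inv hm
      have hwE : w ∈ equator3 := ⟨hwS, h0⟩
      have hww : (η.trans φ).toFun w = σ t := (η.trans φ).right_inv hm
      rcases le_total 0 (f w) with h | h
      · rw [e1 w hwE h] at hww
        apply hne t ht
        rw [← hww, φ.left_inv hwS]
        exact hwE.2
      · rw [e2 w hwE h] at hww
        exact hσN t (hsub ht) (hww ▸ α.mapsTo ⟨hwE, h⟩)
    -- near the end the two inverses agree
    have hcont : ContinuousWithinAt (fun t => δ * f (φ.invFun (σ t)) - |φ.invFun (σ t) 2|)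
        (Icc 0 1) τ := by
      have h1 : ContinuousWithinAt (fun t => φ.invFun (σ t)) (Icc 0 1) τ :=
        (φ.cont_inv.comp hσ hσS) τ hτ
      have h2 : ContinuousWithinAt (fun t => f (φ.invFun (σ t))) (Icc 0 1) τ :=
        h.cont.continuousAt.comp_continuousWithinAt h1
      have h3 : ContinuousWithinAt (fun t => |φ.invFun (σ t) 2|) (Icc 0 1) τ :=
        (continuous_abs.comp (continuous_apply 2)).continuousAt.comp_continuousWithinAt h1
      exact (continuousWithinAt_const.mul h2).sub h3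
    have hval : 0 < δ * f (φ.invFun (σ τ)) - |φ.invFun (σ τ) 2| := by
      show 0 < δ * f v - |v 2|
      rw [hτ0', abs_zero, sub_zero]
      exact mul_pos hδ hfv
    have hev : ∀ᶠ t in 𝓝[Icc 0 1] τ, 0 < δ * f (φ.invFun (σ t)) - |φ.invFun (σ t) 2| :=
      hcont.eventually_const_lt hval
    rw [eventually_nhdsWithin_iff] at hev
    obtain ⟨ε, hε, hball⟩ := Metric.eventually_nhds_iff.1 hev
    set t := max 0 (τ - ε / 2) with ht
    have htm : t ∈ Ico 0 τ := ⟨le_max_left _ _, max_lt hτpos (by linarith)⟩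
    have hdist : dist t τ < ε := by
      rw [Real.dist_eq, abs_sub_comm, abs_of_nonneg (by linarith [htm.2])]
      have : τ - ε / 2 ≤ t := le_max_right _ _
      linarith
    have hlt := hball hdist (hsub htm)
    have hm := hσS t (hsub htm)
    have hwS : φ.invFun (σ t) ∈ S2 := φ.mapsTo_inv hm
    have hηw : η.toFun (φ.invFun (σ t)) = φ.invFun (σ t) := hη1 _ hwS (by linarith)
    have hinv : (η.trans φ).invFun (σ t) = φ.invFun (σ t) := by
      show η.invFun (φ.invFun (σ t)) = φ.invFun (σ t)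
      have := η.left_inv hwS
      rwa [hηw] at this
    rcases subset_or_of_sign isPreconnected_Ico (huc'.mono hsub) hne' with h | h
    · have := h 0 ⟨le_refl _, hτpos⟩
      simp only [hσ0] at this
      exact this
    · have h1 := h t htm
      simp only [hinv] at h1
      exact absurd (hpos t htm) (not_lt.2 h1.le)
  · intro hI
    refine Iso.of_trans hI (hη3.mono ?_) fun x hx => (hX hx).1
    intro x hx
    rcases le_or_gt 0 (f x) with h0 | h0
    · exact Or.inl ⟨hX hx, h0⟩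
    · obtain ⟨rfl, h1⟩ := hXp x hx h0
      refine Or.inr ⟨rfl, ?_⟩
      rw [hβ, h1]
      have := φ.left_inv (hX hx).1
      rwa [hXfix x hx] at this

/-! ### the last step: a homeomorphism fixing the equator -/

theorem discIn_upper : DiscIn S2 upperHemi equator3 := by
  have h : S2 \ (upperHemi \ equator3) = lowerHemi := by
    ext v
    constructor
    · rintro ⟨h1, h2⟩
      refine ⟨h1, ?_⟩
      show v 2 ≤ 0
      by_contra hcon
      push Not at hcon
      exact h2 ⟨⟨h1, hcon.le⟩, fun h3 => hcon.ne' h3.2⟩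
    · rintro ⟨h1, h2⟩
      refine ⟨h1, fun h3 => h3.2 ⟨h1, le_antisymm h2 h3.1.2⟩⟩
  refine ⟨conBall_upperHemi, fun v hv => hv.1, ?_, ?_⟩
  · rw [h]; exact conBall_lowerHemi.isClosed
  · rw [h]; exact conBall_lowerHemi.conicalSet

theorem discIn_lower : DiscIn S2 lowerHemi equator3 := by
  have h : S2 \ (lowerHemi \ equator3) = upperHemi := by
    ext v
    constructor
    · rintro ⟨h1, h2⟩
      refine ⟨h1, ?_⟩
      show 0 ≤ v 2
      by_contra hcon
      push Not at hcon
      exact h2 ⟨⟨h1, hcon.le⟩, fun h3 => hcon.ne h3.2⟩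
    · rintro ⟨h1, h2⟩
      refine ⟨h1, fun h3 => h3.2 ⟨h1, le_antisymm h3.1.2 h2⟩⟩
  refine ⟨conBall_lowerHemi, fun v hv => hv.1, ?_, ?_⟩
  · rw [h]; exact conBall_upperHemi.isClosed
  · rw [h]; exact conBall_upperHemi.conicalSet

theorem iso_of_fix_equator (φ : ConHomeo S2 S2) (hφ : ∀ v ∈ equator3, φ.toFun v = v)
    (hside : 0 < φ.invFun N0 2) : Iso S2 equator3 φ := by
  have hinvE : ∀ x ∈ S2, φ.invFun x 2 = 0 → x ∈ equator3 := by
    intro x hx h0
    have hE : φ.invFun x ∈ equator3 := ⟨φ.mapsTo_inv hx, h0⟩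
    have := hφ _ hE
    rw [φ.right_inv hx] at this
    rw [this]; exact hE
  have hup : ∀ x ∈ upperHemi \ equator3, 0 < φ.invFun x 2 := by
    have hp := ConBall.isPreconnected_int conBall_upperHemi
    have hc : ContinuousOn (fun x => φ.invFun x 2) (upperHemi \ equator3) :=
      (continuous_apply 2).comp_continuousOn (φ.cont_inv.mono fun x hx => hx.1.1)
    have hN : N0 ∈ upperHemi \ equator3 := by
      refine ⟨⟨N0_mem, ?_⟩, fun h => ?_⟩
      · show (0:ℝ) ≤ 1; norm_num
      · have : (1:ℝ) = 0 := h.2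
        norm_num at this
    rcases subset_or_of_sign hp hc (fun x hx h0 => hx.2 (hinvE x hx.1.1 h0)) with h | h
    · exact h
    · exact absurd hside (not_lt.2 (h N0 hN).le)
  have hE : ∀ v ∈ equator3, φ.invFun v = v := by
    intro v hv
    have := φ.left_inv hv.1
    rwa [hφ v hv] at this
  -- φ preserves the upper hemisphere
  have hmaps : φ.symm.toFun '' upperHemi = upperHemi := by
    apply Subset.antisymm
    · rintro _ ⟨x, hx, rfl⟩
      show φ.invFun x ∈ upperHemi
      by_cases hxE : x ∈ equator3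
      · rw [hE x hxE]; exact hx
      · exact ⟨φ.mapsTo_inv hx.1, (hup x ⟨hx, hxE⟩).le⟩
    · -- the complement: lower hemisphere
      intro y hy
      refine ⟨φ.toFun y, ?_, φ.left_inv hy.1⟩
      refine ⟨φ.mapsTo hy.1, ?_⟩
      show 0 ≤ φ.toFun y 2
      by_contra hcon
      push Not at hcon
      -- then the whole lower open hemisphere is sent by `φ.invFun` in the upper one
      have hp := ConBall.isPreconnected_int conBall_lowerHemi
      have hc : ContinuousOn (fun x => φ.invFun x 2) (lowerHemi \ equator3) :=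
        (continuous_apply 2).comp_continuousOn (φ.cont_inv.mono fun x hx => hx.1.1)
      have hyl : φ.toFun y ∈ lowerHemi \ equator3 :=
        ⟨⟨φ.mapsTo hy.1, hcon.le⟩, fun h => hcon.ne h.2⟩
      have hyE : y ∉ equator3 := fun h => hyl.2 (by rw [hφ y h]; exact h)
      have hy2 : 0 < y 2 := lt_of_le_of_ne hy.2 fun h => hyE ⟨hy.1, h.symm⟩
      have hlow : ∀ x ∈ lowerHemi \ equator3, 0 < φ.invFun x 2 := by
        rcases subset_or_of_sign hp hc (fun x hx h0 => hx.2 (hinvE x hx.1.1 h0)) with h | h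
        · exact h
        · have := h _ hyl
          simp only [φ.left_inv hy.1] at this
          exact absurd hy2 (not_lt.2 this.le)
      -- contradiction with surjectivity at the south pole
      have hS : (![0, 0, -1] : V) ∈ S2 := by rw [mem_sphere_fin3]; simp
      have h1 : φ.invFun (φ.toFun ![0, 0, -1]) = ![0, 0, -1] := φ.left_inv hS
      have hSm := φ.mapsTo hS
      have hneg : ¬ (0 : ℝ) ≤ φ.invFun (φ.toFun ![0, 0, -1]) 2 := by
        rw [h1]; show ¬ (0:ℝ) ≤ -1; norm_num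
      apply hneg
      by_cases hE' : φ.toFun ![0, 0, -1] ∈ equator3
      · rw [hE _ hE']; exact (show φ.toFun ![0, 0, -1] 2 = 0 from hE'.2).ge
      · rcases le_total 0 (φ.toFun ![0, 0, -1] 2) with h | h
        · exact (hup _ ⟨⟨hSm, h⟩, hE'⟩).le
        · exact (hlow _ ⟨⟨hSm, h⟩, hE'⟩).le
  -- the part of `φ` on the upper hemisphere
  let Ψ : ConHomeo upperHemi upperHemi :=
    (φ.symm.restr conicalSet_upperHemi (fun v hv => hv.1)).cast rfl hmaps
  obtain ⟨η, hη1, hη2⟩ := discIn_upper.exists_extend Ψ.symm (by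
    intro x hx
    show φ.toFun x = x
    exact hφ x hx)
  have hη1' : ∀ x ∈ upperHemi, η.toFun x = φ.toFun x := fun x hx => hη1 hx
  have hNu : N0 ∈ upperHemi \ equator3 := by
    refine ⟨⟨N0_mem, ?_⟩, fun h => ?_⟩
    · show (0:ℝ) ≤ 1; norm_num
    · have : (1:ℝ) = 0 := h.2
      norm_num at this
  have hηI : Iso S2 equator3 η := by
    refine (discIn_upper.iso hNu η hη2).mono fun x hx => Or.inl ⟨hx.1, fun h => h.2 hx⟩
  have hSl : (![0, 0, -1] : V) ∈ lowerHemi \ equator3 := by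
    have hS : (![0, 0, -1] : V) ∈ S2 := by rw [mem_sphere_fin3]; simp
    refine ⟨⟨hS, ?_⟩, fun h => ?_⟩
    · show (-1:ℝ) ≤ 0; norm_num
    · have : (-1:ℝ) = 0 := h.2
      norm_num at this
  have hφ2 : Iso S2 equator3 (η.symm.trans φ) := by
    refine (discIn_lower.iso hSl (η.symm.trans φ) ?_).mono fun x hx => Or.inl ⟨hx.1, fun h => h.2 hx⟩
    rintro x ⟨hx, hx2⟩
    have hxu : x ∈ upperHemi := by
      refine ⟨hx, ?_⟩
      show 0 ≤ x 2
      by_contra hcon
      push Not at hcon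
      exact hx2 ⟨⟨hx, hcon.le⟩, fun h3 => hcon.ne h3.2⟩
    show φ.toFun (η.invFun x) = x
    have hux : φ.invFun x ∈ upperHemi := by
      rw [← hmaps]; exact ⟨x, hxu, rfl⟩
    have h1 : η.toFun (φ.invFun x) = x := by rw [hη1' _ hux, φ.right_inv hx]
    have h2 : η.invFun x = φ.invFun x := by
      have := η.left_inv hux.1
      rwa [h1] at this
    rw [h2, φ.right_inv hx]
  refine (hηI.trans hφ2 fun x hx => hx.1).congr ?_
  intro x hx
  show φ.toFun (η.invFun (η.toFun x)) = φ.toFun x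
  rw [η.left_inv hx]

end P073.GB73
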