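import Vale.Agent.P073.GB73.Exch

/-!
# P073, block GB4: flat arcs of the equator and their lenses
-/

open Set Metric Topology Filter

namespace P073.GB73

open P073
open Vale.Agent.P073.St (V)

/-- the point of height `y` on the flat side -/
def PP (y : ℝ) : V := ![1, y, 0]

@[simp] theorem PP_zero (y : ℝ) : PP y 0 = 1 := rfl
@[simp] theorem PP_one (y : ℝ) : PP y 1 = y := rfl
@[simp] theorem PP_two (y : ℝ) : PP y 2 = 0 := rfl

theorem mem_equator3 (v : V) : v ∈ equator3 ↔ |v 0| ≤ 1 ∧ |v 1| ≤ 1 ∧ v 2 = 0 ∧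
    (|v 0| = 1 ∨ |v 1| = 1) := by
  constructor
  · rintro ⟨h1, h2⟩
    rw [mem_sphere_fin3] at h1
    have h3 : v 2 = 0 := h2
    refine ⟨h1.1, h1.2.1, h3, ?_⟩
    rcases h1.2.2.2 with h | h | h
    · exact Or.inl h
    · exact Or.inr h
    · rw [h3, abs_zero] at h; exact absurd h zero_ne_one
  · rintro ⟨h1, h2, h3, h4⟩
    refine ⟨?_, h3⟩
    rw [mem_sphere_fin3]
    refine ⟨h1, h2, by rw [h3, abs_zero]; exact zero_le_one, ?_⟩
    rcases h4 with h | h
    · exact Or.inl h
    · exact Or.inr (Or.inl h)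

theorem PP_mem {y : ℝ} (hy : |y| ≤ 1) : PP y ∈ equator3 := by
  rw [mem_equator3]; simp [hy]

theorem eq_PP {v : V} (h0 : v 0 = 1) (h2 : v 2 = 0) : v = PP (v 1) := by
  funext i
  fin_cases i
  · exact h0
  · rfl
  · exact h2

theorem PP_injective : Function.Injective PP := fun x y h => congrFun h 1

theorem continuous_PP : Continuous PP := by
  refine continuous_pi fun i => ?_
  fin_cases i
  · exact continuous_const
  · exact continuous_id
  · exact continuous_const

theorem conicalOn_PP {X : Set ℝ} (hX : ConicalSet X) : ConicalOn PP X := by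
  intro x hx
  refine conicalWithinAt_pi (hX x hx) fun i => ?_
  fin_cases i
  · exact conicalOn_const (1:ℝ) hX x hx
  · exact conicalOn_id hX x hx
  · exact conicalOn_const (0:ℝ) hX x hx

theorem norm_PP_sub (x y : ℝ) : ‖PP x - PP y‖ = |x - y| := by
  apply le_antisymm
  · rw [pi_norm_le_iff_of_nonneg (abs_nonneg _)]
    intro i
    fin_cases i
    · show ‖(1:ℝ) - 1‖ ≤ _; simp
    · exact le_refl _
    · show ‖(0:ℝ) - 0‖ ≤ _; simp
  · exact norm_le_pi_norm (PP x - PP y) 1

/-- the function of the flat lens -/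
noncomputable def fab (a b : ℝ) (v : V) : ℝ := max (max (a - v 1) (v 1 - b)) (-v 0)

theorem fab_PP (a b y : ℝ) : fab a b (PP y) = max (max (a - y) (y - b)) (-1) := rfl

theorem fab_le_zero {a b : ℝ} (ha : -1 < a) (hb : b < 1) {v : V} (hv : v ∈ equator3) :
    fab a b v ≤ 0 ↔ ∃ y ∈ Icc a b, v = PP y := by
  rw [mem_equator3] at hv
  obtain ⟨h0, h1, h2, h3⟩ := hv
  unfold fab
  rw [max_le_iff, max_le_iff]
  constructor
  · rintro ⟨⟨h4, h5⟩, h6⟩
    have h7 : |v 1| < 1 := abs_lt.2 ⟨by linarith, by linarith⟩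
    have h8 : |v 0| = 1 := h3.resolve_right h7.ne
    rw [abs_of_nonneg (by linarith)] at h8
    exact ⟨v 1, ⟨by linarith, by linarith⟩, eq_PP h8 h2⟩
  · rintro ⟨y, hy, rfl⟩
    rw [PP_one, PP_zero]
    exact ⟨⟨by linarith [hy.1], by linarith [hy.2]⟩, by norm_num⟩

theorem fab_eq_zero {a b : ℝ} (ha : -1 < a) (hb : b < 1) (hab : a < b) {v : V}
    (hv : v ∈ equator3) : fab a b v = 0 ↔ v = PP a ∨ v = PP b := by
  constructor
  · intro h
    obtain ⟨y, hy, rfl⟩ := (fab_le_zero ha hb hv).1 h.le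
    rw [fab_PP] at h
    rcases le_total (max (a - y) (y - b)) (-1) with h1 | h1
    · rw [max_eq_right h1] at h; norm_num at h
    · rw [max_eq_left h1] at h
      rcases le_total (a - y) (y - b) with h2 | h2
      · rw [max_eq_right h2] at h
        right; congr 1; linarith
      · rw [max_eq_left h2] at h
        left; congr 1; linarith
  · rintro (rfl | rfl)
    · rw [fab_PP, sub_self, max_eq_left (by linarith : a - b ≤ 0), max_eq_left (by norm_num)]
    · rw [fab_PP, sub_self, max_eq_right (by linarith : a - b ≤ 0), max_eq_left (by norm_num)]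

theorem continuous_fab (a b : ℝ) : Continuous (fab a b) := by unfold fab; fun_prop

theorem conicalOn_fab (a b : ℝ) : ConicalOn (fab a b) univ := by
  have hu : ConicalSet (univ : Set V) := IsOpen.conicalSet isOpen_univ
  have h0 := conicalOn_coord hu (0 : Fin 3)
  have h1 := conicalOn_coord hu (1 : Fin 3)
  exact (((conicalOn_const a hu).sub h1).rmax (h1.sub (conicalOn_const b hu)) (by fun_prop)
    (by fun_prop)).rmax h0.neg (by fun_prop) (by fun_prop)

theorem isArc_flat {a b : ℝ} (hab : a < b) : IsArc (PP '' Icc a b) (PP a) (PP b) := by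
  refine IsArc.of_param hab (ConHomeo.ofCompact isCompact_Icc PP continuous_PP.continuousOn
    PP_injective.injOn (conicalOn_PP (Convex.conicalSet (convex_Icc a b))) rfl) ?_ ?_
  · rw [ConHomeo.ofCompact_toFun]
  · rw [ConHomeo.ofCompact_toFun]

theorem flat_eq {a b : ℝ} (ha : -1 < a) (hb : b < 1) :
    {v | v ∈ equator3 ∧ fab a b v ≤ 0} = PP '' Icc a b := by
  ext v
  constructor
  · rintro ⟨h1, h2⟩
    obtain ⟨y, hy, rfl⟩ := (fab_le_zero ha hb h1).1 h2
    exact ⟨y, hy, rfl⟩
  · rintro ⟨y, hy, rfl⟩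
    have hm : PP y ∈ equator3 := PP_mem (abs_le.2 ⟨by linarith [hy.1], by linarith [hy.2]⟩)
    exact ⟨hm, (fab_le_zero ha hb hm).2 ⟨y, hy, rfl⟩⟩

theorem long_eq {a b : ℝ} (ha : -1 < a) (hb : b < 1) (hab : a < b) :
    {v | v ∈ equator3 ∧ 0 ≤ fab a b v} = (equator3 \ (PP '' Icc a b)) ∪ {PP a, PP b} := by
  have hA : PP a ∈ equator3 := PP_mem (abs_le.2 ⟨by linarith, by linarith⟩)
  have hB : PP b ∈ equator3 := PP_mem (abs_le.2 ⟨by linarith, by linarith⟩)
  ext v
  constructor
  · rintro ⟨h1, h2⟩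
    rcases eq_or_lt_of_le h2 with h3 | h3
    · exact Or.inr ((fab_eq_zero ha hb hab h1).1 h3.symm)
    · left
      refine ⟨h1, fun h4 => ?_⟩
      rw [← flat_eq ha hb] at h4
      exact absurd h4.2 (not_le.2 h3)
  · rintro (⟨h1, h2⟩ | h1)
    · refine ⟨h1, ?_⟩
      by_contra hcon
      push Not at hcon
      apply h2
      rw [← flat_eq ha hb]
      exact ⟨h1, hcon.le⟩
    · rcases h1 with h1 | h1
      · rw [h1]; exact ⟨hA, ((fab_eq_zero ha hb hab hA).2 (Or.inl rfl)).ge⟩
      · rw [mem_singleton_iff.1 h1]; exact ⟨hB, ((fab_eq_zero ha hb hab hB).2 (Or.inr rfl)).ge⟩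

theorem isArc_long {a b : ℝ} (ha : -1 < a) (hb : b < 1) (hab : a < b) :
    IsArc {v | v ∈ equator3 ∧ 0 ≤ fab a b v} (PP a) (PP b) := by
  rw [long_eq ha hb hab]
  refine isArc_compl isCircle_equator3 (isArc_flat hab) ?_
  rintro _ ⟨y, hy, rfl⟩
  exact PP_mem (abs_le.2 ⟨by linarith [hy.1], by linarith [hy.2]⟩)

theorem lens_flat {a b : ℝ} (ha : -1 < a) (hb : b < 1) (hab : a < b) :
    Lens (fab a b) (PP a) (PP b) where
  cont := continuous_fab a b
  con := conicalOn_fab a b
  flat := fun v v' h0 h1 => by unfold fab; rw [h0, h1]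
  le := by
    intro v hv
    rw [mem_sphere_fin3] at hv
    obtain ⟨h0, h1, -, -⟩ := hv
    rw [abs_le] at h0 h1
    exact max_le (max_le (by linarith) (by linarith)) (by linarith)
  arc := isArc_long ha hb hab
  arc' := by rw [flat_eq ha hb]; exact isArc_flat hab
  zero := fun v hv => fab_eq_zero ha hb hab hv

theorem lens_long {a b : ℝ} (ha : -1 < a) (hb : b < 1) (hab : a < b) :
    Lens (fun v => -fab a b v) (PP a) (PP b) where
  cont := (continuous_fab a b).neg
  con := (conicalOn_fab a b).neg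
  flat := fun v v' h0 h1 => by unfold fab; rw [h0, h1]
  le := by
    intro v hv
    rw [mem_sphere_fin3] at hv
    obtain ⟨h0, h1, -, -⟩ := hv
    rw [abs_le] at h0 h1
    have : -v 0 ≤ fab a b v := le_max_right _ _
    linarith
  arc := by
    have : {v | v ∈ equator3 ∧ 0 ≤ -fab a b v} = PP '' Icc a b := by
      rw [← flat_eq ha hb]
      ext v
      exact and_congr_right fun _ => by rw [Left.nonneg_neg_iff]
    rw [this]; exact isArc_flat hab
  arc' := by
    have : {v | v ∈ equator3 ∧ -fab a b v ≤ 0} = {v | v ∈ equator3 ∧ 0 ≤ fab a b v} := by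
      ext v
      exact and_congr_right fun _ => by rw [Left.neg_nonpos_iff]
    rw [this]; exact isArc_long ha hb hab
  zero := fun v hv => by rw [neg_eq_zero]; exact fab_eq_zero ha hb hab hv

/-- a point of the sphere near a flat point is on the flat face -/
theorem face_of_close {v : V} (hv : v ∈ S2) {y r : ℝ} (h : ‖v - PP y‖ ≤ r) (hr : |y| + r < 1) :
    v 0 = 1 ∧ |v 1 - y| ≤ r ∧ |v 2| ≤ r := by
  have h0 : |v 0 - 1| ≤ r := (norm_le_pi_norm (v - PP y) 0).trans h
  have h1 : |v 1 - y| ≤ r := (norm_le_pi_norm (v - PP y) 1).trans h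
  have h2 : |v 2| ≤ r := by
    have : |v 2 - 0| ≤ r := (norm_le_pi_norm (v - PP y) 2).trans h
    rwa [sub_zero] at this
  have hr1 : r < 1 := by linarith [abs_nonneg y]
  refine ⟨?_, h1, h2⟩
  rw [mem_sphere_fin3] at hv
  obtain ⟨a, b, c, d⟩ := hv
  have h3 : |v 1| < 1 := by
    have : |v 1| ≤ |v 1 - y| + |y| := by
      have := abs_add_le (v 1 - y) y
      rwa [sub_add_cancel] at this
    linarith
  rcases d with d | d | d
  · rcases eq_or_eq_neg_of_abs_eq d with e | e
    · exact e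
    · rw [e] at h0
      rw [show (-1 - 1 : ℝ) = -2 by norm_num, abs_neg, abs_of_pos (by norm_num : (0:ℝ) < 2)] at h0
      linarith
  · exact absurd d h3.ne
  · exact absurd d (lt_of_le_of_lt h2 hr1).ne

end P073.GB73
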