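import Vale.Agent.P073.GB73.Points

/-!
# P073, block GB4: `SpecGB4`
-/

open Set Metric Topology Filter

namespace P073.GB73

open P073
open Vale.Agent.P073.St (V)

theorem exists_pos_le {α : Type*} (s : Finset α) (f : α → ℝ) (h : ∀ a ∈ s, 0 < f a) :
    ∃ r > 0, ∀ a ∈ s, r ≤ f a := by
  classical
  induction s using Finset.induction_on with
  | empty => exact ⟨1, one_pos, fun a ha => absurd ha (Finset.notMem_empty a)⟩
  | insert b s _ ih =>
    obtain ⟨r, hr, H⟩ := ih fun a ha => h a (Finset.mem_insert_of_mem ha)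
    refine ⟨min r (f b), lt_min hr (h b (Finset.mem_insert_self _ _)), fun a ha => ?_⟩
    rcases Finset.mem_insert.1 ha with rfl | ha
    · exact min_le_right _ _
    · exact (min_le_left _ _).trans (H a ha)

theorem exists_enum (Y : Finset ℝ) {N : ℕ} (h : Y.card = N + 1) : ∃ x : ℕ → ℝ, Enum Y x N := by
  let e := Y.orderEmbOfFin h
  refine ⟨fun i => e ⟨min i N, by omega⟩, ?_, ?_, ?_, ?_⟩
  · intro i j hij _
    exact e.monotone (by rw [Fin.mk_le_mk]; omega)
  · intro i hi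
    exact e.strictMono (by rw [Fin.mk_lt_mk]; omega)
  · intro i _
    exact Finset.orderEmbOfFin_mem Y h _
  · intro y hy
    have hr : y ∈ Set.range e := by
      rw [Finset.range_orderEmbOfFin Y h]; exact hy
    obtain ⟨i, rfl⟩ := hr
    refine ⟨i, by omega, ?_⟩
    show e ⟨min i N, _⟩ = e i
    congr 1
    exact Fin.ext (by simp; omega)

/-- finitely many points of the flat segment -/
theorem iso_flat_set {Y : Finset ℝ} (hY : ∀ y ∈ Y, |y| < 1) :
    ∃ ρ > 0, ∀ φ : ConHomeo S2 S2, (∀ y ∈ Y, φ.toFun (PP y) = PP y) →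
      (∀ v ∈ equator3, ‖φ.toFun v - v‖ ≤ ρ) → 0 < φ.invFun N0 2 →
      Iso S2 (PP '' (Y : Set ℝ)) φ := by
  classical
  set Y1 : Finset ℝ := insert 0 (insert (1 / 2) Y) with hY1
  have hYY1 : Y ⊆ Y1 := (Finset.subset_insert _ _).trans (Finset.subset_insert _ _)
  have hY1abs : ∀ y ∈ Y1, |y| < 1 := by
    intro y hy
    rw [hY1, Finset.mem_insert, Finset.mem_insert] at hy
    rcases hy with rfl | rfl | hy
    · simp
    · rw [abs_of_pos (by norm_num)]; norm_num
    · exact hY y hy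
  have h0m : (0:ℝ) ∈ Y1 := Finset.mem_insert_self _ _
  have h1m : (1 / 2 : ℝ) ∈ Y1 := Finset.mem_insert_of_mem (Finset.mem_insert_self _ _)
  obtain ⟨N, hN⟩ : ∃ N, Y1.card = N + 1 := by
    have : Y1.card ≠ 0 := Finset.card_ne_zero_of_mem h0m
    exact ⟨Y1.card - 1, by omega⟩
  have hN0 : 0 < N := by
    by_contra hcon
    have : Y1.card ≤ 1 := by omega
    have := Finset.card_le_one.1 this 0 h0m (1 / 2) h1m
    norm_num at this
  obtain ⟨x, hx⟩ := exists_enum Y1 hN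
  obtain ⟨c, hc0, hc1, hcY⟩ := exists_bound hY1abs
  obtain ⟨g, hg, hgY⟩ := exists_pos_le Y1.offDiag (fun p : ℝ × ℝ => |p.1 - p.2|) (by
    rintro ⟨a, b⟩ hab
    rw [Finset.mem_offDiag] at hab
    exact abs_pos.2 (sub_ne_zero.2 hab.2.2))
  set R := min ((1 - c) / 8) (g / 8) with hR
  have hRpos : 0 < R := lt_min (by linarith) (by linarith)
  have hR1 : 8 * R ≤ 1 - c := by
    have : R ≤ (1 - c) / 8 := min_le_left _ _
    linarith
  have hR2 : 8 * R ≤ g := by
    have : R ≤ g / 8 := min_le_right _ _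
    linarith
  have hXfin : (PP '' (Y : Set ℝ)).Finite := Y.finite_toSet.image _
  have hXS : PP '' (Y : Set ℝ) ⊆ S2 := by
    rintro _ ⟨y, hy, rfl⟩; exact (PP_mem (hY y hy).le).1
  set Z : Set V := insert cc (PP '' ((Y1 \ Y : Finset ℝ) : Set ℝ)) with hZ
  have hZfin : Z.Finite := (((Y1 \ Y).finite_toSet).image _).insert _
  have hccPP : ∀ y, cc ≠ PP y := by
    intro y h
    have : (-1:ℝ) = 1 := congrFun h 0
    norm_num at this
  have hZs : ∀ a ∈ Z, Spec a := by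
    rintro a (rfl | ⟨y, hy, rfl⟩)
    · exact spec_cc
    · exact spec_PP (hY1abs y (Finset.mem_sdiff.1 (Finset.mem_coe.1 hy)).1)
  have hZX : Disjoint Z (PP '' (Y : Set ℝ)) := by
    rw [disjoint_left]
    rintro a (rfl | ⟨y, hy, rfl⟩) ⟨y', hy', h⟩
    · exact hccPP y' h.symm
    · have := PP_injective h
      rw [this] at hy'
      exact (Finset.mem_sdiff.1 (Finset.mem_coe.1 hy)).2 hy'
  have hZE : Z ⊆ equator3 := by
    rintro a (rfl | ⟨y, hy, rfl⟩)
    · exact cc_mem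
    · exact PP_mem (hY1abs y (Finset.mem_sdiff.1 (Finset.mem_coe.1 hy)).1).le
  obtain ⟨ρ, hρ, H⟩ := exists_add_points (C := equator3) (fun v hv => hv.1) hXfin hXS hZfin hZs
    hZX hZE (R / 8) (by positivity)
  refine ⟨ρ, hρ, fun φ hφ hφc hside => ?_⟩
  obtain ⟨ψ, h1, h2, h3, h4⟩ := H φ (by rintro _ ⟨y, hy, rfl⟩; exact hφ y hy) hφc
  have hHyp : Hyp Y1 R (φ.trans ψ) := by
    refine ⟨hRpos, by linarith, ?_, ?_, ?_, ?_, h3, ?_⟩
    · intro y hy
      linarith [hcY y hy]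
    · intro a ha b hb hab
      exact hR2.trans (hgY (a, b) (Finset.mem_offDiag.2 ⟨ha, hb, hab⟩))
    · intro y hy
      refine h2 _ ?_
      by_cases hyY : y ∈ Y
      · exact Or.inl ⟨y, hyY, rfl⟩
      · exact Or.inr (Or.inr ⟨y, Finset.mem_coe.2 (Finset.mem_sdiff.2 ⟨hy, hyY⟩), rfl⟩)
    · exact h2 _ (Or.inr (Or.inl rfl))
    · show 0 < φ.invFun (ψ.invFun N0) 2
      rw [h4]; exact hside
  have hI : Iso S2 (PP '' (Y : Set ℝ)) (φ.trans ψ) := (iso_flat hHyp hx hN0).mono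
    (image_mono (Finset.coe_subset.2 hYY1))
  refine (hI.trans (h1.symm hXS) hXS).congr ?_
  intro v hv
  show ψ.invFun (ψ.toFun (φ.toFun v)) = φ.toFun v
  rw [ψ.left_inv (φ.mapsTo hv)]

/-- uniform control of a conjugation -/
theorem exists_conj_close {E : Type*} [NormedAddCommGroup E] [NormedSpace ℝ E] {S : Set E}
    (hS : IsCompact S) {S' : Set V} (g : ConHomeo S S') {κ : ℝ} (hκ : 0 < κ) :
    ∃ ρ > 0, ∀ x ∈ S, ∀ y ∈ S, ‖y - x‖ ≤ ρ → ‖g.toFun y - g.toFun x‖ ≤ κ := by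
  have hu := hS.uniformContinuousOn_of_continuous g.cont
  rw [Metric.uniformContinuousOn_iff_le] at hu
  obtain ⟨ρ, hρ, H⟩ := hu κ hκ
  refine ⟨ρ, hρ, fun x hx y hy h => ?_⟩
  rw [← dist_eq_norm] at h ⊢
  exact H y hy x hx h

/-- **(GB4)** -/
theorem specGB4 : SpecGB4 := by
  intro X hX hXS
  obtain ⟨g, Y, hY, hgY⟩ := exists_to_flat hX hXS
  obtain ⟨ρ1, hρ1, H⟩ := iso_flat_set hY
  obtain ⟨ρ, hρ, hg⟩ := exists_conj_close (isCompact_sphere (0 : V) 1) g
    (lt_min hρ1 (show (0:ℝ) < 1 / 2 by norm_num))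
  refine ⟨ρ, hρ, fun φ hφ hφc => ?_⟩
  have hclose : ∀ v ∈ S2, ‖(g.symm.trans (φ.trans g)).toFun v - v‖ ≤ min ρ1 (1 / 2) := by
    intro v hv
    have hm := g.mapsTo_inv hv
    have := hg _ hm _ (φ.mapsTo hm) (hφc _ hm)
    rw [g.right_inv hv] at this
    exact this
  have hI : Iso S2 X φ := by
    refine Iso.conj g hXS ?_
    rw [hgY]
    refine H _ ?_ (fun v hv => (hclose v hv.1).trans (min_le_left _ _)) ?_
    · intro y hy
      have hm : PP y ∈ g.toFun '' X := by rw [hgY]; exact ⟨y, hy, rfl⟩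
      obtain ⟨x, hx, hxy⟩ := hm
      rw [← hxy]
      show g.toFun (φ.toFun (g.invFun (g.toFun x))) = g.toFun x
      rw [g.left_inv (hXS hx), hφ x hx]
    · set k := g.symm.trans (φ.trans g) with hk
      have h1 := hclose (k.invFun N0) (k.mapsTo_inv N0_mem)
      rw [k.right_inv N0_mem] at h1
      have h2 : |N0 2 - k.invFun N0 2| ≤ 1 / 2 :=
        ((norm_le_pi_norm (N0 - k.invFun N0) 2).trans h1).trans (min_le_right _ _)
      have h3 : N0 2 = 1 := rfl
      rw [h3] at h2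
      linarith [(abs_le.1 h2).2]
  exact hI

end P073.GB73
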