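import Vale.Agent.P073.GB73.VStep

/-!
# P073, block GB4: the steps at the gaps, and the theorem for flat points
-/

open Set Metric Topology Filter

namespace P073.GB73

open P073
open Vale.Agent.P073.St (V)

/-- increasing enumeration of the marked points -/
structure Enum (Y : Finset ℝ) (x : ℕ → ℝ) (N : ℕ) : Prop where
  mono : ∀ i j, i ≤ j → j ≤ N → x i ≤ x j
  lt : ∀ i, i < N → x i < x (i + 1)
  mem : ∀ i, i ≤ N → x i ∈ Y
  surj : ∀ y ∈ Y, ∃ i, i ≤ N ∧ x i = y

/-- identity on `g` as a map of conical sets -/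
def idHomeo {E : Type*} [NormedAddCommGroup E] [NormedSpace ℝ E] {g g' : Set E}
    (hg : ConicalSet g) (h : g = g') : ConHomeo g g' := (ConHomeo.refl hg).cast rfl h

theorem fab_mono {a b a' b' : ℝ} (ha : a ≤ a') (hb : b' ≤ b) (v : V) :
    fab a b v ≤ fab a' b' v :=
  max_le_max (max_le_max (by linarith) (by linarith)) (le_refl _)

/-- **separation**: if the image of `v` is in the closed gap, then `v` is in the closed gap. -/
theorem VSt.sep {Y : Finset ℝ} {R : ℝ} {φ φV : ConHomeo S2 S2} (H : Hyp Y R φ) {X : Set V}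
    (h : VSt X R Y φ φV) {a b : ℝ} (ha : a ∈ Y) (hb : b ∈ Y) (_hab : a < b) {v : V}
    (hv : v ∈ equator3) {y : ℝ} (hy : y ∈ Icc a b) (hvy : φV.toFun v = PP y) :
    ∃ y' ∈ Icc a b, v = PP y' := by
  have hR := H.pos
  have ha' := abs_le.1 (show |a| ≤ 1 - 8 * R by linarith [H.inn a ha])
  have hb' := abs_le.1 (show |b| ≤ 1 - 8 * R by linarith [H.inn b hb])
  have hyabs : |y| ≤ 1 - 8 * R := abs_le.2 ⟨by linarith [hy.1], by linarith [hy.2]⟩
  by_cases hall : ∀ x ∈ Y, 0 ≤ fab (x - R) (x + R) v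
  · rw [h.out v hv hall] at hvy
    have h1 := H.close v hv
    rw [hvy, norm_sub_rev] at h1
    obtain ⟨g0, g1, -⟩ := face_of_close hv.1 h1 (by linarith)
    have hve : v = PP (v 1) := eq_PP g0 hv.2
    have g1' := abs_le.1 g1
    refine ⟨v 1, ⟨?_, ?_⟩, hve⟩
    · by_contra hcon
      push Not at hcon
      have h2 := hall a ha
      rw [hve] at h2
      exact absurd (fab_PP_lt (by linarith [hy.1]) (by linarith)) (not_lt.2 h2)
    · by_contra hcon
      push Not at hcon
      have h2 := hall b hb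
      rw [hve] at h2
      exact absurd (fab_PP_lt (by linarith) (by linarith [hy.2])) (not_lt.2 h2)
  · push Not at hall
    obtain ⟨z, hz, hneg⟩ := hall
    obtain ⟨w, rfl, hw⟩ := exists_of_fab_neg hR (H.inn z hz) hv hneg
    by_cases hwz : w = z
    · rw [hwz, h.fix z hz] at hvy
      exact ⟨y, hy, by rw [hwz]; exact hvy⟩
    · obtain ⟨s, hs, h0, h1⟩ := sign_rep w z hwz
      obtain ⟨s1, s2, s3⟩ := h.sec z hz s hs |w - z| ⟨h0, hw.le⟩
      rw [← h1, hvy, PP_one] at s2
      rw [← h1, hvy, norm_PP_sub] at s3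
      have s3' := abs_le.1 s3
      refine ⟨w, ?_, rfl⟩
      have hw' := abs_lt.1 hw
      rcases hs with hs | hs
      · rw [hs, one_mul] at s2 h1
        have hza : a ≤ z := by
          by_contra hcon
          push Not at hcon
          have := H.gap z hz a ha hcon.ne
          rw [abs_of_neg (by linarith)] at this
          linarith [hy.1]
        have hzb : z < b := by linarith [hy.2]
        have := H.gap z hz b hb hzb.ne
        rw [abs_of_neg (by linarith)] at this
        exact ⟨by linarith, by linarith⟩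
      · rw [hs, neg_one_mul] at s2
        rw [hs, neg_one_mul] at h1
        have hzb : z ≤ b := by
          by_contra hcon
          push Not at hcon
          have := H.gap z hz b hb hcon.ne'
          rw [abs_of_pos (by linarith)] at this
          linarith [hy.2]
        have hza : a < z := by linarith [hy.1]
        have := H.gap z hz a ha hza.ne'
        rw [abs_of_pos (by linarith)] at this
        exact ⟨by linarith, by linarith⟩

/-- state: `φ'` is the identity between the points `0` and `k`. -/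
structure GSt (X : Set V) (x : ℕ → ℝ) (k : ℕ) (φV φ' : ConHomeo S2 S2) : Prop where
  fixed : ∀ y ∈ Icc (x 0) (x k), φ'.toFun (PP y) = PP y
  out : ∀ v ∈ equator3, 0 ≤ fab (x 0) (x k) v → φ'.toFun v = φV.toFun v
  side : 0 < φ'.invFun N0 2
  iso : Iso S2 X φ' → Iso S2 X φV

theorem GSt.step {Y : Finset ℝ} {R : ℝ} {φ φV φ' : ConHomeo S2 S2} {x : ℕ → ℝ} {N : ℕ}
    (H : Hyp Y R φ) (E : Enum Y x N) (hV : VSt (PP '' (Y : Set ℝ)) R Y φ φV) {k : ℕ} (hk : k < N)
    (h : GSt (PP '' (Y : Set ℝ)) x k φV φ') :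
    ∃ φ'' : ConHomeo S2 S2, GSt (PP '' (Y : Set ℝ)) x (k + 1) φV φ'' := by
  have hR := H.pos
  have hab := E.lt k hk
  have h0k : x 0 ≤ x k := E.mono 0 k (Nat.zero_le _) hk.le
  have ha := E.mem k hk.le
  have hb := E.mem (k + 1) hk
  have hbd : ∀ i, i ≤ N → |x i| ≤ 1 - 8 * R := fun i hi => by linarith [H.inn _ (E.mem i hi)]
  have ha' := abs_le.1 (hbd k hk.le)
  have hb' := abs_le.1 (hbd (k + 1) hk)
  have h0' := abs_le.1 (hbd 0 (Nat.zero_le _))
  have hm : ∀ y ∈ Icc (x 0) (x (k + 1)), PP y ∈ equator3 := fun y hy =>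
    PP_mem (abs_le.2 ⟨by linarith [hy.1], by linarith [hy.2]⟩)
  have hfixV : ∀ y ∈ Y, φV.toFun (PP y) = PP y := hV.fix
  have hnb : ∀ y ∈ Y, y ≤ x k ∨ x (k + 1) ≤ y := by
    intro y hy
    obtain ⟨i, hi, rfl⟩ := E.surj y hy
    rcases Nat.lt_or_ge k i with h1 | h1
    · exact Or.inr (E.mono _ _ h1 hi)
    · exact Or.inl (E.mono _ _ h1 hk.le)
  have hXfix : ∀ v ∈ PP '' (Y : Set ℝ), φ'.toFun v = v := by
    rintro _ ⟨y, hy, rfl⟩
    obtain ⟨i, hi, rfl⟩ := E.surj y hy
    rcases Nat.lt_or_ge k i with h1 | h1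
    · rw [h.out _ (PP_mem (by linarith [hbd i hi])), hfixV _ hy]
      have : x (k + 1) ≤ x i := E.mono _ _ h1 hi
      rw [fab_PP]
      exact le_max_of_le_left (le_max_of_le_right (by linarith))
    · exact h.fixed _ ⟨E.mono 0 i (Nat.zero_le _) hi, E.mono _ _ h1 hk.le⟩
  have eq1 : φ'.toFun (PP (x k)) = PP (x k) := hXfix _ ⟨_, ha, rfl⟩
  have eq2 : φ'.toFun (PP (x (k + 1))) = PP (x (k + 1)) := hXfix _ ⟨_, hb, rfl⟩
  have hflat := flat_eq (show -1 < x k by linarith) (show x (k + 1) < 1 by linarith)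
  have hcon : ConicalSet {v | v ∈ equator3 ∧ fab (x k) (x (k + 1)) v ≤ 0} := by
    rw [hflat]; exact (isArc_flat hab).conicalSet
  have hNC : ∀ v ∈ equator3, 0 ≤ fab (x k) (x (k + 1)) v →
      φ'.toFun v ∈ PP '' Icc (x k) (x (k + 1)) → v = PP (x k) ∨ v = PP (x (k + 1)) := by
    rintro v hv hv0 ⟨y, hy, hvy⟩
    rcases le_total (fab (x 0) (x k) v) 0 with h1 | h1
    · obtain ⟨w, hw, rfl⟩ := (fab_le_zero (by linarith) (by linarith) hv).1 h1
      rw [h.fixed w hw] at hvy
      have h2 := PP_injective hvy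
      left
      congr 1
      exact le_antisymm hw.2 (h2 ▸ hy.1)
    · rw [h.out v hv h1] at hvy
      obtain ⟨y', hy', rfl⟩ := hV.sep H ha hb hab hv hy hvy.symm
      rcases eq_or_lt_of_le hy'.1 with h2 | h2
      · left; rw [h2]
      · rcases eq_or_lt_of_le hy'.2 with h3 | h3
        · right; rw [h3]
        · exact absurd (fab_PP_lt h2 h3) (not_lt.2 hv0)
  have hcc : ∀ a b : ℝ, 0 ≤ fab a b cc := fun a b =>
    le_max_of_le_right (by show (0:ℝ) ≤ - -1; norm_num)
  have hface : ∀ y ∈ Icc (x k) (x (k + 1)), φ'.toFun (PP y) 0 = 1 := by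
    intro y hy
    rcases eq_or_lt_of_le hy.1 with h1 | h1
    · rw [← h1, eq1]; rfl
    · rw [h.out _ (hm y ⟨by linarith, hy.2⟩) (by
        rw [fab_PP]; exact le_max_of_le_left (le_max_of_le_right (by linarith)))]
      have hm' := hm y ⟨by linarith, hy.2⟩
      exact (face_of_close (φV.mapsTo hm'.1) (hV.close H (Finset.Subset.refl _) hm') (by
        have : |y| ≤ 1 - 8 * R := abs_le.2 ⟨by linarith [hy.1], by linarith [hy.2]⟩
        linarith)).1
  have hmid : (x k + x (k + 1)) / 2 ∈ Icc (x k) (x (k + 1)) := ⟨by linarith, by linarith⟩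
  obtain ⟨φ'', f1, f2, f3, f4⟩ := (lens_flat (show -1 < x k by linarith)
    (show x (k + 1) < 1 by linarith) hab).exchange_target φ'
    (N := PP '' Icc (x k) (x (k + 1))) (by rw [eq1, eq2]; exact isArc_flat hab)
    (by rintro _ ⟨y, hy, rfl⟩; exact (hm y ⟨by linarith [hy.1], hy.2⟩).1) hNC
    (idHomeo hcon hflat) eq1.symm eq2.symm (p := PP ((x k + x (k + 1)) / 2))
    (hm _ ⟨by linarith, by linarith⟩) (fab_PP_lt (by linarith) (by linarith))
    (X := PP '' (Y : Set ℝ)) (by
      rintro _ ⟨y, hy, rfl⟩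
      have := H.inn y hy
      exact PP_mem (by linarith)) hXfix (by
      rintro _ ⟨y, hy, rfl⟩ hneg
      exfalso
      rw [fab_PP] at hneg
      have h1 := (le_max_left _ _).trans_lt ((le_max_left _ _).trans_lt hneg)
      have h2 := (le_max_right _ _).trans_lt ((le_max_left _ _).trans_lt hneg)
      rcases hnb y hy with h3 | h3 <;> linarith)
    h.side sg continuous_sg.continuousOn (fun t ht => sg_mem ht) sg_zero cc_mem (by
      rw [sg_one, h.out cc cc_mem (hcc _ _), hV.out cc cc_mem (fun _ _ => hcc _ _), H.fixc]) (by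
      rintro t ht ⟨y, -, he⟩
      have h1 : sg t 0 = 1 := by rw [← he]; rfl
      linarith [sg_neg ht]) (by
      intro t ht v hv hv0 he
      obtain ⟨y, hy, rfl⟩ := (fab_le_zero (by linarith) (by linarith) hv).1 hv0
      have h1 := hface y hy
      rw [← he] at h1
      linarith [sg_neg ht])
  refine ⟨φ'', ?_, ?_, f3, fun hI => h.iso (f4 hI)⟩
  · intro y hy
    rcases le_total (x k) y with h1 | h1
    · rw [f2 _ (hm y hy) ((fab_le_zero (by linarith) (by linarith) (hm y hy)).2
        ⟨y, ⟨h1, hy.2⟩, rfl⟩)]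
      rfl
    · rw [f1 _ (hm y hy) (by
        rw [fab_PP]; exact le_max_of_le_left (le_max_of_le_left (by linarith))),
        h.fixed y ⟨hy.1, h1⟩]
  · intro v hv hv0
    rw [f1 v hv (hv0.trans (fab_mono h0k (le_refl _) v)),
      h.out v hv (hv0.trans (fab_mono (le_refl _) hab.le v))]

/-- the path to the flat point `m` -/
noncomputable def sm (m t : ℝ) : V := ![min 1 (max 0 (3 * t - 1)), m * min 1 (3 * t),
  min 1 (3 - 3 * t)]

theorem continuous_sm (m : ℝ) : Continuous (sm m) := by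
  refine continuous_pi fun i => ?_
  fin_cases i
  · show Continuous fun t : ℝ => min 1 (max 0 (3 * t - 1))
    fun_prop
  · show Continuous fun t : ℝ => m * min 1 (3 * t)
    fun_prop
  · show Continuous fun t : ℝ => min 1 (3 - 3 * t)
    fun_prop

theorem sm_zero (m : ℝ) : sm m 0 = N0 := by
  funext i
  fin_cases i
  · show min 1 (max 0 (3 * (0:ℝ) - 1)) = 0
    norm_num
  · show m * min 1 (3 * (0:ℝ)) = 0
    norm_num
  · show min 1 (3 - 3 * (0:ℝ)) = 1
    norm_num

theorem sm_one (m : ℝ) : sm m 1 = PP m := by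
  funext i
  fin_cases i
  · show min 1 (max 0 (3 * (1:ℝ) - 1)) = 1
    norm_num
  · show m * min 1 (3 * (1:ℝ)) = m
    norm_num
  · show min 1 (3 - 3 * (1:ℝ)) = 0
    norm_num

theorem sm_mem {m : ℝ} (hm : |m| ≤ 1) {t : ℝ} (ht : t ∈ Icc (0:ℝ) 1) : sm m t ∈ S2 := by
  obtain ⟨h0, h1⟩ := ht
  rw [mem_sphere_fin3]
  show |min 1 (max 0 (3 * t - 1))| ≤ 1 ∧ |m * min 1 (3 * t)| ≤ 1 ∧ |min 1 (3 - 3 * t)| ≤ 1 ∧
    (|min 1 (max 0 (3 * t - 1))| = 1 ∨ |m * min 1 (3 * t)| = 1 ∨ |min 1 (3 - 3 * t)| = 1)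
  have a0 : 0 ≤ min 1 (max 0 (3 * t - 1)) := le_min zero_le_one (le_max_left _ _)
  have a1 : 0 ≤ min 1 (3 * t) := le_min zero_le_one (by linarith)
  have a2 : 0 ≤ min 1 (3 - 3 * t) := le_min zero_le_one (by linarith)
  have b0 : min 1 (max 0 (3 * t - 1)) ≤ 1 := min_le_left _ _
  have b1 : min 1 (3 * t) ≤ 1 := min_le_left _ _
  have b2 : min 1 (3 - 3 * t) ≤ 1 := min_le_left _ _
  refine ⟨by rwa [abs_of_nonneg a0], ?_, by rwa [abs_of_nonneg a2], ?_⟩
  · rw [abs_mul, abs_of_nonneg a1]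
    exact mul_le_one₀ hm a1 b1
  · rcases le_total t (2 / 3) with h | h
    · right; right
      rw [min_eq_left (by linarith)]; simp
    · left
      rw [max_eq_right (by linarith), min_eq_left (by linarith)]; simp

/-- **flat points** -/
theorem iso_flat {Y : Finset ℝ} {R : ℝ} {φ : ConHomeo S2 S2} {x : ℕ → ℝ} {N : ℕ}
    (H : Hyp Y R φ) (E : Enum Y x N) (hN : 0 < N) : Iso S2 (PP '' (Y : Set ℝ)) φ := by
  obtain ⟨φV, hV⟩ := exists_vst H
  refine hV.iso ?_
  have hR := H.pos
  have start : GSt (PP '' (Y : Set ℝ)) x 0 φV φV := by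
    refine ⟨?_, fun _ _ _ => rfl, hV.side, fun h => h⟩
    intro y hy
    have : y = x 0 := le_antisymm hy.2 hy.1
    rw [this]
    exact hV.fix _ (E.mem 0 (Nat.zero_le _))
  have all : ∀ k, k ≤ N → ∃ φ' : ConHomeo S2 S2, GSt (PP '' (Y : Set ℝ)) x k φV φ' := by
    intro k
    induction k with
    | zero => exact fun _ => ⟨φV, start⟩
    | succ k ih =>
      intro hk
      obtain ⟨φ', h'⟩ := ih (Nat.le_of_succ_le hk)
      exact h'.step H E hV hk
  obtain ⟨φ', h⟩ := all N (le_refl _)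
  refine h.iso ?_
  have hbd : ∀ i, i ≤ N → |x i| ≤ 1 - 8 * R := fun i hi => by linarith [H.inn _ (E.mem i hi)]
  have h0' := abs_le.1 (hbd 0 (Nat.zero_le _))
  have hN' := abs_le.1 (hbd N (le_refl _))
  have h1' := abs_le.1 (hbd 1 hN)
  have h01 : x 0 < x 1 := E.lt 0 hN
  have h1N : x 1 ≤ x N := E.mono 1 N hN (le_refl _)
  have h0N : x 0 < x N := h01.trans_le h1N
  have hgap := H.gap _ (E.mem 0 (Nat.zero_le _)) _ (E.mem 1 hN) h01.ne
  rw [abs_of_neg (by linarith)] at hgap
  set m := (x 0 + x 1) / 2 with hmdef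
  have hm0 : x 0 + 4 * R ≤ m := by rw [hmdef]; linarith
  have hm1 : m + 4 * R ≤ x 1 := by rw [hmdef]; linarith
  have hmabs : |m| ≤ 1 - 8 * R := abs_le.2 ⟨by linarith, by linarith⟩
  have hlt := flat_eq (show -1 < x 0 by linarith) (show x N < 1 by linarith)
  have hm : ∀ y ∈ Icc (x 0) (x N), PP y ∈ equator3 := fun y hy =>
    PP_mem (abs_le.2 ⟨by linarith [hy.1], by linarith [hy.2]⟩)
  have hXI : ∀ y ∈ Y, y ∈ Icc (x 0) (x N) := by
    intro y hy
    obtain ⟨i, hi, rfl⟩ := E.surj y hy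
    exact ⟨E.mono 0 i (Nat.zero_le _) hi, E.mono i N hi (le_refl _)⟩
  have hge : {v | v ∈ equator3 ∧ -fab (x 0) (x N) v ≤ 0} =
      {v | v ∈ equator3 ∧ 0 ≤ fab (x 0) (x N) v} := by
    ext v
    exact and_congr_right fun _ => by rw [Left.neg_nonpos_iff]
  have hcon : ConicalSet {v | v ∈ equator3 ∧ -fab (x 0) (x N) v ≤ 0} := by
    rw [hge]
    exact (isArc_long (by linarith) (by linarith) h0N).conicalSet
  have eq1 : φ'.toFun (PP (x 0)) = PP (x 0) := h.fixed _ ⟨le_refl _, h0N.le⟩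
  have eq2 : φ'.toFun (PP (x N)) = PP (x N) := h.fixed _ ⟨h0N.le, le_refl _⟩
  have hmN : fab (x 0) (x N) (PP m) < 0 := fab_PP_lt (by linarith) (by linarith)
  obtain ⟨φ'', f1, f2, f3, f4⟩ := (lens_long (show -1 < x 0 by linarith)
    (show x N < 1 by linarith) h0N).exchange_target φ'
    (N := {v | v ∈ equator3 ∧ 0 ≤ fab (x 0) (x N) v})
    (by rw [eq1, eq2]; exact isArc_long (by linarith) (by linarith) h0N)
    (fun v hv => hv.1.1) (by
      intro v hv hv0 hvN
      obtain ⟨w, hw, rfl⟩ := (fab_le_zero (show -1 < x 0 by linarith)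
        (show x N < 1 by linarith) hv).1 (by linarith)
      rw [h.fixed w hw] at hvN
      have h3 : fab (x 0) (x N) (PP w) = 0 := le_antisymm (by linarith) hvN.2
      exact (fab_eq_zero (by linarith) (by linarith) h0N hv).1 h3)
    (idHomeo hcon hge) eq1.symm eq2.symm (p := cc) cc_mem (by
      have : (1:ℝ) ≤ fab (x 0) (x N) cc := le_max_of_le_right (by show (1:ℝ) ≤ - -1; norm_num)
      linarith)
    (X := PP '' (Y : Set ℝ)) (by
      rintro _ ⟨y, hy, rfl⟩
      exact hm y (hXI y hy)) (by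
      rintro _ ⟨y, hy, rfl⟩
      exact h.fixed y (hXI y hy)) (by
      rintro _ ⟨y, hy, rfl⟩ hneg
      have := (fab_le_zero (show -1 < x 0 by linarith) (show x N < 1 by linarith)
        (hm y (hXI y hy))).2 ⟨y, hXI y hy, rfl⟩
      exfalso; linarith)
    h.side (sm m) (continuous_sm m).continuousOn
    (fun t ht => sm_mem (by linarith) ht) (sm_zero m)
    (c := PP m) (hm m ⟨by linarith, by linarith⟩) (by
      rw [sm_one, h.fixed m ⟨by linarith, by linarith⟩]) (by
      rintro t ht ⟨hE, h0⟩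
      have h2 : min 1 (3 - 3 * t) = 0 := hE.2
      have h3 : t = 1 := by
        rcases min_choice (1:ℝ) (3 - 3 * t) with h | h
        · rw [h] at h2; norm_num at h2
        · rw [h] at h2; linarith
      rw [h3, sm_one] at h0
      exact absurd hmN (not_lt.2 h0)) (by
      intro t ht v hv hv0 he
      have hv0' : 0 ≤ fab (x 0) (x N) v := by linarith
      rw [h.out v hv hv0'] at he
      have hcl := hV.close H (Finset.Subset.refl _) hv
      rw [← he] at hcl
      have c0 : |sm m t 0 - v 0| ≤ 3 * R := (norm_le_pi_norm (sm m t - v) 0).trans hcl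
      have c1 : |sm m t 1 - v 1| ≤ 3 * R := (norm_le_pi_norm (sm m t - v) 1).trans hcl
      have c2 : |sm m t 2 - v 2| ≤ 3 * R := (norm_le_pi_norm (sm m t - v) 2).trans hcl
      have hv2 : v 2 = 0 := hv.2
      have e2 : sm m t 2 = min 1 (3 - 3 * t) := rfl
      rw [hv2, sub_zero, e2] at c2
      have hR1 : 3 * R < 1 := by linarith [H.small]
      have ht2 : 2 / 3 < t := by
        by_contra hcon'
        push Not at hcon'
        rw [min_eq_left (by linarith), abs_one] at c2
        linarith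
      have e0 : sm m t 0 = 1 := by
        show min 1 (max 0 (3 * t - 1)) = 1
        rw [max_eq_right (by linarith), min_eq_left (by linarith)]
      have e1 : sm m t 1 = m := by
        show m * min 1 (3 * t) = m
        rw [min_eq_left (by linarith), mul_one]
      rw [e0] at c0
      rw [e1] at c1
      have hvE := (mem_equator3 v).1 hv
      have c1' := abs_le.1 c1
      have c0' := abs_le.1 c0
      have hmabs' := abs_le.1 hmabs
      have hv1 : |v 1| < 1 := abs_lt.2 ⟨by linarith, by linarith⟩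
      have hv00 : |v 0| = 1 := hvE.2.2.2.resolve_right hv1.ne
      rw [abs_of_nonneg (by linarith)] at hv00
      have hve : v = PP (v 1) := eq_PP hv00 hv2
      rw [hve] at hv0'
      exact absurd (fab_PP_lt (by linarith) (by linarith)) (not_lt.2 hv0'))
  have hfixE : ∀ v ∈ equator3, φ''.toFun v = v := by
    intro v hv
    rcases le_total 0 (fab (x 0) (x N) v) with h1 | h1
    · rw [f2 v hv (by linarith)]; rfl
    · rw [f1 v hv (by linarith)]
      obtain ⟨w, hw, rfl⟩ := (fab_le_zero (show -1 < x 0 by linarith)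
        (show x N < 1 by linarith) hv).1 h1
      exact h.fixed w hw
  refine f4 ((iso_of_fix_equator φ'' hfixE f3).mono ?_)
  rintro _ ⟨y, hy, rfl⟩
  exact hm y (hXI y hy)

end P073.GB73
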