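import Vale.Agent.P073.GB73.FlatLens

/-!
# P073, block GB4: the straight beginning of the new arcs at a marked point
-/

open Set Metric Topology Filter

namespace P073.GB73

open P073
open Vale.Agent.P073.St (V)

/-- from `P x` go straight to the last exit point, then along the image curve -/
theorem exists_half (φ : ConHomeo S2 S2) {x R s : ℝ} (hR : 0 < R) (hx : |x| + 8 * R ≤ 1)
    (hs : s = 1 ∨ s = -1) (hclose : ∀ v ∈ equator3, ‖φ.toFun v - v‖ ≤ R / 8)
    (_hfix : φ.toFun (PP x) = PP x) :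
    ∃ N : Set V, IsArc N (PP x) (φ.toFun (PP (x + s * R))) ∧ N ⊆ S2 ∧ ∀ v ∈ N, v 0 = 1 ∧
      (v = PP x ∨ 0 < s * (v 1 - x)) ∧ ‖v - PP x‖ ≤ 2 * R ∧
      (‖v - PP x‖ ≤ R / 2 ∨ ∃ u ∈ Icc 0 R, v = φ.toFun (PP (x + s * u))) := by
  have hs1 : |s| = 1 := by rcases hs with h | h <;> rw [h] <;> simp
  have hss : s * s = 1 := by rcases hs with h | h <;> rw [h] <;> norm_num
  have hs0 : s ≠ 0 := by rcases hs with h | h <;> rw [h] <;> norm_num
  have habs : ∀ u : ℝ, 0 ≤ u → |s * u| = u := fun u hu => by rw [abs_mul, hs1, one_mul, abs_of_nonneg hu]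
  have hmemE : ∀ u ∈ Icc 0 R, PP (x + s * u) ∈ equator3 := by
    intro u hu
    have h1 : |x + s * u| ≤ |x| + u := by
      have := abs_add_le x (s * u)
      rwa [habs u hu.1] at this
    exact PP_mem (by linarith [hu.2])
  have hmem : ∀ u ∈ Icc 0 R, PP (x + s * u) ∈ S2 := fun u hu => (hmemE u hu).1
  let κ : ℝ → V := fun u => φ.toFun (PP (x + s * u))
  have hκdist : ∀ u ∈ Icc 0 R, ‖κ u - PP (x + s * u)‖ ≤ R / 8 := fun u hu => hclose _ (hmemE u hu)
  have hPPd : ∀ u, 0 ≤ u → ‖PP (x + s * u) - PP x‖ = u := by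
    intro u hu
    rw [norm_PP_sub, add_sub_cancel_left, habs u hu]
  have hκx : ∀ u ∈ Icc 0 R, ‖κ u - PP x‖ ≤ R / 8 + u := by
    intro u hu
    calc ‖κ u - PP x‖ ≤ ‖κ u - PP (x + s * u)‖ + ‖PP (x + s * u) - PP x‖ := norm_sub_le_norm_sub_add_norm_sub _ _ _
      _ ≤ R / 8 + u := by rw [hPPd u hu.1]; linarith [hκdist u hu]
  have hκx' : ∀ u ∈ Icc 0 R, u - R / 8 ≤ ‖κ u - PP x‖ := by
    intro u hu
    have h1 : ‖PP (x + s * u) - PP x‖ ≤ ‖PP (x + s * u) - κ u‖ + ‖κ u - PP x‖ :=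
      norm_sub_le_norm_sub_add_norm_sub _ _ _
    rw [hPPd u hu.1, norm_sub_rev (PP (x + s * u))] at h1
    linarith [hκdist u hu]
  -- first coordinate
  have hface : ∀ u ∈ Icc 0 R, κ u 0 = 1 ∧ |κ u 1 - (x + s * u)| ≤ R / 8 ∧ |κ u 2| ≤ R / 8 := by
    intro u hu
    have h1 : |x + s * u| ≤ |x| + u := by
      have := abs_add_le x (s * u)
      rwa [habs u hu.1] at this
    exact face_of_close (φ.mapsTo (hmem u hu)) (hκdist u hu) (by linarith [hu.2])
  have hkpos : ∀ u ∈ Icc 0 R, u - R / 8 ≤ s * (κ u 1 - x) := by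
    intro u hu
    have h1 := (hface u hu).2.1
    have h2 : s * (κ u 1 - x) = s * (κ u 1 - (x + s * u)) + u := by
      have : s * (s * u) = u := by rw [← mul_assoc, hss, one_mul]
      calc s * (κ u 1 - x) = s * (κ u 1 - (x + s * u)) + s * (s * u) := by ring
        _ = _ := by rw [this]
    have h3 : |s * (κ u 1 - (x + s * u))| ≤ R / 8 := by rw [abs_mul, hs1, one_mul]; exact h1
    have h4 := (abs_le.1 h3).1
    linarith
  -- continuity, conicality, injectivity
  have haff : ∀ {I : Set ℝ}, ConicalSet I → ConicalOn (fun u : ℝ => x + s * u) I := fun hI =>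
    (conicalOn_const x hI).add ((conicalOn_id hI).const_smul s)
  have hgc : Continuous fun u : ℝ => PP (x + s * u) := continuous_PP.comp (by fun_prop)
  have hgcon : ∀ {I : Set ℝ}, ConicalSet I → ConicalOn (fun u : ℝ => PP (x + s * u)) I := by
    intro I hI
    exact (conicalOn_PP (X := univ) (IsOpen.conicalSet isOpen_univ)).comp (haff hI)
      (fun _ _ => mem_univ _) (by fun_prop)
  have hκc : ContinuousOn κ (Icc 0 R) := φ.cont.comp hgc.continuousOn hmem
  have hκcon : ∀ {I : Set ℝ}, ConicalSet I → I ⊆ Icc 0 R → ConicalOn κ I := by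
    intro I hI hsub
    exact φ.conical.comp (hgcon hI) (fun u hu => hmem u (hsub hu)) hgc.continuousOn
  have hκinj : InjOn κ (Icc 0 R) := by
    intro u hu u' hu' h
    have h1 := PP_injective (φ.injOn (hmem u hu) (hmem u' hu') h)
    have h2 : s * u = s * u' := by linarith
    exact mul_left_cancel₀ hs0 h2
  -- last exit
  have hT : IsCompact (Icc 0 R ∩ (fun u => ‖κ u - PP x‖) ⁻¹' Iic (R / 2)) :=
    isCompact_Icc.of_isClosed_subset (((hκc.sub continuousOn_const).norm).preimage_isClosed_of_isClosed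
      isClosed_Icc isClosed_Iic) inter_subset_left
  have hTn : (Icc 0 R ∩ (fun u => ‖κ u - PP x‖) ⁻¹' Iic (R / 2)).Nonempty := by
    refine ⟨3 * R / 8, ⟨by positivity, by linarith⟩, ?_⟩
    have := hκx (3 * R / 8) ⟨by positivity, by linarith⟩
    show ‖κ (3 * R / 8) - PP x‖ ≤ R / 2
    linarith
  obtain ⟨τ, ⟨hτ, hτ'⟩, hτmax⟩ := hT.exists_isGreatest hTn
  have hτd : ‖κ τ - PP x‖ ≤ R / 2 := hτ'
  have hτ1 : 3 * R / 8 ≤ τ := hτmax ⟨⟨by positivity, by linarith⟩, by
    have := hκx (3 * R / 8) ⟨by positivity, by linarith⟩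
    show ‖κ (3 * R / 8) - PP x‖ ≤ R / 2
    linarith⟩
  have hτR : τ < R := by
    refine lt_of_le_of_ne hτ.2 fun h => ?_
    have := hκx' τ hτ
    rw [h] at this hτd
    linarith
  have hsub : Icc τ R ⊆ Icc 0 R := Icc_subset_Icc_left hτ.1
  -- the two arcs
  have harc2 : IsArc (κ '' Icc τ R) (κ τ) (κ R) := by
    have hI : ConicalSet (Icc τ R) := Convex.conicalSet (convex_Icc τ R)
    refine IsArc.of_param hτR (ConHomeo.ofCompact isCompact_Icc κ (hκc.mono hsub)
      (hκinj.mono hsub) (hκcon hI hsub) rfl) ?_ ?_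
    · rw [ConHomeo.ofCompact_toFun]
    · rw [ConHomeo.ofCompact_toFun]
  have hτs : 0 < s * (κ τ 1 - x) := by linarith [hkpos τ hτ]
  have hne : PP x ≠ κ τ := by
    intro h
    rw [← h, PP_one, sub_self, mul_zero] at hτs
    exact lt_irrefl _ hτs
  have hseg : ∀ v ∈ segment ℝ (PP x) (κ τ), ‖v - PP x‖ ≤ R / 2 ∧ v 0 = 1 ∧
      (v = PP x ∨ 0 < s * (v 1 - x)) := by
    rintro v ⟨a, b, ha, hb, hab, rfl⟩
    have hv : a • PP x + b • κ τ - PP x = b • (κ τ - PP x) := by
      have : a = 1 - b := by linarith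
      rw [this]; module
    refine ⟨?_, ?_, ?_⟩
    · rw [hv, norm_smul, Real.norm_of_nonneg hb]
      calc b * ‖κ τ - PP x‖ ≤ 1 * ‖κ τ - PP x‖ := by gcongr; linarith
        _ ≤ R / 2 := by rw [one_mul]; exact hτd
    · show a * 1 + b * κ τ 0 = 1
      rw [(hface τ hτ).1]; linarith
    · rcases eq_or_lt_of_le hb with h | h
      · left
        rw [← h] at hab ⊢
        rw [add_zero] at hab
        rw [hab, one_smul, zero_smul, add_zero]
      · right
        have h1 : (a • PP x + b • κ τ) 1 = a * x + b * κ τ 1 := rfl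
        have h2 : s * (a * x + b * κ τ 1 - x) = b * (s * (κ τ 1 - x)) := by
          have : a = 1 - b := by linarith
          rw [this]; ring
        rw [h1, h2]
        exact mul_pos h hτs
  have hint : segment ℝ (PP x) (κ τ) ∩ κ '' Icc τ R ⊆ {κ τ} := by
    rintro v ⟨h1, ⟨u, hu, rfl⟩⟩
    have h2 := (hseg _ h1).1
    have h3 : u ≤ τ := hτmax ⟨hsub hu, h2⟩
    rw [mem_singleton_iff, le_antisymm h3 hu.1]
  refine ⟨segment ℝ (PP x) (κ τ) ∪ κ '' Icc τ R, (isArc_segment hne).trans harc2 hint, ?_, ?_⟩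
  · rintro v (hv | hv)
    · obtain ⟨h1, h2, -⟩ := hseg v hv
      have h3 : |v 1 - x| ≤ R / 2 := (norm_le_pi_norm (v - PP x) 1).trans h1
      have h4 : |v 2| ≤ R / 2 := by
        have : |v 2 - 0| ≤ R / 2 := (norm_le_pi_norm (v - PP x) 2).trans h1
        rwa [sub_zero] at this
      have h5 : |v 1| ≤ |v 1 - x| + |x| := by
        have := abs_add_le (v 1 - x) x
        rwa [sub_add_cancel] at this
      rw [mem_sphere_fin3]
      refine ⟨by rw [h2, abs_one], by linarith, ?_, Or.inl (by rw [h2, abs_one])⟩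
      have := abs_nonneg x
      linarith
    · obtain ⟨u, hu, rfl⟩ := hv
      exact φ.mapsTo (hmem u (hsub hu))
  · rintro v (hv | hv)
    · obtain ⟨h1, h2, h3⟩ := hseg v hv
      exact ⟨h2, h3, by linarith, Or.inl h1⟩
    · obtain ⟨u, hu, rfl⟩ := hv
      have hu' := hsub hu
      refine ⟨(hface u hu').1, Or.inr ?_, ?_, Or.inr ⟨u, hu', rfl⟩⟩
      · have := hkpos u hu'
        linarith [hu.1]
      · have := hκx u hu'
        linarith [hu.2]

end P073.GB73
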