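import Vale.Agent.P073.ConGlue

/-!
# P073, block GB4: conical pseudo-isotopies relative to a set, the Alexander trick in a disc
-/

open Set Metric Topology Filter

namespace P073.GB73

open P073

variable {E F : Type*} [NormedAddCommGroup E] [NormedSpace ℝ E]
  [NormedAddCommGroup F] [NormedSpace ℝ F]

/-! ### products with an interval -/

theorem conicalSet_prod {X : Set E} {T : Set F} (hX : ConicalSet X) (hT : ConicalSet T) :
    ConicalSet (X ×ˢ T) := by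
  rintro ⟨x, t⟩ ⟨hx, ht⟩
  obtain ⟨r, hr, H⟩ := hX x hx
  obtain ⟨s, hs, H'⟩ := hT t ht
  refine ⟨min r s, lt_min hr hs, ?_⟩
  rintro ⟨v, w⟩ hv ⟨h1, h2⟩ c hc
  have hv1 : ‖v‖ ≤ r := (norm_fst_le (v, w)).trans (hv.trans (min_le_left _ _))
  have hw1 : ‖w‖ ≤ s := (norm_snd_le (v, w)).trans (hv.trans (min_le_right _ _))
  exact ⟨H v hv1 h1 c hc, H' w hw1 h2 c hc⟩

/-- product with the identity -/
def prodId {X : Set E} {Y : Set F} {G : Type*} [NormedAddCommGroup G] [NormedSpace ℝ G]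
    (h : ConHomeo X Y) {T : Set G} (hT : ConicalSet T) :
    ConHomeo (X ×ˢ T) (Y ×ˢ T) where
  toFun := fun w => (h.toFun w.1, w.2)
  invFun := fun w => (h.invFun w.1, w.2)
  mapsTo := fun w hw => ⟨h.mapsTo hw.1, hw.2⟩
  mapsTo_inv := fun w hw => ⟨h.mapsTo_inv hw.1, hw.2⟩
  left_inv := fun w hw => by simp only; rw [h.left_inv hw.1]
  right_inv := fun w hw => by simp only; rw [h.right_inv hw.1]
  cont := (h.cont.comp continuousOn_fst fun _ hw => hw.1).prodMk continuousOn_snd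
  cont_inv := (h.cont_inv.comp continuousOn_fst fun _ hw => hw.1).prodMk continuousOn_snd
  conical := by
    have hXT := conicalSet_prod h.conicalSet_left hT
    refine ConicalOn.prodMk ?_ ?_
    · exact h.conical.comp (conicalOn_linear (LinearMap.fst ℝ E G) hXT) (fun w hw => hw.1)
        continuousOn_fst
    · exact conicalOn_linear (LinearMap.snd ℝ E G) hXT

@[simp] theorem prodId_toFun {X : Set E} {Y : Set F} {G : Type*} [NormedAddCommGroup G]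
    [NormedSpace ℝ G] (h : ConHomeo X Y) {T : Set G} (hT : ConicalSet T) (w : E × G) :
    (prodId h hT).toFun w = (h.toFun w.1, w.2) := rfl

@[simp] theorem prodId_invFun {X : Set E} {Y : Set F} {G : Type*} [NormedAddCommGroup G]
    [NormedSpace ℝ G] (h : ConHomeo X Y) {T : Set G} (hT : ConicalSet T) (w : F × G) :
    (prodId h hT).invFun w = (h.invFun w.1, w.2) := rfl

theorem conicalSet_Icc01 : ConicalSet (Icc (0:ℝ) 1) := Convex.conicalSet (convex_Icc 0 1)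

/-! ### isotopies -/

/-- `φ` is (conically, pseudo-) isotopic to the identity relative to `A`. -/
def Iso (S A : Set E) (φ : ConHomeo S S) : Prop :=
  ∃ F : ConHomeo (S ×ˢ Icc (0:ℝ) 1) (S ×ˢ Icc (0:ℝ) 1),
    (∀ x ∈ S, F.toFun (x, 1) = (φ.toFun x, 1)) ∧ (∀ x ∈ S, F.toFun (x, 0) = (x, 0)) ∧
    ∀ x ∈ A, ∀ t ∈ Icc (0:ℝ) 1, F.toFun (x, t) = (x, t)

theorem Iso.refl {S : Set E} (hS : ConicalSet S) (A : Set E) : Iso S A (ConHomeo.refl hS) :=
  ⟨ConHomeo.refl (conicalSet_prod hS conicalSet_Icc01), fun _ _ => rfl, fun _ _ => rfl,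
    fun _ _ _ _ => rfl⟩

theorem Iso.mono {S A A' : Set E} {φ : ConHomeo S S} (h : Iso S A φ) (hA : A' ⊆ A) :
    Iso S A' φ := by
  obtain ⟨F, h1, h2, h3⟩ := h
  exact ⟨F, h1, h2, fun x hx => h3 x (hA hx)⟩

theorem Iso.congr {S A : Set E} {φ ψ : ConHomeo S S} (h : Iso S A φ)
    (he : ∀ x ∈ S, φ.toFun x = ψ.toFun x) : Iso S A ψ := by
  obtain ⟨F, h1, h2, h3⟩ := h
  exact ⟨F, fun x hx => by rw [h1 x hx, he x hx], h2, h3⟩

theorem Iso.trans {S A : Set E} {φ ψ : ConHomeo S S} (h : Iso S A φ) (h' : Iso S A ψ)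
    (_hA : A ⊆ S) : Iso S A (φ.trans ψ) := by
  obtain ⟨F, h1, h2, h3⟩ := h
  obtain ⟨F', h1', h2', h3'⟩ := h'
  refine ⟨F.trans F', ?_, ?_, ?_⟩
  · intro x hx
    simp only [ConHomeo.trans_toFun, Function.comp]
    rw [h1 x hx, h1' _ (φ.mapsTo hx)]
  · intro x hx
    simp only [ConHomeo.trans_toFun, Function.comp]
    rw [h2 x hx, h2' x hx]
  · intro x hx t ht
    simp only [ConHomeo.trans_toFun, Function.comp]
    rw [h3 x hx t ht, h3' x hx t ht]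

theorem Iso.symm {S A : Set E} {φ : ConHomeo S S} (h : Iso S A φ) (hA : A ⊆ S) :
    Iso S A φ.symm := by
  obtain ⟨F, h1, h2, h3⟩ := h
  refine ⟨F.symm, ?_, ?_, ?_⟩
  · intro x hx
    simp only [ConHomeo.symm_toFun]
    have hy := φ.mapsTo_inv hx
    have h4 : F.invFun (F.toFun (φ.invFun x, 1)) = (φ.invFun x, 1) :=
      F.left_inv ⟨hy, by simp⟩
    rw [h1 _ hy, φ.right_inv hx] at h4
    exact h4
  · intro x hx
    simp only [ConHomeo.symm_toFun]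
    have h4 : F.invFun (F.toFun (x, 0)) = (x, 0) := F.left_inv ⟨hx, by simp⟩
    rwa [h2 _ hx] at h4
  · intro x hx t ht
    simp only [ConHomeo.symm_toFun]
    have h4 : F.invFun (F.toFun (x, t)) = (x, t) := F.left_inv ⟨hA hx, ht⟩
    rwa [h3 _ hx t ht] at h4

/-- if `φ ∘ η` is isotopic to the identity and `η` is, then `φ` is. -/
theorem Iso.of_trans {S A : Set E} {φ η : ConHomeo S S} (h : Iso S A (η.trans φ))
    (h' : Iso S A η) (hA : A ⊆ S) : Iso S A φ := by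
  refine ((h'.symm hA).trans h hA).congr ?_
  intro x hx
  show φ.toFun (η.toFun (η.invFun x)) = φ.toFun x
  rw [η.right_inv hx]

/-- conjugation -/
theorem Iso.conj {S : Set E} {S' : Set F} {A : Set E} {φ : ConHomeo S S} (g : ConHomeo S S')
    (hA : A ⊆ S) (h : Iso S' (g.toFun '' A) (g.symm.trans (φ.trans g))) : Iso S A φ := by
  obtain ⟨F, h1, h2, h3⟩ := h
  let G := prodId g conicalSet_Icc01
  refine ⟨G.trans (F.trans G.symm), ?_, ?_, ?_⟩
  · intro x hx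
    show G.invFun (F.toFun (g.toFun x, 1)) = _
    rw [h1 _ (g.mapsTo hx)]
    show (g.invFun (g.toFun (φ.toFun (g.invFun (g.toFun x)))), (1:ℝ)) = _
    rw [g.left_inv hx, g.left_inv (φ.mapsTo hx)]
  · intro x hx
    show G.invFun (F.toFun (g.toFun x, 0)) = _
    rw [h2 _ (g.mapsTo hx)]
    show (g.invFun (g.toFun x), (0:ℝ)) = _
    rw [g.left_inv hx]
  · intro x hx t ht
    show G.invFun (F.toFun (g.toFun x, t)) = _
    rw [h3 _ (mem_image_of_mem _ hx) t ht]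
    show (g.invFun (g.toFun x), t) = _
    rw [g.left_inv (hA hx)]

/-! ### Alexander trick on the standard disc -/

/-- the standard disc -/
abbrev KK : Set (Fin 2 → ℝ) := closedBall 0 1

theorem conicalSet_KK : ConicalSet KK := (locCone_closedBall_pi 2 1).conicalSet

/-- the base of the cone -/
def cylBase : Set ((Fin 2 → ℝ) × ℝ) :=
  (sphere (0 : Fin 2 → ℝ) 1 ×ˢ Icc (0:ℝ) 1) ∪ (KK ×ˢ {(1:ℝ)})

theorem rayBase_cylBase : RayBase cylBase := by
  have hsub : ∀ w ∈ cylBase, ‖w‖ = 1 := by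
    rintro ⟨x, t⟩ (⟨hx, ht⟩ | ⟨hx, ht⟩)
    · rw [mem_sphere_zero_iff_norm] at hx
      simp only at hx ht
      rw [Prod.norm_def, hx, Real.norm_eq_abs, abs_of_nonneg ht.1, max_eq_left ht.2]
    · rw [mem_closedBall_zero_iff] at hx
      simp only [mem_singleton_iff] at hx ht
      rw [Prod.norm_def, ht, norm_one, max_eq_right hx]
  refine ⟨?_, ?_, ?_⟩
  · exact ((isCompact_sphere _ _).prod isCompact_Icc).union
      ((isCompact_closedBall _ _).prod isCompact_singleton)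
  · intro h
    have := hsub _ h
    simp at this
  · intro x hx s hs hsx
    have h1 := hsub _ hx
    have h2 := hsub _ hsx
    rw [norm_smul, h1, mul_one, Real.norm_of_nonneg hs.le] at h2
    exact h2

theorem coneSet_cylBase : coneSet cylBase = KK ×ˢ Icc (0:ℝ) 1 := by
  ext ⟨x, t⟩
  constructor
  · rintro ⟨s, hs, ⟨y, u⟩, hyu, h⟩
    obtain ⟨rfl, rfl⟩ : x = s • y ∧ t = s • u := Prod.ext_iff.1 h
    have hy : ‖y‖ ≤ 1 ∧ u ∈ Icc (0:ℝ) 1 := by
      rcases hyu with ⟨h1, h2⟩ | ⟨h1, h2⟩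
      · exact ⟨(mem_sphere_zero_iff_norm.1 h1).le, h2⟩
      · rw [mem_singleton_iff] at h2
        simp only at h2
        exact ⟨mem_closedBall_zero_iff.1 h1, by rw [h2]; simp⟩
    refine ⟨?_, ?_⟩
    · rw [mem_closedBall_zero_iff]
      exact norm_smul_le_of_mem_Icc hs hy.1
    · rw [smul_eq_mul]
      exact ⟨mul_nonneg hs.1 hy.2.1, mul_le_one₀ hs.2 hy.2.1 hy.2.2⟩
  · rintro ⟨hx, ht⟩
    rw [mem_closedBall_zero_iff] at hx
    simp only at hx ht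
    by_cases hm : x = 0 ∧ t = 0
    · refine ⟨0, ⟨le_refl _, zero_le_one⟩, (0, 1), Or.inr ⟨by simp, rfl⟩, ?_⟩
      rw [hm.1, hm.2, zero_smul]; rfl
    · have hpos : 0 < max ‖x‖ t := by
        by_contra hle
        push Not at hle
        have h1 : ‖x‖ ≤ 0 := (le_max_left _ _).trans hle
        have h2 : t ≤ 0 := (le_max_right _ _).trans hle
        exact hm ⟨norm_le_zero_iff.1 h1, le_antisymm h2 ht.1⟩
      set m := max ‖x‖ t with hmdef
      refine ⟨m, ⟨hpos.le, max_le hx ht.2⟩, (m⁻¹ • x, m⁻¹ * t), ?_, ?_⟩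
      · rcases le_total t ‖x‖ with h | h
        · left
          have hmx : m = ‖x‖ := max_eq_left h
          refine ⟨?_, ?_⟩
          · rw [mem_sphere_zero_iff_norm, norm_smul, norm_inv, Real.norm_of_nonneg hpos.le, ← hmx,
              inv_mul_cancel₀ hpos.ne']
          · refine ⟨mul_nonneg (inv_nonneg.2 hpos.le) ht.1, ?_⟩
            rw [inv_mul_le_iff₀ hpos, mul_one, hmx]; exact h
        · right
          have hmx : m = t := max_eq_right h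
          refine ⟨?_, ?_⟩
          · rw [mem_closedBall_zero_iff, norm_smul, norm_inv, Real.norm_of_nonneg hpos.le,
              inv_mul_le_iff₀ hpos, mul_one, hmx]
            exact h
          · rw [mem_singleton_iff]
            show m⁻¹ * t = 1
            rw [← hmx, inv_mul_cancel₀ hpos.ne']
      · refine Prod.ext ?_ ?_
        · show x = m • (m⁻¹ • x)
          rw [smul_smul, mul_inv_cancel₀ hpos.ne', one_smul]
        · show t = m • (m⁻¹ * t)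
          rw [smul_eq_mul, mul_inv_cancel_left₀ hpos.ne']

theorem exists_cyl (η : ConHomeo KK KK) (hη : ∀ x ∈ sphere (0 : Fin 2 → ℝ) 1, η.toFun x = x) :
    ∃ F : ConHomeo (KK ×ˢ Icc (0:ℝ) 1) (KK ×ˢ Icc (0:ℝ) 1),
      (∀ x ∈ KK, F.toFun (x, 1) = (η.toFun x, 1)) ∧ (∀ x ∈ KK, F.toFun (x, 0) = (x, 0)) ∧
      (∀ x ∈ sphere (0 : Fin 2 → ℝ) 1, ∀ t ∈ Icc (0:ℝ) 1, F.toFun (x, t) = (x, t)) ∧
      (η.toFun 0 = 0 → ∀ t ∈ Icc (0:ℝ) 1, F.toFun (0, t) = (0, t)) := by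
  have hsp : ConicalSet (sphere (0 : Fin 2 → ℝ) 1) := conicalSet_sphere_pi 2
  have h1c : ConicalSet ({(1:ℝ)} : Set ℝ) := Convex.conicalSet (convex_singleton 1)
  let h₁ : ConHomeo (sphere (0 : Fin 2 → ℝ) 1 ×ˢ Icc (0:ℝ) 1) (sphere (0 : Fin 2 → ℝ) 1 ×ˢ Icc (0:ℝ) 1) :=
    ConHomeo.refl (conicalSet_prod hsp conicalSet_Icc01)
  let h₂ : ConHomeo (KK ×ˢ {(1:ℝ)}) (KK ×ˢ {(1:ℝ)}) := prodId η h1c
  have hX₁ : IsClosed (sphere (0 : Fin 2 → ℝ) 1 ×ˢ Icc (0:ℝ) 1) := isClosed_sphere.prod isClosed_Icc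
  have hX₂ : IsClosed (KK ×ˢ {(1:ℝ)}) := isClosed_closedBall.prod isClosed_singleton
  have hag : EqOn h₁.toFun h₂.toFun
      ((sphere (0 : Fin 2 → ℝ) 1 ×ˢ Icc (0:ℝ) 1) ∩ (KK ×ˢ {(1:ℝ)})) := by
    rintro ⟨x, t⟩ ⟨⟨hx, -⟩, -⟩
    show (x, t) = (η.toFun x, t)
    rw [hη x hx]
  have himg : (sphere (0 : Fin 2 → ℝ) 1 ×ˢ Icc (0:ℝ) 1) ∩ (KK ×ˢ {(1:ℝ)}) ⊆
      h₁.toFun '' ((sphere (0 : Fin 2 → ℝ) 1 ×ˢ Icc (0:ℝ) 1) ∩ (KK ×ˢ {(1:ℝ)})) :=
    fun w hw => ⟨w, hw, rfl⟩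
  let b : ConHomeo cylBase cylBase := ConHomeo.glue h₁ h₂ hX₁ hX₂ hX₁ hX₂ hag himg
  have hb1 : ∀ x ∈ sphere (0 : Fin 2 → ℝ) 1, ∀ t ∈ Icc (0:ℝ) 1, b.toFun (x, t) = (x, t) :=
    fun x hx t ht => ConHomeo.glue_left h₁ h₂ hX₁ hX₂ hX₁ hX₂ hag himg ⟨hx, ht⟩
  have hb2 : ∀ x ∈ KK, b.toFun (x, 1) = (η.toFun x, 1) :=
    fun x hx => ConHomeo.glue_right h₁ h₂ hX₁ hX₂ hX₁ hX₂ hag himg (⟨hx, rfl⟩ : (x, (1:ℝ)) ∈ KK ×ˢ {(1:ℝ)})
  have hm1 : ∀ x ∈ sphere (0 : Fin 2 → ℝ) 1, ∀ t ∈ Icc (0:ℝ) 1, (x, t) ∈ cylBase :=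
    fun x hx t ht => Or.inl ⟨hx, ht⟩
  have hm2 : ∀ x ∈ KK, (x, (1:ℝ)) ∈ cylBase := fun x hx => Or.inr ⟨hx, rfl⟩
  refine ⟨(ConHomeo.cone rayBase_cylBase rayBase_cylBase b).cast coneSet_cylBase coneSet_cylBase,
    ?_, ?_, ?_, ?_⟩
  · intro x hx
    rw [ConHomeo.cast_toFun, ConHomeo.cone_eqOn _ _ b (hm2 x hx), hb2 x hx]
  · intro x hx
    rw [ConHomeo.cast_toFun]
    by_cases h0 : x = 0
    · have := ConHomeo.cone_smul rayBase_cylBase rayBase_cylBase b (s := 0)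
        ⟨le_refl _, zero_le_one⟩ (hm2 x hx)
      rw [zero_smul, zero_smul] at this
      rw [h0]; exact this
    · have hpos : 0 < ‖x‖ := norm_pos_iff.2 h0
      have hxs : ‖x‖⁻¹ • x ∈ sphere (0 : Fin 2 → ℝ) 1 := by
        rw [mem_sphere_zero_iff_norm, norm_smul, norm_inv, norm_norm, inv_mul_cancel₀ hpos.ne']
      have h00 : (0:ℝ) ∈ Icc (0:ℝ) 1 := by simp
      have hs : ‖x‖ ∈ Icc (0:ℝ) 1 := ⟨hpos.le, mem_closedBall_zero_iff.1 hx⟩
      have := ConHomeo.cone_smul rayBase_cylBase rayBase_cylBase b hs (hm1 _ hxs 0 h00)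
      rw [hb1 _ hxs 0 h00] at this
      have h3 : ‖x‖ • ((‖x‖⁻¹ • x, (0:ℝ)) : (Fin 2 → ℝ) × ℝ) = (x, 0) := by
        refine Prod.ext ?_ ?_
        · show ‖x‖ • (‖x‖⁻¹ • x) = x
          rw [smul_smul, mul_inv_cancel₀ hpos.ne', one_smul]
        · show ‖x‖ • (0:ℝ) = 0
          rw [smul_zero]
      rwa [h3] at this
  · intro x hx t ht
    rw [ConHomeo.cast_toFun, ConHomeo.cone_eqOn _ _ b (hm1 x hx t ht), hb1 x hx t ht]
  · intro h0 t ht
    rw [ConHomeo.cast_toFun]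
    have h00 : (0 : Fin 2 → ℝ) ∈ KK := by simp
    have := ConHomeo.cone_smul rayBase_cylBase rayBase_cylBase b ht (hm2 0 h00)
    rw [hb2 0 h00, h0] at this
    have h3 : t • (((0 : Fin 2 → ℝ), (1:ℝ)) : (Fin 2 → ℝ) × ℝ) = (0, t) := by
      refine Prod.ext ?_ ?_
      · show t • (0 : Fin 2 → ℝ) = 0
        rw [smul_zero]
      · show t • (1:ℝ) = t
        rw [smul_eq_mul, mul_one]
    rwa [h3] at this

end P073.GB73
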