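import Vale.Agent.P073.PR720.Cx
import Vale.Agent.P073.St

/-!
# P073, block GB (good boxes): definitions and Props

`h : ConHomeo Ω Λ` is the conical homeomorphism given by NET, `K` is the cell decomposition of `Ω`
(its edges are the net `G`).  All bodies in the target are of the form `c + t • Q`, `Q` a convex
polyhedral neighbourhood of `0`, where the level `t` may be chosen in a set `T` which is not
countable.
-/

open Set Metric Topology Filter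
open scoped Pointwise

namespace P073.GB73

open P073 P073.PR720
open Vale.Agent.P073.St (V)

variable {Vx B J I : Type}

/-- A conical cell decomposition of the open set `Ω` of three-space. -/
structure Cx3 (e0 e1 : B → Vx) (inc : B → J → Prop) (qC : J → I → Prop) (Ω : Set V)
    extends Cx2 e0 e1 inc V where
  /-- three-dimensional cells -/
  cell : I → Set V
  cball : ∀ c, ConBall 3 (cell c) (⋃ s ∈ {s | qC s c}, tile s)
  cell_tile : ∀ c s, cell c ∩ tile s ⊆ ⋃ s ∈ {s | qC s c}, tile s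
  cell_cell : ∀ c d, c ≠ d → cell c ∩ cell d ⊆ ⋃ s, tile s
  two : ∀ s, ∃ c d, c ≠ d ∧ ∀ b, qC s b ↔ b = c ∨ b = d
  fin_qC : ∀ c, {s | qC s c}.Finite
  cover : ⋃ c, cell c = Ω
  clf : LF cell Ω

/-- A body in the target: the sets `c + t • Q`. -/
structure Body where
  /-- centre -/
  c : V
  /-- shape -/
  Q : Set V
  /-- admissible levels -/
  T : Set ℝ

/-- the body at level `t` -/
def Body.at (A : Body) (t : ℝ) : Set V := (fun v => A.c + t • v) '' A.Q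

/-- a good body: `Q` is a compact convex polyhedral neighbourhood of `0`, the set of admissible
levels is uncountable, the bodies are inside `Λ` -/
structure Body.Good (A : Body) (Λ : Set V) : Prop where
  compact : IsCompact A.Q
  convex : Convex ℝ A.Q
  nhds : A.Q ∈ 𝓝 (0 : V)
  cone : LocCone A.Q
  pos : ∀ t ∈ A.T, 0 < t
  unc : ¬ A.T.Countable
  sub : ∀ t ∈ A.T, A.at t ⊆ Λ
  ball : ∀ t ∈ A.T, ConBall 3 (A.at t) (frontier (A.at t))

/-- The net `h(G)` crosses `frontier A` exactly along the edges in `P`, once each, from the inside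
to the outside. -/
structure Crosses {e0 e1 : B → Vx} (G : Graph e0 e1 V) (h : V → V) (A : Set V) (P : Set B)
    (y : B → V) : Prop where
  off : ∀ b ∉ P, Disjoint (h '' G.arc b) (frontier A)
  on : ∀ b ∈ P, h '' G.arc b ∩ frontier A = {y b}
  ends : ∀ b ∈ P, (h (G.y (e0 b)) ∈ interior A ∧ h (G.y (e1 b)) ∉ A) ∨
    (h (G.y (e1 b)) ∈ interior A ∧ h (G.y (e0 b)) ∉ A)

/-- Combinatorics of a crossing pattern: finite, every face has none or two crossed edges, and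
the dual graph is connected. -/
structure Pat (inc : B → J → Prop) (P : Set B) : Prop where
  fin : P.Finite
  ne : P.Nonempty
  two : ∀ j, {b | inc b j ∧ b ∈ P} = ∅ ∨ ∃ b b', b ≠ b' ∧ {b | inc b j ∧ b ∈ P} = {b, b'}
  conn : ∀ b ∈ P, ∀ b' ∈ P,
    Relation.ReflTransGen (fun b b' => b' ∈ P ∧ ∃ j, inc b j ∧ inc b' j) b b'

/-- `Z` is a protected set of the complex `K`: inside every face and every cell, every point of `Z`
is connected in `Z` to the net. -/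
structure Prot {e0 e1 : B → Vx} {inc : B → J → Prop} {qC : J → I → Prop} {Ω : Set V}
    (K : Cx3 e0 e1 inc qC Ω) (Z : Set V) : Prop where
  sub : Z ⊆ Ω
  closed : ∀ x ∈ Ω, x ∈ closure Z → x ∈ Z
  tile : ∀ j, ∀ z ∈ Z ∩ K.tile j, ∃ S, IsPreconnected S ∧ S ⊆ Z ∩ K.tile j ∧ z ∈ S ∧
    (S ∩ K.toCx2.bd j).Nonempty
  cell : ∀ c, ∀ z ∈ Z ∩ K.cell c, ∃ S, IsPreconnected S ∧ S ⊆ Z ∩ K.cell c ∧ z ∈ S ∧
    (S ∩ ⋃ b, K.arc b).Nonempty

/-- **(GB2)** Cleaning of finitely many faces `F` into their bodies, and of the boundary of one more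
body `A0`. `hsep`: a circle inside the body `σ` on the boundary of the body `τ` bounds its
puncture-free disc inside the body `σ`. -/
def SpecClean : Prop :=
  ∀ (Vx B J I : Type) (e0 e1 : B → Vx) (inc : B → J → Prop) (qC : J → I → Prop) (Ω Λ : Set V)
    (K : Cx3 e0 e1 inc qC Ω) (h : ConHomeo Ω Λ), IsOpen Ω → IsOpen Λ →
  ∀ (F : Finset J) (A : J → Body) (P : J → Set B) (y : J → ℝ → B → V)
    (A0 : Body) (P0 : Set B) (y0 : ℝ → B → V),
    (∀ σ ∈ F, (A σ).Good Λ) → A0.Good Λ → (∀ σ ∈ F, Pat inc (P σ)) → Pat inc P0 →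
    (∀ σ ∈ F, ∀ t ∈ (A σ).T, Crosses K.toGraph h.toFun ((A σ).at t) (P σ) (y σ t)) →
    (∀ t ∈ A0.T, Crosses K.toGraph h.toFun (A0.at t) P0 (y0 t)) →
    (∀ σ ∈ F, ∀ t ∈ (A σ).T, h.toFun '' (K.toCx2.bd σ) ⊆ interior ((A σ).at t)) →
    -- separation
    (∀ σ ∈ F, ∀ τ ∈ F, σ ≠ τ → ∀ t ∈ (A σ).T, ∀ s ∈ (A τ).T,
      IsPreconnected (frontier ((A τ).at s) \ interior ((A σ).at t)) ∧
      ∃ b ∈ P τ, y τ s b ∉ interior ((A σ).at t)) →
    (∀ σ ∈ F, ∀ t ∈ (A σ).T, ∀ s ∈ A0.T,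
      IsPreconnected (frontier (A0.at s) \ interior ((A σ).at t)) ∧
      ∃ b ∈ P0, y0 s b ∉ interior ((A σ).at t)) →
    -- a protected set
  ∀ Z, Prot K Z → (∀ σ ∈ F, ∀ s ∈ (A σ).T, Disjoint (h.toFun '' Z) ((A σ).at s)) →
    (∀ s ∈ A0.T, Disjoint (h.toFun '' Z) (A0.at s)) →
    ∃ (h' : ConHomeo Ω Λ) (t : J → ℝ) (t0 : ℝ),
      (∀ σ ∈ F, t σ ∈ (A σ).T) ∧ t0 ∈ A0.T ∧
      (∀ b, EqOn h'.toFun h.toFun (K.arc b)) ∧
      EqOn h'.toFun h.toFun Z ∧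
      (∀ σ ∈ F, h'.toFun '' K.tile σ ⊆ interior ((A σ).at (t σ))) ∧
      -- the faces meet the last boundary in arcs only
      (∀ j, {b | inc b j ∧ b ∈ P0} = ∅ → Disjoint (h'.toFun '' K.tile j) (frontier (A0.at t0))) ∧
      (∀ j b b', b ≠ b' → {b | inc b j ∧ b ∈ P0} = {b, b'} →
        ConBall 1 (h'.toFun '' K.tile j ∩ frontier (A0.at t0)) {y0 t0 b, y0 t0 b'}) ∧
      -- and cross it
      (∀ j c, qC j c → ∀ z ∈ h'.toFun '' (K.tile j \ K.toCx2.bd j) ∩ frontier (A0.at t0),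
        z ∈ closure (h'.toFun '' (K.cell c \ ⋃ s, K.tile s) ∩ frontier (A0.at t0)))

/-- The body `R` in the domain cuts the complex `K` along the pattern `P`, in the points `p b`. -/
structure DomCut {e0 e1 : B → Vx} {inc : B → J → Prop} {qC : J → I → Prop} {Ω : Set V}
    (K : Cx3 e0 e1 inc qC Ω) (R : Set V) (P : Set B) (p : B → V) : Prop where
  ball : ConBall 3 R (frontier R)
  sub : R ⊆ Ω
  crosses : Crosses K.toGraph id R P p
  /-- crossed faces -/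
  off_tile : ∀ j, {b | inc b j ∧ b ∈ P} = ∅ → Disjoint (K.tile j) (frontier R)
  arc : ∀ j b b', b ≠ b' → {b | inc b j ∧ b ∈ P} = {b, b'} →
    ConBall 1 (K.tile j ∩ frontier R) {p b, p b'}
  tile_in : ∀ j, {b | inc b j ∧ b ∈ P} ≠ ∅ →
    ConBall 2 (K.tile j ∩ R) ((K.toCx2.bd j ∩ R) ∪ (K.tile j ∩ frontier R))
  tile_out : ∀ j, {b | inc b j ∧ b ∈ P} ≠ ∅ →
    ConBall 2 (K.tile j \ interior R) ((K.toCx2.bd j \ interior R) ∪ (K.tile j ∩ frontier R))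
  /-- crossed cells -/
  off_cell : ∀ c, (∀ j, qC j c → {b | inc b j ∧ b ∈ P} = ∅) → Disjoint (K.cell c) (frontier R)
  disc : ∀ c, (∃ j, qC j c ∧ {b | inc b j ∧ b ∈ P} ≠ ∅) →
    ConBall 2 (K.cell c ∩ frontier R) (⋃ j ∈ {j | qC j c}, K.tile j ∩ frontier R)
  cell_in : ∀ c, (∃ j, qC j c ∧ {b | inc b j ∧ b ∈ P} ≠ ∅) →
    ConBall 3 (K.cell c ∩ R)
      ((⋃ j ∈ {j | qC j c}, K.tile j ∩ R) ∪ (K.cell c ∩ frontier R))
  cell_out : ∀ c, (∃ j, qC j c ∧ {b | inc b j ∧ b ∈ P} ≠ ∅) →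
    ConBall 3 (K.cell c \ interior R)
      ((⋃ j ∈ {j | qC j c}, K.tile j \ interior R) ∪ (K.cell c ∩ frontier R))

/-- **(GB3)** After cleaning, `h'` may be changed inside the cells so that `R` goes onto the body
`A0`.  On the crossed edges a reparametrisation `χ` is prescribed. -/
def SpecCut : Prop :=
  ∀ (Vx B J I : Type) (e0 e1 : B → Vx) (inc : B → J → Prop) (qC : J → I → Prop) (Ω Λ : Set V)
    (K : Cx3 e0 e1 inc qC Ω) (h' : ConHomeo Ω Λ), IsOpen Ω → IsOpen Λ →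
  ∀ (A0 : Set V) (P : Set B) (y : B → V) (R : Set V) (p : B → V),
    IsCompact A0 → Convex ℝ A0 → (interior A0).Nonempty → LocCone A0 → A0 ⊆ Λ →
    ConBall 3 A0 (frontier A0) →
    Pat inc P → Crosses K.toGraph h'.toFun A0 P y → DomCut K R P p →
    (∀ j, {b | inc b j ∧ b ∈ P} = ∅ → Disjoint (h'.toFun '' K.tile j) (frontier A0)) →
    (∀ j b b', b ≠ b' → {b | inc b j ∧ b ∈ P} = {b, b'} →
        ConBall 1 (h'.toFun '' K.tile j ∩ frontier A0) {y b, y b'}) →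
    (∀ j c, qC j c → ∀ z ∈ h'.toFun '' (K.tile j \ K.toCx2.bd j) ∩ frontier A0,
        z ∈ closure (h'.toFun '' (K.cell c \ ⋃ s, K.tile s) ∩ frontier A0)) →
    (∀ v, K.y v ∈ interior R ↔ h'.toFun (K.y v) ∈ interior A0) →
  ∀ χ : (b : B) → ConHomeo (K.arc b) (K.arc b),
    (∀ b, (χ b).toFun (K.y (e0 b)) = K.y (e0 b)) → (∀ b, (χ b).toFun (K.y (e1 b)) = K.y (e1 b)) →
    (∀ b ∉ P, ∀ x ∈ K.arc b, (χ b).toFun x = x) → (∀ b ∈ P, h'.toFun ((χ b).toFun (p b)) = y b) →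
    ∃ h2 : ConHomeo Ω Λ,
      (∀ b, ∀ x ∈ K.arc b, h2.toFun x = h'.toFun ((χ b).toFun x)) ∧
      (∀ j, h2.toFun '' K.tile j = h'.toFun '' K.tile j) ∧
      (∀ c, h2.toFun '' K.cell c = h'.toFun '' K.cell c) ∧
      (∀ c, Disjoint (K.cell c) (frontier R) → EqOn h2.toFun h'.toFun (K.cell c)) ∧
      h2.toFun '' R = A0 ∧ h2.toFun '' (frontier R) = frontier A0

/-- the standard conical two-sphere: the surface of the cube -/
abbrev S2 : Set V := sphere (0 : V) 1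

/-- **(GB4)** Conical homeomorphisms of the sphere which fix a finite set and are close to the
identity are isotopic to the identity, relative to the finite set. -/
def SpecGB4 : Prop :=
  ∀ X : Set V, X.Finite → X ⊆ S2 → ∃ ρ > 0, ∀ φ : ConHomeo S2 S2,
    (∀ x ∈ X, φ.toFun x = x) → (∀ x ∈ S2, ‖φ.toFun x - x‖ ≤ ρ) →
    ∃ F : ConHomeo (S2 ×ˢ Icc (0:ℝ) 1) (S2 ×ˢ Icc (0:ℝ) 1),
      (∀ x ∈ S2, F.toFun (x, 1) = (φ.toFun x, 1)) ∧ (∀ x ∈ S2, F.toFun (x, 0) = (x, 0)) ∧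
      ∀ x ∈ X, ∀ t ∈ Icc (0:ℝ) 1, F.toFun (x, t) = (x, t)

/-- the box `[a, b]` shrunk by `θ` -/
def shr (a b : V) (θ : ℝ) : Set V := Icc (fun i => a i + θ) (fun i => b i - θ)

/-- **(GB4c)** the same for a box: extension to the box, identity inside, fixing the short segments
perpendicular to the surface at the marked points. -/
def SpecCollar : Prop :=
  ∀ (a b : V) (m : ℝ), 0 < m → (∀ i, 2 * m < b i - a i) →
  ∀ X : Set V, X.Finite →
    (∀ x ∈ X, ∃ i, (x i = a i ∨ x i = b i) ∧ ∀ j ≠ i, a j + m ≤ x j ∧ x j ≤ b j - m) →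
    ∃ ρ > 0, ∀ φ : ConHomeo (frontier (Icc a b)) (frontier (Icc a b)),
      (∀ x ∈ X, φ.toFun x = x) → (∀ x ∈ frontier (Icc a b), ‖φ.toFun x - x‖ ≤ ρ) →
      ∀ θ, 0 < θ → θ < m → ∃ Φ : ConHomeo (Icc a b) (Icc a b),
        EqOn Φ.toFun φ.toFun (frontier (Icc a b)) ∧ (∀ x ∈ shr a b θ, Φ.toFun x = x) ∧
        ∀ x ∈ X, ∀ z ∈ Icc a b, ‖z - x‖ ≤ m → (∃ i, (x i = a i ∨ x i = b i) ∧ (∀ j ≠ i, z j = x j)) →
          Φ.toFun z = z

/-- **(GB)** the block: composition of GB2, GB3 and GB4c, for one box `[a, b]` in the domain.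
`L t` is the model map of the box onto the body of level `t` (affine on the inner part).
`M ⊆ P0` are the marked crossed edges, on which the position of the crossing is exact. -/
def SpecGB : Prop :=
  ∀ (Vx B J I : Type) (e0 e1 : B → Vx) (inc : B → J → Prop) (qC : J → I → Prop) (Ω Λ : Set V)
    (K : Cx3 e0 e1 inc qC Ω) (h : ConHomeo Ω Λ), IsOpen Ω → IsOpen Λ →
  ∀ (a b : V) (m : ℝ), 0 < m → (∀ i, 2 * m < b i - a i) →
  ∀ (F : Finset J) (A : J → Body) (P : J → Set B) (y : J → ℝ → B → V)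
    (A0 : Body) (P0 : Set B) (y0 : ℝ → B → V) (p : B → V) (M : Set B)
    (L : (t : A0.T) → ConHomeo (Icc a b) (A0.at t)),
    (∀ σ ∈ F, (A σ).Good Λ) → A0.Good Λ → (∀ σ ∈ F, Pat inc (P σ)) → Pat inc P0 →
    (∀ σ ∈ F, ∀ t ∈ (A σ).T, Crosses K.toGraph h.toFun ((A σ).at t) (P σ) (y σ t)) →
    (∀ t ∈ A0.T, Crosses K.toGraph h.toFun (A0.at t) P0 (y0 t)) →
    (∀ σ ∈ F, ∀ t ∈ (A σ).T, h.toFun '' (K.toCx2.bd σ) ⊆ interior ((A σ).at t)) →
    (∀ σ ∈ F, ∀ τ ∈ F, σ ≠ τ → ∀ t ∈ (A σ).T, ∀ s ∈ (A τ).T,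
      IsPreconnected (frontier ((A τ).at s) \ interior ((A σ).at t)) ∧
      ∃ b ∈ P τ, y τ s b ∉ interior ((A σ).at t)) →
    (∀ σ ∈ F, ∀ t ∈ (A σ).T, ∀ s ∈ A0.T,
      IsPreconnected (frontier (A0.at s) \ interior ((A σ).at t)) ∧
      ∃ b ∈ P0, y0 s b ∉ interior ((A σ).at t)) →
    DomCut K (Icc a b) P0 p →
    (∀ t ∈ A0.T, ∀ v, K.y v ∈ interior (Icc a b) ↔ h.toFun (K.y v) ∈ interior (A0.at t)) →
    -- marked points
    M ⊆ P0 → (∀ i ∈ M, ∃ k, (p i k = a k ∨ p i k = b k) ∧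
      ∀ j ≠ k, a j + m ≤ p i j ∧ p i j ≤ b j - m) →
    (∀ t : A0.T, ∀ i ∈ M, y0 t i = (L t).toFun (p i)) →
    -- closeness: `ρ` is the number of `SpecCollar`
  ∀ ρ : ℝ, (∀ φ : ConHomeo (frontier (Icc a b)) (frontier (Icc a b)),
      (∀ x ∈ p '' M, φ.toFun x = x) → (∀ x ∈ frontier (Icc a b), ‖φ.toFun x - x‖ ≤ ρ) →
      ∀ θ, 0 < θ → θ < m → ∃ Φ : ConHomeo (Icc a b) (Icc a b),
        EqOn Φ.toFun φ.toFun (frontier (Icc a b)) ∧ (∀ x ∈ shr a b θ, Φ.toFun x = x) ∧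
        ∀ x ∈ p '' M, ∀ z ∈ Icc a b, ‖z - x‖ ≤ m →
          (∃ i, (x i = a i ∨ x i = b i) ∧ (∀ j ≠ i, z j = x j)) → Φ.toFun z = z) →
    (∀ c, ¬ Disjoint (K.cell c) (frontier (Icc a b)) → ∃ W : Set V,
      (∀ j, qC j c → {i | inc i j ∧ i ∈ P0} ≠ ∅ → j ∈ F ∧ ∀ t ∈ (A j).T, (A j).at t ⊆ W) ∧
      ∀ t : A0.T, IsPreconnected (frontier (A0.at t) \ W) ∧
        (∃ i ∈ P0, p i ∉ K.cell c ∧ y0 t i ∉ W) ∧
        ∀ x ∈ K.cell c ∩ frontier (Icc a b), ∀ z ∈ frontier (Icc a b),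
          (L t).toFun z ∈ W → ‖z - x‖ ≤ ρ) →
  ∀ χ : (t : A0.T) → (i : B) → ConHomeo (K.arc i) (K.arc i),
    (∀ t i, (χ t i).toFun (K.y (e0 i)) = K.y (e0 i)) →
    (∀ t i, (χ t i).toFun (K.y (e1 i)) = K.y (e1 i)) →
    (∀ t, ∀ i ∉ P0, ∀ x ∈ K.arc i, (χ t i).toFun x = x) →
    (∀ t : A0.T, ∀ i ∈ P0, h.toFun ((χ t i).toFun (p i)) = y0 t i) →
    -- protected set
  ∀ Z, Prot K Z → Disjoint Z (Icc a b) →
    (∀ c, ¬ Disjoint (K.cell c) (frontier (Icc a b)) → Disjoint Z (K.cell c)) →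
    (∀ σ ∈ F, ∀ s ∈ (A σ).T, Disjoint (h.toFun '' Z) ((A σ).at s)) →
    (∀ s ∈ A0.T, Disjoint (h.toFun '' Z) (A0.at s)) →
  ∀ θ, 0 < θ → θ < m →
    ∃ (h3 : ConHomeo Ω Λ) (t : A0.T),
      (∀ i, ∀ x ∈ K.arc i, x ∉ interior (Icc a b) → h3.toFun x = h.toFun ((χ t i).toFun x)) ∧
      EqOn h3.toFun h.toFun Z ∧
      h3.toFun '' Icc a b = A0.at t ∧
      (∀ x ∈ shr a b θ, h3.toFun x = (L t).toFun x) ∧
      ∀ i ∈ M, ∀ z ∈ Icc a b, ‖z - p i‖ ≤ m →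
        (∃ k, (p i k = a k ∨ p i k = b k) ∧ (∀ j ≠ k, z j = p i j)) →
        h3.toFun z = (L t).toFun z

end P073.GB73
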