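import Vale.Agent.P073.ConGlue

/-!
# P073, block GB4: thin neighbourhoods (compactness and conicality)
-/

open Set Metric Topology Filter

namespace P073.GB73

open P073

variable {E : Type*} [NormedAddCommGroup E] [NormedSpace ℝ E]

omit [NormedSpace ℝ E] in
theorem exists_delta_compact {L : Set E} (hL : IsCompact L) {F G : E → ℝ} (hF : ContinuousOn F L)
    (hG : ContinuousOn G L) (hF0 : ∀ x ∈ L, 0 ≤ F x) (h : ∀ x ∈ L, F x = 0 → G x < 0) :
    ∃ δ > 0, ∀ x ∈ L, ∀ d, 0 < d → d ≤ δ → d * G x < F x := by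
  rcases L.eq_empty_or_nonempty with hne | hne
  · exact ⟨1, one_pos, fun x hx => by rw [hne] at hx; exact absurd hx (notMem_empty x)⟩
  have hFG : ContinuousOn (fun x => max (F x) (-G x)) L := ContinuousOn.sup hF hG.neg
  obtain ⟨x₀, hx₀, hmin⟩ := hL.exists_isMinOn hne hFG
  obtain ⟨x₁, hx₁, hmax⟩ := hL.exists_isMaxOn hne hG.norm
  set c := max (F x₀) (-G x₀) with hc
  have hcpos : 0 < c := by
    rcases (hF0 x₀ hx₀).eq_or_lt with h0 | h0
    · exact lt_max_of_lt_right (by have := h x₀ hx₀ h0.symm; linarith)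
    · exact lt_max_of_lt_left h0
  set M := ‖G x₁‖ with hM
  have hMn : 0 ≤ M := norm_nonneg _
  refine ⟨c / (M + 1) / 2, by positivity, fun x hx d hd hdδ => ?_⟩
  have h1 : c ≤ max (F x) (-G x) := hmin hx
  have h2 : ‖G x‖ ≤ M := hmax hx
  rw [Real.norm_eq_abs] at h2
  have h3 : G x ≤ M := (le_abs_self _).trans h2
  rcases le_max_iff.1 h1 with h4 | h4
  · have h5 : d * G x ≤ d * M := by gcongr
    have h6 : d * M ≤ c / (M + 1) / 2 * M := by gcongr
    have h7 : c / (M + 1) / 2 * M < c := by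
      rw [div_div, div_mul_eq_mul_div, div_lt_iff₀ (by positivity)]
      nlinarith
    linarith
  · have h5 : d * G x < 0 := mul_neg_of_pos_of_neg hd (by linarith)
    linarith [hF0 x hx]

theorem exists_delta_local {K : Set E} (hK : IsCompact K) (hKc : LocCone K) {F G : E → ℝ}
    (hF : Continuous F) (hFc : ConicalOn F univ) (hF0 : ∀ x, 0 ≤ F x) (hG : Continuous G)
    (hGc : ConicalOn G univ) {z : E} (hz0 : F z = 0) (hz1 : G z = 0)
    {R : ℝ} (hR : 0 < R) (h : ∀ x ∈ K, ‖x - z‖ ≤ R → F x = 0 → 0 ≤ G x → x = z) :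
    ∃ r > 0, ∃ δ > 0, ∀ x ∈ K, ‖x - z‖ ≤ r → x ≠ z → ∀ d, 0 < d → d ≤ δ → d * G x < F x := by
  obtain ⟨r1, hr1, H1⟩ := hKc z
  obtain ⟨r2, hr2, H2⟩ := hFc z (mem_univ _)
  obtain ⟨r3, hr3, H3⟩ := hGc z (mem_univ _)
  set r := min (min r1 r2) (min r3 R) with hr
  have hrpos : 0 < r := lt_min (lt_min hr1 hr2) (lt_min hr3 hR)
  have hr1' : r ≤ r1 := (min_le_left _ _).trans (min_le_left _ _)
  have hr2' : r ≤ r2 := (min_le_left _ _).trans (min_le_right _ _)
  have hr3' : r ≤ r3 := (min_le_right _ _).trans (min_le_left _ _)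
  have hrR : r ≤ R := (min_le_right _ _).trans (min_le_right _ _)
  have hL : IsCompact (K ∩ sphere z r) := hK.inter_right isClosed_sphere
  obtain ⟨δ, hδ, H⟩ := exists_delta_compact (F := F) (G := G) hL hF.continuousOn hG.continuousOn
    (fun x _ => hF0 x) (by
      rintro x ⟨hx, hxs⟩ hx0
      rw [mem_sphere_iff_norm] at hxs
      by_contra hcon
      push Not at hcon
      have := h x hx (hxs.le.trans hrR) hx0 hcon
      rw [this, sub_self, norm_zero] at hxs
      exact hrpos.ne hxs)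
  refine ⟨r, hrpos, δ, hδ, fun x hx hxr hxz d hd hdδ => ?_⟩
  have hpos : 0 < ‖x - z‖ := norm_pos_iff.2 (sub_ne_zero.2 hxz)
  set v := (r / ‖x - z‖) • (x - z) with hv
  set t := ‖x - z‖ / r with ht
  have htm : t ∈ Ioc (0:ℝ) 1 := ⟨by positivity, by rw [ht, div_le_one hrpos]; exact hxr⟩
  have hvn : ‖v‖ = r := by
    rw [hv, norm_smul, Real.norm_of_nonneg (by positivity), div_mul_cancel₀ _ hpos.ne']
  have htv : z + t • v = x := by
    rw [hv, smul_smul, ht, div_mul_div_comm, mul_comm r, div_self (by positivity), one_smul]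
    abel
  have hm : z + v ∈ K := by
    rw [← H1 v (hvn.le.trans hr1') t htm, htv]; exact hx
  have hms : z + v ∈ sphere z r := by
    rw [mem_sphere_iff_norm, add_sub_cancel_left, hvn]
  have e1 := (H2 v (hvn.le.trans hr2') (mem_univ _) t ⟨htm.1.le, htm.2⟩).2
  have e2 := (H3 v (hvn.le.trans hr3') (mem_univ _) t ⟨htm.1.le, htm.2⟩).2
  rw [htv, hz0, sub_zero, zero_add, smul_eq_mul] at e1
  rw [htv, hz1, sub_zero, zero_add, smul_eq_mul] at e2
  rw [e1, e2]
  have := H (z + v) ⟨hm, hms⟩ d hd hdδ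
  have h3 := mul_lt_mul_of_pos_left this htm.1
  calc d * (t * G (z + v)) = t * (d * G (z + v)) := by ring
    _ < t * F (z + v) := h3

/-- thin lens around a set touching `K` in two points only -/
theorem exists_delta {K : Set E} (hK : IsCompact K) (hKc : LocCone K) {F G : E → ℝ}
    (hF : Continuous F) (hFc : ConicalOn F univ) (hF0 : ∀ x, 0 ≤ F x) (hG : Continuous G)
    (hGc : ConicalOn G univ) {p q : E} (hpq : p ≠ q) (hp : F p = 0 ∧ G p = 0)
    (hq : F q = 0 ∧ G q = 0) (h : ∀ x ∈ K, F x = 0 → 0 ≤ G x → x = p ∨ x = q) :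
    ∃ δ > 0, ∀ d, 0 < d → d ≤ δ → ∀ x ∈ K, F x ≤ d * G x → x = p ∨ x = q := by
  have hR : 0 < ‖p - q‖ / 2 := half_pos (norm_pos_iff.2 (sub_ne_zero.2 hpq))
  obtain ⟨r, hr, δ, hδ, H⟩ := exists_delta_local hK hKc hF hFc hF0 hG hGc hp.1 hp.2 hR (by
    intro x hx hxp h0 h1
    refine (h x hx h0 h1).resolve_right fun hxq => ?_
    rw [hxq, norm_sub_rev] at hxp
    linarith)
  obtain ⟨r', hr', δ', hδ', H'⟩ := exists_delta_local hK hKc hF hFc hF0 hG hGc hq.1 hq.2 hR (by
    intro x hx hxp h0 h1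
    refine (h x hx h0 h1).resolve_left fun hxq => ?_
    rw [hxq] at hxp
    linarith)
  have hL : IsCompact (K \ (ball p r ∪ ball q r')) :=
    hK.diff (isOpen_ball.union isOpen_ball)
  obtain ⟨δ₀, hδ₀, H₀⟩ := exists_delta_compact (F := F) (G := G) hL hF.continuousOn hG.continuousOn
    (fun x _ => hF0 x) (by
      rintro x ⟨hx, hxn⟩ hx0
      by_contra hcon
      push Not at hcon
      rcases h x hx hx0 hcon with rfl | rfl
      · exact hxn (Or.inl (mem_ball_self hr))
      · exact hxn (Or.inr (mem_ball_self hr')))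
  refine ⟨min δ₀ (min δ δ'), lt_min hδ₀ (lt_min hδ hδ'), fun d hd hdδ x hx hle => ?_⟩
  by_contra hcon
  push Not at hcon
  by_cases h1 : x ∈ ball p r
  · rw [mem_ball_iff_norm] at h1
    have := H x hx h1.le hcon.1 d hd (hdδ.trans ((min_le_right _ _).trans (min_le_left _ _)))
    linarith
  by_cases h2 : x ∈ ball q r'
  · rw [mem_ball_iff_norm] at h2
    have := H' x hx h2.le hcon.2 d hd (hdδ.trans ((min_le_right _ _).trans (min_le_right _ _)))
    linarith
  have := H₀ x ⟨hx, fun h => h.elim h1 h2⟩ d hd (hdδ.trans (min_le_left _ _))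
  linarith

end P073.GB73
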