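import Vale.Agent.P073.GB73.Disc
import Vale.Agent.P073.GB73.Thin
import Vale.Agent.P073.GB73.Spec
import Vale.Agent.P073.SCH.Crosscut
import Vale.Agent.P073.H339.SphereJS

/-!
# P073, block GB4: lens neighbourhoods of arcs of the equator
-/

open Set Metric Topology Filter

namespace P073.GB73

open P073
open Vale.Agent.P073.St (V)
open P073.H339 (arc_eq_of_subset)

theorem ConBall.isPreconnected_int {E : Type*} [NormedAddCommGroup E] [NormedSpace ℝ E] {n : ℕ}
    {D B : Set E} (h : ConBall n D B) : IsPreconnected (D \ B) := by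
  obtain ⟨hBD, φ, hφ⟩ := h
  have : D \ B = φ.invFun '' ball (0 : Fin n → ℝ) 1 := by
    ext x
    constructor
    · intro hx
      exact ⟨φ.toFun x, mem_ball_zero_iff.2 (ConBall.coord_lt hBD hφ hx), φ.left_inv hx.1⟩
    · rintro ⟨y, hy, rfl⟩
      have hy' : y ∈ closedBall (0 : Fin n → ℝ) 1 := ball_subset_closedBall hy
      refine ⟨φ.mapsTo_inv hy', fun hB => ?_⟩
      have h1 : φ.toFun (φ.invFun y) ∈ sphere (0 : Fin n → ℝ) 1 := hφ ▸ mem_image_of_mem _ hB
      rw [φ.right_inv hy', mem_sphere_zero_iff_norm] at h1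
      rw [mem_ball_zero_iff] at hy
      exact hy.ne h1
  rw [this]
  exact ((convex_ball (0 : Fin n → ℝ) 1).isPreconnected).image _
    (φ.cont_inv.mono ball_subset_closedBall)

/-- a preconnected set inside the union of two sets which are separated by a continuous function -/
theorem subset_or_of_sign {T : Type*} [TopologicalSpace T] {A : Set T} (hA : IsPreconnected A)
    {g : T → ℝ} (hg : ContinuousOn g A) (h0 : ∀ x ∈ A, g x ≠ 0) :
    (∀ x ∈ A, 0 < g x) ∨ ∀ x ∈ A, g x < 0 := by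
  by_contra hcon
  push Not at hcon
  obtain ⟨⟨x, hx, hx0⟩, ⟨y, hy, hy0⟩⟩ := hcon
  obtain ⟨z, hz, hz0⟩ := hA.intermediate_value hx hy hg ⟨hx0, hy0⟩
  exact h0 z hz hz0

/-- the complementary arc in a circle -/
theorem isArc_compl {E : Type*} [NormedAddCommGroup E] [NormedSpace ℝ E] {C g : Set E} {p q : E}
    (hC : IsCircle C) (hg : IsArc g p q) (hgC : g ⊆ C) : IsArc ((C \ g) ∪ {p, q}) p q := by
  obtain ⟨A, B, hA, hB, hAB, hCe⟩ := H339.IsCircle.arcs_through hC (hgC hg.left_mem)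
    (hgC hg.right_mem) hg.ne
  have key : ∀ A B : Set E, IsArc A p q → IsArc B p q → A ∩ B ⊆ {p, q} → C = A ∪ B →
      g ⊆ A → IsArc ((C \ g) ∪ {p, q}) p q := by
    intro A B hA hB hAB hCe hgA
    have hgAe : g = A := arc_eq_of_subset hA hg hgA
    have : (C \ g) ∪ {p, q} = B := by
      rw [hgAe, hCe]
      ext x
      constructor
      · rintro (⟨h1, h2⟩ | h1)
        · exact h1.resolve_left h2
        · rcases h1 with h1 | h1
          · rw [h1]; exact hB.left_mem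
          · rw [mem_singleton_iff.1 h1]; exact hB.right_mem
      · intro hx
        by_cases hxA : x ∈ A
        · exact Or.inr (hAB ⟨hxA, hx⟩)
        · exact Or.inl ⟨Or.inr hx, hxA⟩
    rw [this]; exact hB
  have hpre := H339.IsArc.isPreconnected_open hg
  have hcl := H339.IsArc.subset_closure_open hg
  rcases IsPreconnected.subset_or hpre hA.isClosed hB.isClosed
    (fun x hx => hCe ▸ hgC hx.1) (fun x hx h1 h2 => hx.2 (hAB ⟨h1, h2⟩)) with h | h
  · exact key A B hA hB hAB hCe (hcl.trans (closure_minimal h hA.isClosed))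
  · exact key B A hB hA (by rw [inter_comm]; exact hAB) (by rw [hCe, union_comm])
      (hcl.trans (closure_minimal h hB.isClosed))

theorem isCircle_equator3 : IsCircle equator3 :=
  H339.conSphere_iff.1 conBall_upperHemi.conSphere

/-- data for a lens: an arc `{0 ≤ f}` of the equator -/
structure Lens (f : V → ℝ) (q q' : V) : Prop where
  cont : Continuous f
  con : ConicalOn f univ
  flat : ∀ v v' : V, v 0 = v' 0 → v 1 = v' 1 → f v = f v'
  le : ∀ v ∈ S2, f v ≤ 3
  arc : IsArc {v | v ∈ equator3 ∧ 0 ≤ f v} q q'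
  arc' : IsArc {v | v ∈ equator3 ∧ f v ≤ 0} q q'
  zero : ∀ v ∈ equator3, f v = 0 ↔ v = q ∨ v = q'

/-- changing the height -/
noncomputable def lift (f : V → ℝ) (s : ℝ) (v : V) : V := ![v 0, v 1, s * f v]

namespace Lens

variable {f : V → ℝ} {q q' : V}

theorem continuous_lift (h : Lens f q q') (s : ℝ) : Continuous (lift f s) := by
  refine continuous_pi fun i => ?_
  fin_cases i
  · exact continuous_apply 0
  · exact continuous_apply 1
  · exact continuous_const.mul h.cont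

theorem conicalOn_lift (h : Lens f q q') (s : ℝ) {X : Set V} (hX : ConicalSet X) :
    ConicalOn (lift f s) X := by
  intro x hx
  refine conicalWithinAt_pi (hX x hx) fun i => ?_
  fin_cases i
  · exact conicalOn_coord hX 0 x hx
  · exact conicalOn_coord hX 1 x hx
  · exact (h.con.mono hX (subset_univ _)).const_smul s x hx

/-- one boundary arc of the lens -/
theorem isArc_lift (h : Lens f q q') {s : ℝ} (hs : |s| ≤ 1 / 4) :
    IsArc {v | v ∈ S2 ∧ v 2 = s * f v ∧ 0 ≤ f v} q q' := by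
  set C' : Set V := {v | v ∈ equator3 ∧ 0 ≤ f v} with hC'
  have hcs : ConicalSet C' := h.arc.conicalSet
  have hinj : InjOn (lift f s) C' := by
    rintro v ⟨⟨_, hv2⟩, _⟩ w ⟨⟨_, hw2⟩, _⟩ hvw
    have e0 : v 0 = w 0 := congrFun hvw 0
    have e1 : v 1 = w 1 := congrFun hvw 1
    funext i
    fin_cases i
    · exact e0
    · exact e1
    · exact (show v 2 = 0 from hv2).trans (show w 2 = 0 from hw2).symm
  have himg : lift f s '' C' = {v | v ∈ S2 ∧ v 2 = s * f v ∧ 0 ≤ f v} := by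
    apply Subset.antisymm
    · rintro _ ⟨v, ⟨⟨hvS, hv2⟩, hv0⟩, rfl⟩
      have hf : f (lift f s v) = f v := h.flat _ _ rfl rfl
      refine ⟨?_, ?_, by rw [hf]; exact hv0⟩
      · rw [mem_sphere_fin3] at hvS ⊢
        obtain ⟨a, b, c, d⟩ := hvS
        have hle := h.le v ((mem_sphere_fin3 v).2 ⟨a, b, c, d⟩)
        have hz : |s * f v| ≤ 1 := by
          rw [abs_mul, abs_of_nonneg hv0]
          have : |s| * f v ≤ 1 / 4 * 3 := mul_le_mul hs hle hv0 (by norm_num)
          linarith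
        refine ⟨a, b, hz, ?_⟩
        rcases d with d | d | d
        · exact Or.inl d
        · exact Or.inr (Or.inl d)
        · have : v 2 = 0 := hv2
          rw [this, abs_zero] at d
          exact absurd d zero_ne_one
      · show s * f v = s * f (lift f s v)
        rw [hf]
    · rintro v ⟨hvS, hv2, hv0⟩
      refine ⟨![v 0, v 1, 0], ⟨⟨?_, rfl⟩, ?_⟩, ?_⟩
      · have hle := h.le v hvS
        rw [mem_sphere_fin3] at hvS ⊢
        obtain ⟨a, b, c, d⟩ := hvS
        have hz : |v 2| < 1 := by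
          rw [hv2, abs_mul, abs_of_nonneg hv0]
          have : |s| * f v ≤ 1 / 4 * 3 := mul_le_mul hs hle hv0 (by norm_num)
          linarith
        refine ⟨a, b, by simp, ?_⟩
        rcases d with d | d | d
        · exact Or.inl d
        · exact Or.inr (Or.inl d)
        · exact absurd d hz.ne
      · rw [h.flat ![v 0, v 1, 0] v rfl rfl]; exact hv0
      · funext i
        fin_cases i
        · rfl
        · rfl
        · show s * f ![v 0, v 1, 0] = v 2
          rw [h.flat ![v 0, v 1, 0] v rfl rfl, hv2]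
  have hfix : ∀ v ∈ equator3, f v = 0 → lift f s v = v := by
    intro v hv h0
    funext i
    fin_cases i
    · rfl
    · rfl
    · show s * f v = v 2
      rw [h0, mul_zero]; exact (show v 2 = 0 from hv.2).symm
  have hqm := h.arc.left_mem
  have hqm' := h.arc.right_mem
  have := h.arc.image (ConHomeo.ofCompact h.arc.isCompact (lift f s)
    (h.continuous_lift s).continuousOn hinj (h.conicalOn_lift s hcs) himg) (le_refl _)
  rw [ConHomeo.ofCompact_toFun, himg, hfix q hqm.1 ((h.zero q hqm.1).2 (Or.inl rfl)),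
    hfix q' hqm'.1 ((h.zero q' hqm'.1).2 (Or.inr rfl))] at this
  exact this

theorem isCircle_lens (h : Lens f q q') {δ : ℝ} (hδ : 0 < δ) (hδ' : δ ≤ 1 / 4) :
    IsCircle {v | v ∈ S2 ∧ |v 2| = δ * f v} := by
  have h1 := h.isArc_lift (s := δ) (by rwa [abs_of_pos hδ])
  have h2 := h.isArc_lift (s := -δ) (by rwa [abs_neg, abs_of_pos hδ])
  have h3 : {v | v ∈ S2 ∧ v 2 = δ * f v ∧ 0 ≤ f v} ∩ {v | v ∈ S2 ∧ v 2 = -δ * f v ∧ 0 ≤ f v} ⊆
      {q, q'} := by
    rintro v ⟨⟨hvS, a, b⟩, ⟨_, a', _⟩⟩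
    have h0 : f v = 0 := by
      have : δ * f v = 0 := by linarith
      rcases mul_eq_zero.1 this with h | h
      · exact absurd h hδ.ne'
      · exact h
    have hv2 : v 2 = 0 := by rw [a, h0, mul_zero]
    exact (h.zero v ⟨hvS, hv2⟩).1 h0
  have h4 := isCircle_of_arcs h1 h2 h3
  have h5 : {v | v ∈ S2 ∧ v 2 = δ * f v ∧ 0 ≤ f v} ∪ {v | v ∈ S2 ∧ v 2 = -δ * f v ∧ 0 ≤ f v} =
      {v | v ∈ S2 ∧ |v 2| = δ * f v} := by
    ext v
    constructor
    · rintro (⟨hvS, a, b⟩ | ⟨hvS, a, b⟩)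
      · refine ⟨hvS, ?_⟩
        rw [a, abs_of_nonneg (mul_nonneg hδ.le b)]
      · refine ⟨hvS, ?_⟩
        rw [a, neg_mul, abs_neg, abs_of_nonneg (mul_nonneg hδ.le b)]
    · rintro ⟨hvS, a⟩
      have hf : 0 ≤ f v := by
        by_contra hcon
        push Not at hcon
        have := mul_neg_of_pos_of_neg hδ hcon
        rw [← a] at this
        exact absurd (abs_nonneg (v 2)) (not_le.2 this)
      rcases abs_eq (mul_nonneg hδ.le hf) |>.1 a with h | h
      · exact Or.inl ⟨hvS, h, hf⟩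
      · refine Or.inr ⟨hvS, ?_, hf⟩
        rw [h]; ring
  rwa [h5] at h4

/-- **The disc outside a lens.** -/
theorem discIn (h : Lens f q q') {δ : ℝ} (hδ : 0 < δ) (hδ' : δ ≤ 1 / 4) :
    DiscIn S2 {v | v ∈ S2 ∧ δ * f v ≤ |v 2|} {v | v ∈ S2 ∧ |v 2| = δ * f v} := by
  set γ : Set V := {v | v ∈ S2 ∧ |v 2| = δ * f v} with hγ
  have hγS : γ ⊆ S2 := fun v hv => hv.1
  obtain ⟨U, W, hd, hu, hU, hW, hUb, hWb⟩ := H339.jordanSch_sphere γ hγS
    (H339.conSphere_iff.2 (h.isCircle_lens hδ hδ'))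
  let g : V → ℝ := fun v => |v 2| - δ * f v
  have hg : Continuous g := by
    have := h.cont
    fun_prop
  have hpre : ∀ U : Set V, ConBall 2 (U ∪ γ) γ → U ⊆ S2 \ γ →
      (∀ x ∈ U, 0 < g x) ∨ ∀ x ∈ U, g x < 0 := by
    intro U hUb hUS
    have hUe : (U ∪ γ) \ γ = U := by
      ext x
      constructor
      · rintro ⟨h1, h2⟩; exact h1.resolve_right h2
      · intro hx; exact ⟨Or.inl hx, (hUS hx).2⟩
    have hp := ConBall.isPreconnected_int hUb
    rw [hUe] at hp
    refine subset_or_of_sign hp hg.continuousOn fun x hx h0 => (hUS hx).2 ⟨(hUS hx).1, ?_⟩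
    have : |x 2| - δ * f x = 0 := h0
    linarith
  have hUS : U ⊆ S2 \ γ := by rw [← hu]; exact subset_union_left
  have hWS : W ⊆ S2 \ γ := by rw [← hu]; exact subset_union_right
  -- points on both sides
  have hN : (![0, 0, 1] : V) ∈ S2 ∧ 0 < g ![0, 0, 1] := by
    have hm : (![0, 0, 1] : V) ∈ S2 := by rw [mem_sphere_fin3]; simp
    refine ⟨hm, ?_⟩
    show 0 < |(1:ℝ)| - δ * f ![0, 0, 1]
    have := h.le _ hm
    rw [abs_one]
    nlinarith
  obtain ⟨c, hc, hc1, hc2⟩ := H339.IsArc.exists_interior h.arc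
  have hcf : 0 < f c := lt_of_le_of_ne hc.2 fun h0 => by
    rcases (h.zero c hc.1).1 h0.symm with h | h
    · exact hc1 h
    · exact hc2 h
  have hCc : c ∈ S2 ∧ g c < 0 := by
    refine ⟨hc.1.1, ?_⟩
    show |c 2| - δ * f c < 0
    rw [show c 2 = 0 from hc.1.2, abs_zero]
    have := mul_pos hδ hcf
    linarith
  have key : ∀ U W : Set V, U ∪ W = S2 \ γ → (∀ x ∈ U, 0 < g x) → (∀ x ∈ W, g x < 0) →
      ConBall 2 (U ∪ γ) γ → ConBall 2 (W ∪ γ) γ →
      DiscIn S2 {v | v ∈ S2 ∧ δ * f v ≤ |v 2|} γ := by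
    intro U W hu hU hW hUb hWb
    have e1 : U ∪ γ = {v | v ∈ S2 ∧ δ * f v ≤ |v 2|} := by
      ext v
      constructor
      · rintro (hv | hv)
        · have hvS : v ∈ S2 \ γ := by rw [← hu]; exact Or.inl hv
          refine ⟨hvS.1, ?_⟩
          have : 0 < |v 2| - δ * f v := hU v hv
          linarith
        · exact ⟨hv.1, hv.2.ge⟩
      · rintro ⟨hvS, hv⟩
        by_cases hvγ : v ∈ γ
        · exact Or.inr hvγ
        · left
          have hvU : v ∈ U ∪ W := by rw [hu]; exact ⟨hvS, hvγ⟩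
          rcases hvU with h | h
          · exact h
          · have : |v 2| - δ * f v < 0 := hW v h
            linarith
    have e2 : S2 \ ({v | v ∈ S2 ∧ δ * f v ≤ |v 2|} \ γ) = W ∪ γ := by
      rw [← e1]
      ext v
      constructor
      · rintro ⟨hvS, hv⟩
        by_cases hvγ : v ∈ γ
        · exact Or.inr hvγ
        · left
          have hvU : v ∈ U ∪ W := by rw [hu]; exact ⟨hvS, hvγ⟩
          rcases hvU with h | h
          · exact absurd ⟨Or.inl h, hvγ⟩ hv
          · exact h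
      · rintro (hv | hv)
        · have hvS : v ∈ S2 \ γ := by rw [← hu]; exact Or.inr hv
          refine ⟨hvS.1, ?_⟩
          rintro ⟨h1 | h1, h2⟩
          · exact absurd (hU v h1) (not_lt.2 (hW v hv).le)
          · exact h2 h1
        · exact ⟨hγS hv, fun h' => h'.2 hv⟩
    refine ⟨?_, fun v hv => hv.1, ?_, ?_⟩
    · rw [← e1]; exact hUb
    · rw [e2]; exact hWb.isClosed
    · rw [e2]; exact hWb.conicalSet
  have hcover : ∀ x ∈ S2, g x ≠ 0 → x ∈ U ∪ W := by
    intro x hx h0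
    rw [hu]
    refine ⟨hx, fun hxγ => h0 ?_⟩
    show |x 2| - δ * f x = 0
    rw [hxγ.2, sub_self]
  rcases hpre U hUb hUS with h1 | h1 <;> rcases hpre W hWb hWS with h2 | h2
  · exfalso
    rcases hcover c hCc.1 hCc.2.ne with h | h
    · exact absurd (h1 c h) (not_lt.2 hCc.2.le)
    · exact absurd (h2 c h) (not_lt.2 hCc.2.le)
  · exact key U W hu h1 h2 hUb hWb
  · exact key W U (by rw [union_comm]; exact hu) h2 h1 hWb hUb
  · exfalso
    rcases hcover _ hN.1 hN.2.ne' with h | h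
    · exact absurd (h1 _ h) (not_lt.2 hN.2.le)
    · exact absurd (h2 _ h) (not_lt.2 hN.2.le)

/-- **Exchange of arcs, in the domain.** -/
theorem exchange (h : Lens f q q') {M : Set V} (hM : IsArc M q q') (hMS : M ⊆ S2)
    (hMC : ∀ v ∈ M, v ∈ equator3 → 0 ≤ f v → v = q ∨ v = q')
    (β : ConHomeo {v | v ∈ equator3 ∧ f v ≤ 0} M) (hβq : β.toFun q = q) (hβq' : β.toFun q' = q')
    {p : V} (hp : p ∈ equator3) (hpf : f p < 0) :
    ∃ (η : ConHomeo S2 S2) (δ : ℝ), 0 < δ ∧ (∀ v ∈ S2, |v 2| ≤ δ * f v → η.toFun v = v) ∧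
      (∀ v ∈ equator3, f v ≤ 0 → η.toFun v = β.toFun v) ∧
      Iso S2 ({v | v ∈ equator3 ∧ 0 ≤ f v} ∪ {x | x = p ∧ β.toFun p = p}) η := by
  have hc2 : ConicalOn (fun v : V => |v 2|) univ :=
    (conicalOn_coord (IsOpen.conicalSet isOpen_univ) 2).rabs (by fun_prop)
  have hqC := h.arc.left_mem
  have hqC' := h.arc.right_mem
  have hz : ∀ v ∈ equator3, f v = 0 → |v 2| = 0 ∧ f v = 0 := fun v hv h0 =>
    ⟨by rw [show v 2 = 0 from hv.2, abs_zero], h0⟩
  obtain ⟨δ₀, hδ₀, H⟩ := exists_delta hM.isCompact (H339.locCone_of_isArc hM)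
    (F := fun v : V => |v 2|) (G := f) (by fun_prop) hc2 (fun v => abs_nonneg _) h.cont h.con
    hM.ne (hz q hqC.1 ((h.zero q hqC.1).2 (Or.inl rfl)))
    (hz q' hqC'.1 ((h.zero q' hqC'.1).2 (Or.inr rfl))) (by
      intro v hv h0 h1
      exact hMC v hv ⟨hMS hv, abs_eq_zero.1 h0⟩ h1)
  set δ := min δ₀ (1 / 4) with hδdef
  have hδ : 0 < δ := lt_min hδ₀ (by norm_num)
  have hδ' : δ ≤ 1 / 4 := min_le_right _ _
  have HM := H δ hδ (min_le_left _ _)
  have hD := h.discIn hδ hδ'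
  set D : Set V := {v | v ∈ S2 ∧ δ * f v ≤ |v 2|} with hDdef
  set γ : Set V := {v | v ∈ S2 ∧ |v 2| = δ * f v} with hγdef
  let g : Set V := {v | v ∈ equator3 ∧ f v ≤ 0}
  have hgD : g ⊆ D := fun v hv => ⟨hv.1.1, (mul_nonpos_of_nonneg_of_nonpos hδ.le hv.2).trans
    (abs_nonneg _)⟩
  have hMD : M ⊆ D := by
    intro v hv
    refine ⟨hMS hv, ?_⟩
    by_contra hcon
    push Not at hcon
    have key := HM v hv hcon.le
    have : ∀ w, w ∈ equator3 → f w = 0 → ¬ |w 2| < δ * f w := by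
      intro w _ h0
      rw [h0, mul_zero]
      exact not_lt.2 (abs_nonneg _)
    rcases key with rfl | rfl
    · exact this v hqC.1 ((h.zero v hqC.1).2 (Or.inl rfl)) hcon
    · exact this v hqC'.1 ((h.zero v hqC'.1).2 (Or.inr rfl)) hcon
  have hqγ : ∀ v ∈ equator3, f v = 0 → v ∈ γ := fun v hv h0 =>
    ⟨hv.1, by rw [h0, mul_zero, show v 2 = 0 from hv.2, abs_zero]⟩
  have hq0 := (h.zero q hqC.1).2 (Or.inl rfl)
  have hq0' := (h.zero q' hqC'.1).2 (Or.inr rfl)
  have hgγ : g ∩ γ = {q, q'} := by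
    apply Subset.antisymm
    · rintro v ⟨⟨hv, hv0⟩, ⟨_, hv1⟩⟩
      rw [show v 2 = 0 from hv.2, abs_zero] at hv1
      have h0 : f v = 0 := by
        rcases mul_eq_zero.1 hv1.symm with h | h
        · exact absurd h hδ.ne'
        · exact h
      exact (h.zero v hv).1 h0
    · rintro v (hv | hv)
      · rw [hv]; exact ⟨⟨hqC.1, hq0.le⟩, hqγ q hqC.1 hq0⟩
      · rw [mem_singleton_iff.1 hv]; exact ⟨⟨hqC'.1, hq0'.le⟩, hqγ q' hqC'.1 hq0'⟩
  have hMγ : M ∩ γ = {q, q'} := by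
    apply Subset.antisymm
    · rintro v ⟨hv, hv1⟩
      exact HM v hv hv1.2.le
    · rintro v (hv | hv)
      · rw [hv]; exact ⟨hM.left_mem, hqγ q hqC.1 hq0⟩
      · rw [mem_singleton_iff.1 hv]; exact ⟨hM.right_mem, hqγ q' hqC'.1 hq0'⟩
  obtain ⟨Ψ, hΨ1, hΨ2⟩ := SCH.exists_exchange_crosscuts hD.ball h.arc' hM hgD hMD hgγ hMγ β hβq hβq'
  obtain ⟨η, hη1, hη2⟩ := hD.exists_extend Ψ hΨ1
  have hηg : ∀ v ∈ equator3, f v ≤ 0 → η.toFun v = β.toFun v := by
    intro v hv h0
    have hvg : v ∈ g := ⟨hv, h0⟩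
    rw [hη1 (hgD hvg), hΨ2 hvg]
  have hpD : p ∈ D \ γ := by
    refine ⟨hgD ⟨hp, hpf.le⟩, fun hpγ => ?_⟩
    have h1 : |p 2| = δ * f p := hpγ.2
    have := mul_neg_of_pos_of_neg hδ hpf
    rw [← h1] at this
    exact absurd (abs_nonneg _) (not_le.2 this)
  have hcompl : ∀ v ∈ S2, |v 2| ≤ δ * f v → v ∈ S2 \ (D \ γ) := by
    intro v hv h1
    refine ⟨hv, fun h2 => h2.2 ⟨hv, le_antisymm h1 h2.1.2⟩⟩
  refine ⟨η, δ, hδ, fun v hv h1 => hη2 v (hcompl v hv h1), hηg, ?_⟩
  refine (hD.iso hpD η hη2).mono ?_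
  rintro v (hv | ⟨rfl, hv⟩)
  · left
    refine hcompl v hv.1.1 ?_
    rw [show v 2 = 0 from hv.1.2, abs_zero]
    exact mul_nonneg hδ.le hv.2
  · right
    exact ⟨rfl, by rw [hηg v hp hpf.le]; exact hv⟩

end Lens

end P073.GB73
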