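import Vale.Agent.P073.GB73.Rect

/-!
# P073, block GB4: moving points on the sphere; adding fixed points
-/

open Set Metric Topology Filter

namespace P073.GB73

open P073
open Vale.Agent.P073.St (V)

/-- special points: the open middle segments of the two faces `v 0 = ± 1` -/
def Spec (a : V) : Prop := ∃ e y : ℝ, (e = 1 ∨ e = -1) ∧ |y| < 1 ∧ a = ![e, y, 0]

theorem Spec.mem {a : V} (h : Spec a) : a ∈ S2 := by
  obtain ⟨e, y, he, hy, rfl⟩ := h
  have he1 : |e| = 1 := by rcases he with h | h <;> rw [h] <;> simp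
  rw [mem_sphere_fin3]
  show |e| ≤ 1 ∧ |y| ≤ 1 ∧ |(0:ℝ)| ≤ 1 ∧ (|e| = 1 ∨ |y| = 1 ∨ |(0:ℝ)| = 1)
  exact ⟨he1.le, hy.le, by simp, Or.inl he1⟩

theorem spec_PP {y : ℝ} (hy : |y| < 1) : Spec (PP y) := ⟨1, y, Or.inl rfl, hy, rfl⟩

theorem spec_cc : Spec cc := ⟨-1, 0, Or.inr rfl, by simp, rfl⟩

/-- adding one fixed point -/
theorem exists_add_point {X : Set V} (hX : X.Finite) (hXS : X ⊆ S2) {a : V} (ha : Spec a)
    (haX : a ∉ X) {κ : ℝ} (hκ : 0 < κ) :
    ∃ ρ > 0, ∀ φ : ConHomeo S2 S2, ‖φ.toFun a - a‖ ≤ ρ →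
      ∃ ψ : ConHomeo S2 S2, Iso S2 X ψ ∧ (∀ x ∈ X, ψ.toFun x = x) ∧
        ψ.toFun (φ.toFun a) = a ∧ (∀ x ∈ S2, ‖ψ.toFun x - x‖ ≤ κ) ∧ ψ.invFun N0 = N0 := by
  obtain ⟨e, y, he, hy, rfl⟩ := ha
  have hee : e * e = 1 := by rcases he with h | h <;> rw [h] <;> norm_num
  -- distance to `X`
  obtain ⟨d0, hd0, hdX⟩ : ∃ d0 > 0, ∀ x ∈ X, d0 < ‖x - ![e, y, 0]‖ := by
    have hcl : IsClosed X := hX.isClosed
    have hop : Xᶜ ∈ 𝓝 (![e, y, 0] : V) := hcl.isOpen_compl.mem_nhds haX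
    obtain ⟨d0, hd0, hb⟩ := Metric.nhds_basis_closedBall.mem_iff.1 hop
    refine ⟨d0, hd0, fun x hx => ?_⟩
    by_contra hcon
    push Not at hcon
    exact hb (show x ∈ closedBall (![e, y, 0] : V) d0 by rwa [mem_closedBall, dist_eq_norm]) hx
  set r := min (min d0 (κ / 2)) ((1 - |y|) / 2) with hr
  have hr0 : 0 < r := lt_min (lt_min hd0 (by linarith)) (by linarith)
  have hr1 : r ≤ d0 := (min_le_left _ _).trans (min_le_left _ _)
  have hr2 : r ≤ κ / 2 := (min_le_left _ _).trans (min_le_right _ _)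
  have hr3 : r ≤ (1 - |y|) / 2 := min_le_right _ _
  have hyr : |y| + r < 1 := by linarith
  have hr4 : r < 1 := by linarith [abs_nonneg y]
  have hD := (discIn_rect he hr0 hr0 hyr hr4).2
  set D : Set V := {v | v ∈ S2 ∧ rG e y r r v ≤ 0} with hDdef
  set γ : Set V := {v | v ∈ S2 ∧ rG e y r r v = 0} with hγdef
  have haS : (![e, y, 0] : V) ∈ S2 := Spec.mem ⟨e, y, he, hy, rfl⟩
  -- the disc is small
  have hsmall : ∀ v ∈ D, ‖v - ![e, y, 0]‖ ≤ r := by
    rintro v ⟨hv, hv0⟩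
    obtain ⟨g0, g1, g2⟩ := rG_le_zero he hyr hr4 hv hv0
    rw [pi_norm_le_iff_of_nonneg hr0.le]
    intro i
    fin_cases i
    · show ‖v 0 - e‖ ≤ r
      rw [g0, sub_self, norm_zero]; exact hr0.le
    · exact g1
    · show ‖v 2 - 0‖ ≤ r
      rw [sub_zero]; exact g2
  have hin : ∀ v ∈ S2, ‖v - ![e, y, 0]‖ < r → v ∈ D \ γ := by
    intro v hv h
    have h0 : |v 0 - e| < r := (norm_le_pi_norm (v - ![e, y, 0]) 0).trans_lt h
    have h1 : |v 1 - y| < r := (norm_le_pi_norm (v - ![e, y, 0]) 1).trans_lt h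
    have h2 : |v 2| < r := by
      have : |v 2 - 0| < r := (norm_le_pi_norm (v - ![e, y, 0]) 2).trans_lt h
      rwa [sub_zero] at this
    have h3 : 0 < e * v 0 := by
      have : e * v 0 = 1 + e * (v 0 - e) := by linear_combination hee
      rw [this]
      have he1 : |e| = 1 := by rcases he with h | h <;> rw [h] <;> simp
      have : |e * (v 0 - e)| < 1 := by rw [abs_mul, he1, one_mul]; linarith
      linarith [(abs_lt.1 this).1]
    have hneg : rG e y r r v < 0 :=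
      max_lt (max_lt (by linarith) (by linarith)) (by linarith)
    exact ⟨⟨hv, hneg.le⟩, fun h4 => hneg.ne h4.2⟩
  refine ⟨r / 2, by positivity, fun φ hφ => ?_⟩
  have hpm : φ.toFun ![e, y, 0] ∈ D \ γ :=
    hin _ (φ.mapsTo haS) (lt_of_le_of_lt hφ (by linarith))
  have hqm : (![e, y, 0] : V) ∈ D \ γ := hin _ haS (by rw [sub_self, norm_zero]; exact hr0)
  obtain ⟨ψ, h1, h2, h3, h4⟩ := hD.exists_move hpm hqm
  have hXout : X ⊆ S2 \ (D \ γ) := fun x hx => ⟨hXS hx, fun hxD => by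
    have := hsmall x hxD.1
    linarith [hdX x hx]⟩
  have hN : ψ.invFun N0 = N0 := by
    have hNout : N0 ∈ S2 \ (D \ γ) := by
      refine ⟨N0_mem, fun hND => ?_⟩
      have g2 := (rG_le_zero he hyr hr4 N0_mem hND.1.2).2.2
      have : |N0 2| = 1 := by show |(1:ℝ)| = 1; simp
      linarith
    have := ψ.left_inv N0_mem
    rwa [h1 _ hNout] at this
  refine ⟨ψ, h4.mono hXout, fun x hx => h1 x (hXout hx), h2, ?_, hN⟩
  intro x hx
  by_cases hxD : x ∈ D \ γ
  · calc ‖ψ.toFun x - x‖ ≤ ‖ψ.toFun x - ![e, y, 0]‖ + ‖![e, y, 0] - x‖ :=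
          norm_sub_le_norm_sub_add_norm_sub _ _ _
      _ ≤ r + r := by
          rw [norm_sub_rev _ x]
          exact add_le_add (hsmall _ (h3 hxD.1)) (hsmall _ hxD.1)
      _ ≤ κ := by linarith
  · rw [h1 x ⟨hx, hxD⟩, sub_self, norm_zero]; exact hκ.le

/-- adding finitely many fixed points; the closeness is needed on a set `C` containing them -/
theorem exists_add_points {C : Set V} (hCS : C ⊆ S2) {X : Set V} (hX : X.Finite) (hXS : X ⊆ S2)
    {Z : Set V} (hZ : Z.Finite) (hZs : ∀ a ∈ Z, Spec a) (hZX : Disjoint Z X) (hZC : Z ⊆ C) :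
    ∀ κ > 0, ∃ ρ > 0, ∀ φ : ConHomeo S2 S2, (∀ x ∈ X, φ.toFun x = x) →
      (∀ x ∈ C, ‖φ.toFun x - x‖ ≤ ρ) →
      ∃ ψ : ConHomeo S2 S2, Iso S2 X ψ ∧ (∀ x ∈ X ∪ Z, ψ.toFun (φ.toFun x) = x) ∧
        (∀ x ∈ C, ‖ψ.toFun (φ.toFun x) - x‖ ≤ κ) ∧ ψ.invFun N0 = N0 := by
  have hS2 : ConicalSet S2 := conicalSet_sphere_pi 3
  induction Z, hZ using Set.Finite.induction_on with
  | empty =>
    intro κ hκ
    refine ⟨κ, hκ, fun φ hφ hφc => ⟨ConHomeo.refl hS2, Iso.refl hS2 X, ?_, hφc, rfl⟩⟩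
    intro x hx
    rcases hx with hx | hx
    · exact hφ x hx
    · exact absurd hx (notMem_empty x)
  | @insert a Z haZ hZ ih =>
    intro κ hκ
    have hZX' : Disjoint Z X := hZX.mono_left (subset_insert _ _)
    have haX : a ∉ X := fun h => disjoint_left.1 hZX (mem_insert _ _) h
    have haC : a ∈ C := hZC (mem_insert _ _)
    have hXZ : X ∪ Z ⊆ S2 := union_subset hXS fun z hz => (hZs z (mem_insert_of_mem _ hz)).mem
    obtain ⟨ρ1, hρ1, H1⟩ := exists_add_point (hX.union hZ) hXZ (hZs a (mem_insert _ _))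
      (by rintro (h | h); exacts [haX h, haZ h]) (show 0 < κ / 2 by linarith)
    obtain ⟨ρ, hρ, H⟩ := ih (fun z hz => hZs z (mem_insert_of_mem _ hz)) hZX'
      (fun z hz => hZC (mem_insert_of_mem _ hz)) (min ρ1 (κ / 2)) (lt_min hρ1 (by linarith))
    refine ⟨ρ, hρ, fun φ hφ hφc => ?_⟩
    obtain ⟨ψ, g1, g2, g3, g4⟩ := H φ hφ hφc
    obtain ⟨ψ', k1, k2, k3, k4, k5⟩ := H1 (φ.trans ψ) ((g3 a haC).trans (min_le_left _ _))
    refine ⟨ψ.trans ψ', g1.trans (k1.mono subset_union_left) hXS, ?_, ?_, ?_⟩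
    · intro x hx
      show ψ'.toFun (ψ.toFun (φ.toFun x)) = x
      have : x ∈ X ∪ Z ∨ x = a := by
        rcases hx with hx | hx
        · exact Or.inl (Or.inl hx)
        · rcases hx with hx | hx
          · exact Or.inr hx
          · exact Or.inl (Or.inr hx)
      rcases this with hx | rfl
      · rw [g2 x hx, k2 x hx]
      · exact k3
    · intro x hx
      show ‖ψ'.toFun (ψ.toFun (φ.toFun x)) - x‖ ≤ κ
      calc ‖ψ'.toFun (ψ.toFun (φ.toFun x)) - x‖
          ≤ ‖ψ'.toFun (ψ.toFun (φ.toFun x)) - ψ.toFun (φ.toFun x)‖ +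
            ‖ψ.toFun (φ.toFun x) - x‖ := norm_sub_le_norm_sub_add_norm_sub _ _ _
        _ ≤ κ / 2 + κ / 2 := add_le_add (k4 _ (ψ.mapsTo (φ.mapsTo (hCS hx))))
            ((g3 x hx).trans (min_le_right _ _))
        _ = κ := by ring
    · show ψ.invFun (ψ'.invFun N0) = N0
      rw [k5, g4]

/-- finite sets of reals in `(-1, 1)` are bounded away from `±1` -/
theorem exists_bound {Y : Finset ℝ} (hY : ∀ y ∈ Y, |y| < 1) : ∃ c, 0 < c ∧ c < 1 ∧
    ∀ y ∈ Y, |y| ≤ c := by
  induction Y using Finset.induction_on with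
  | empty => exact ⟨1 / 2, by norm_num, by norm_num, fun y hy => absurd hy (Finset.notMem_empty y)⟩
  | insert a Y _ ih =>
    obtain ⟨c, h0, h1, h2⟩ := ih fun y hy => hY y (Finset.mem_insert_of_mem hy)
    refine ⟨max c |a|, lt_max_of_lt_left h0, max_lt h1 (hY a (Finset.mem_insert_self _ _)), ?_⟩
    intro y hy
    rcases Finset.mem_insert.1 hy with rfl | hy
    · exact le_max_right _ _
    · exact (h2 y hy).trans (le_max_left _ _)

/-- **moving finitely many points to the flat segment** -/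
theorem exists_to_flat {X : Set V} (hX : X.Finite) (hXS : X ⊆ S2) :
    ∃ (g : ConHomeo S2 S2) (Y : Finset ℝ), (∀ y ∈ Y, |y| < 1) ∧
      g.toFun '' X = PP '' (Y : Set ℝ) := by
  have hS2 : ConicalSet S2 := conicalSet_sphere_pi 3
  induction X, hX using Set.Finite.induction_on with
  | empty => exact ⟨ConHomeo.refl hS2, ∅, fun y hy => absurd hy (Finset.notMem_empty y), by simp⟩
  | @insert v X hvX hX ih =>
    obtain ⟨g, Y, hY, hg⟩ := ih fun x hx => hXS (mem_insert_of_mem _ hx)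
    have hvS : v ∈ S2 := hXS (mem_insert _ _)
    set w := g.toFun v with hw
    have hwS : w ∈ S2 := g.mapsTo hvS
    have hwY : w ∉ PP '' (Y : Set ℝ) := by
      rw [← hg]
      rintro ⟨x, hx, hxw⟩
      have := g.injOn (hXS (mem_insert_of_mem _ hx)) hvS hxw
      exact hvX (this ▸ hx)
    -- it suffices to move `w`
    suffices h : ∃ (h : ConHomeo S2 S2) (y' : ℝ), |y'| < 1 ∧ h.toFun w = PP y' ∧
        ∀ y ∈ Y, h.toFun (PP y) = PP y by
      obtain ⟨h, y', hy', hwy', hfix⟩ := h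
      refine ⟨g.trans h, insert y' Y, ?_, ?_⟩
      · intro y hy
        rcases Finset.mem_insert.1 hy with rfl | hy
        · exact hy'
        · exact hY y hy
      · rw [ConHomeo.trans_toFun, image_comp, image_insert_eq, hg, image_insert_eq, hwy',
          Finset.coe_insert, image_insert_eq, image_image]
        congr 1
        exact image_congr fun y hy => hfix y hy
    by_cases hflat : w 0 = 1 ∧ w 2 = 0 ∧ |w 1| < 1
    · exact ⟨ConHomeo.refl hS2, w 1, hflat.2.2, eq_PP hflat.1 hflat.2.1, fun _ _ => rfl⟩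
    · obtain ⟨c, hc0, hc1, hcY⟩ := exists_bound hY
      obtain ⟨d, hd0, hd1, hdw⟩ : ∃ d, 0 < d ∧ d < 1 ∧ (w 2 ≠ 0 → d < |w 2|) := by
        by_cases h : w 2 = 0
        · exact ⟨1 / 2, by norm_num, by norm_num, fun h' => absurd h h'⟩
        · have hpos := abs_pos.2 h
          refine ⟨min (1 / 2) (|w 2| / 2), lt_min (by norm_num) (by linarith),
            (min_le_left _ _).trans_lt (by norm_num), fun _ => (min_le_right _ _).trans_lt
              (by linarith)⟩
      have hD := (discIn_rect (e := 1) (y := 0) (Or.inl rfl) hc0 hd0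
        (by rw [abs_zero, zero_add]; exact hc1) hd1).1
      have hwpos : 0 < rG 1 0 c d w := by
        by_contra hcon
        push Not at hcon
        obtain ⟨g0, g1, g2⟩ := rG_le_zero (Or.inl rfl) (by rw [abs_zero, zero_add]; exact hc1) hd1
          hwS hcon
        rw [sub_zero] at g1
        have h2 : w 2 = 0 := by
          by_contra h
          linarith [hdw h]
        exact hflat ⟨g0, h2, by linarith⟩
      have hy'abs : |(1 + c) / 2| < 1 := by rw [abs_of_pos (by linarith)]; linarith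
      have hy'pos : 0 < rG 1 0 c d (PP ((1 + c) / 2)) := by
        refine lt_of_lt_of_le ?_ (le_max_left _ _)
        refine lt_of_lt_of_le ?_ (le_max_left _ _)
        show 0 < |(1 + c) / 2 - 0| - c
        rw [sub_zero, abs_of_pos (by linarith)]
        linarith
      have hy'S : PP ((1 + c) / 2) ∈ S2 := (PP_mem hy'abs.le).1
      obtain ⟨h, h1, h2, -, -⟩ := hD.exists_move (p := w) (q := PP ((1 + c) / 2))
        ⟨⟨hwS, hwpos.le⟩, fun h => hwpos.ne' h.2⟩ ⟨⟨hy'S, hy'pos.le⟩, fun h => hy'pos.ne' h.2⟩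
      refine ⟨h, (1 + c) / 2, hy'abs, h2, fun y hy => ?_⟩
      refine h1 _ ⟨(PP_mem (hY y hy).le).1, ?_⟩
      rintro ⟨⟨_, h3⟩, h4⟩
      apply h4
      refine ⟨(PP_mem (hY y hy).le).1, le_antisymm ?_ h3⟩
      have hyc := hcY y hy
      refine max_le (max_le ?_ ?_) ?_
      · show |y - 0| - c ≤ 0
        rw [sub_zero]; linarith
      · show |(0:ℝ)| - d ≤ 0
        rw [abs_zero]; linarith
      · show -(1 * (1:ℝ)) ≤ 0
        norm_num

end P073.GB73
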