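import Vale.Agent.P073.GB73.GapStep

/-!
# P073, block GB4: rectangles on the faces and their complements
-/

open Set Metric Topology Filter

namespace P073.GB73

open P073
open Vale.Agent.P073.St (V)

/-- the two sides of a circle given by the sign of a function are discs -/
theorem discIn_of_sign {G : V → ℝ} (hG : Continuous G) (hc : IsCircle {v | v ∈ S2 ∧ G v = 0})
    {a b : V} (ha : a ∈ S2) (ha' : 0 < G a) (hb : b ∈ S2) (hb' : G b < 0) :
    DiscIn S2 {v | v ∈ S2 ∧ 0 ≤ G v} {v | v ∈ S2 ∧ G v = 0} ∧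
    DiscIn S2 {v | v ∈ S2 ∧ G v ≤ 0} {v | v ∈ S2 ∧ G v = 0} := by
  set γ : Set V := {v | v ∈ S2 ∧ G v = 0} with hγ
  have hγS : γ ⊆ S2 := fun v hv => hv.1
  obtain ⟨U, W, -, hu, -, -, hUb, hWb⟩ := H339.jordanSch_sphere γ hγS
    (H339.conSphere_iff.2 hc)
  have hpre : ∀ U : Set V, ConBall 2 (U ∪ γ) γ → U ⊆ S2 \ γ →
      (∀ x ∈ U, 0 < G x) ∨ ∀ x ∈ U, G x < 0 := by
    intro U hUb hUS
    have hUe : (U ∪ γ) \ γ = U := by
      ext x
      constructor
      · rintro ⟨h1, h2⟩; exact h1.resolve_right h2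
      · intro hx; exact ⟨Or.inl hx, (hUS hx).2⟩
    have hp := ConBall.isPreconnected_int hUb
    rw [hUe] at hp
    exact subset_or_of_sign hp hG.continuousOn fun x hx h0 => (hUS hx).2 ⟨(hUS hx).1, h0⟩
  have hUS : U ⊆ S2 \ γ := by rw [← hu]; exact subset_union_left
  have hWS : W ⊆ S2 \ γ := by rw [← hu]; exact subset_union_right
  have key : ∀ U W : Set V, U ∪ W = S2 \ γ → (∀ x ∈ U, 0 < G x) → (∀ x ∈ W, G x < 0) →
      ConBall 2 (U ∪ γ) γ → ConBall 2 (W ∪ γ) γ →
      DiscIn S2 {v | v ∈ S2 ∧ 0 ≤ G v} γ ∧ DiscIn S2 {v | v ∈ S2 ∧ G v ≤ 0} γ := by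
    intro U W hu hU hW hUb hWb
    have hUS : U ⊆ S2 \ γ := by rw [← hu]; exact subset_union_left
    have hWS : W ⊆ S2 \ γ := by rw [← hu]; exact subset_union_right
    have e1 : U ∪ γ = {v | v ∈ S2 ∧ 0 ≤ G v} := by
      ext v
      constructor
      · rintro (hv | hv)
        · exact ⟨(hUS hv).1, (hU v hv).le⟩
        · exact ⟨hv.1, hv.2.ge⟩
      · rintro ⟨hvS, hv⟩
        by_cases hvγ : v ∈ γ
        · exact Or.inr hvγ
        · left
          have hvU : v ∈ U ∪ W := by rw [hu]; exact ⟨hvS, hvγ⟩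
          rcases hvU with h | h
          · exact h
          · exact absurd (hW v h) (not_lt.2 hv)
    have e2 : W ∪ γ = {v | v ∈ S2 ∧ G v ≤ 0} := by
      ext v
      constructor
      · rintro (hv | hv)
        · exact ⟨(hWS hv).1, (hW v hv).le⟩
        · exact ⟨hv.1, hv.2.le⟩
      · rintro ⟨hvS, hv⟩
        by_cases hvγ : v ∈ γ
        · exact Or.inr hvγ
        · left
          have hvU : v ∈ U ∪ W := by rw [hu]; exact ⟨hvS, hvγ⟩
          rcases hvU with h | h
          · exact absurd (hU v h) (not_lt.2 hv)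
          · exact h
    have c1 : S2 \ ({v | v ∈ S2 ∧ 0 ≤ G v} \ γ) = W ∪ γ := by
      rw [e2]
      ext v
      constructor
      · rintro ⟨h1, h2⟩
        refine ⟨h1, ?_⟩
        by_contra hcon
        push Not at hcon
        exact h2 ⟨⟨h1, hcon.le⟩, fun h3 => hcon.ne' h3.2⟩
      · rintro ⟨h1, h2⟩
        exact ⟨h1, fun h3 => h3.2 ⟨h1, le_antisymm h2 h3.1.2⟩⟩
    have c2 : S2 \ ({v | v ∈ S2 ∧ G v ≤ 0} \ γ) = U ∪ γ := by
      rw [e1]
      ext v
      constructor
      · rintro ⟨h1, h2⟩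
        refine ⟨h1, ?_⟩
        by_contra hcon
        push Not at hcon
        exact h2 ⟨⟨h1, hcon.le⟩, fun h3 => hcon.ne h3.2⟩
      · rintro ⟨h1, h2⟩
        exact ⟨h1, fun h3 => h3.2 ⟨h1, le_antisymm h3.1.2 h2⟩⟩
    refine ⟨⟨by rw [← e1]; exact hUb, fun v hv => hv.1, ?_, ?_⟩,
      ⟨by rw [← e2]; exact hWb, fun v hv => hv.1, ?_, ?_⟩⟩
    · rw [c1]; exact hWb.isClosed
    · rw [c1]; exact hWb.conicalSet
    · rw [c2]; exact hUb.isClosed
    · rw [c2]; exact hUb.conicalSet
  have hcover : ∀ x ∈ S2, G x ≠ 0 → x ∈ U ∪ W := by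
    intro x hx h0
    rw [hu]
    exact ⟨hx, fun hxγ => h0 hxγ.2⟩
  rcases hpre U hUb hUS with h1 | h1 <;> rcases hpre W hWb hWS with h2 | h2
  · exfalso
    rcases hcover b hb hb'.ne with h | h
    · exact absurd (h1 b h) (not_lt.2 hb'.le)
    · exact absurd (h2 b h) (not_lt.2 hb'.le)
  · exact key U W hu h1 h2 hUb hWb
  · exact key W U (by rw [union_comm]; exact hu) h2 h1 hWb hUb
  · exfalso
    rcases hcover a ha ha'.ne' with h | h
    · exact absurd (h1 a h) (not_lt.2 ha'.le)
    · exact absurd (h2 a h) (not_lt.2 ha'.le)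

/-- function of a rectangle on the face `v 0 = e`, with centre `(y, 0)` and half sides `c, d` -/
noncomputable def rG (e y c d : ℝ) (v : V) : ℝ :=
  max (max (|v 1 - y| - c) (|v 2| - d)) (-(e * v 0))

theorem continuous_rG (e y c d : ℝ) : Continuous (rG e y c d) := by unfold rG; fun_prop

theorem rG_le_zero {e y c d : ℝ} (he : e = 1 ∨ e = -1) (hc : |y| + c < 1) (hd : d < 1)
    {v : V} (hv : v ∈ S2) (h : rG e y c d v ≤ 0) : v 0 = e ∧ |v 1 - y| ≤ c ∧ |v 2| ≤ d := by
  unfold rG at h
  rw [max_le_iff, max_le_iff] at h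
  obtain ⟨⟨h1, h2⟩, h3⟩ := h
  refine ⟨?_, by linarith, by linarith⟩
  rw [mem_sphere_fin3] at hv
  obtain ⟨a0, a1, a2, a3⟩ := hv
  have b1 : |v 1| < 1 := by
    have : |v 1| ≤ |v 1 - y| + |y| := by
      have := abs_add_le (v 1 - y) y
      rwa [sub_add_cancel] at this
    linarith
  have b2 : |v 2| < 1 := by linarith
  have b0 : |v 0| = 1 := by
    rcases a3 with h | h | h
    · exact h
    · exact absurd h b1.ne
    · exact absurd h b2.ne
  rcases eq_or_eq_neg_of_abs_eq b0 with h4 | h4 <;> rcases he with h5 | h5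
  · rw [h4, h5]
  · rw [h4, h5] at h3; norm_num at h3
  · rw [h4, h5] at h3; norm_num at h3
  · rw [h4, h5]

theorem isCircle_rG {e y c d : ℝ} (he : e = 1 ∨ e = -1) (hc0 : 0 < c) (hd0 : 0 < d)
    (hc : |y| + c < 1) (hd : d < 1) : IsCircle {v : V | v ∈ S2 ∧ rG e y c d v = 0} := by
  let m : ℝ × ℝ → V := fun w => ![e, y + c * w.1, d * w.2]
  have he1 : |e| = 1 := by rcases he with h | h <;> rw [h] <;> simp
  have hee : e * e = 1 := by rcases he with h | h <;> rw [h] <;> norm_num
  have hS : ConicalSet (sphere (0 : ℝ × ℝ) 1) := H339.conicalSet_sphere_prod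
  have hmc : Continuous m := by
    refine continuous_pi fun i => ?_
    fin_cases i
    · exact continuous_const
    · show Continuous fun w : ℝ × ℝ => y + c * w.1
      fun_prop
    · show Continuous fun w : ℝ × ℝ => d * w.2
      fun_prop
  have hmcon : ConicalOn m (sphere (0 : ℝ × ℝ) 1) := by
    intro x hx
    refine conicalWithinAt_pi (hS x hx) fun i => ?_
    fin_cases i
    · exact conicalOn_const e hS x hx
    · exact ((conicalOn_const y hS).add ((conicalOn_linear (LinearMap.fst ℝ ℝ ℝ) hS).const_smul c)) x hx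
    · exact ((conicalOn_linear (LinearMap.snd ℝ ℝ ℝ) hS).const_smul d) x hx
  have hinj : InjOn m (sphere (0 : ℝ × ℝ) 1) := by
    rintro ⟨a, b⟩ _ ⟨a', b'⟩ _ h
    have h1 : y + c * a = y + c * a' := congrFun h 1
    have h2 : d * b = d * b' := congrFun h 2
    exact Prod.ext (mul_left_cancel₀ hc0.ne' (by linarith)) (mul_left_cancel₀ hd0.ne' h2)
  have habs : ∀ (k : ℝ), 0 < k → ∀ t : ℝ, |k * t| = k * |t| := fun k hk t => by
    rw [abs_mul, abs_of_pos hk]
  have himg : m '' sphere (0 : ℝ × ℝ) 1 = {v : V | v ∈ S2 ∧ rG e y c d v = 0} := by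
    apply Subset.antisymm
    · rintro _ ⟨⟨a, b⟩, hab, rfl⟩
      rw [mem_sphere_zero_iff_norm, Prod.norm_def] at hab
      simp only [Real.norm_eq_abs] at hab
      have ha : |a| ≤ 1 := hab ▸ le_max_left _ _
      have hb : |b| ≤ 1 := hab ▸ le_max_right _ _
      have m0 : m (a, b) 0 = e := rfl
      have m1 : m (a, b) 1 = y + c * a := rfl
      have m2 : m (a, b) 2 = d * b := rfl
      have k1 : |c * a| ≤ c := by rw [habs c hc0]; nlinarith
      have k2 : |d * b| ≤ d := by rw [habs d hd0]; nlinarith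
      constructor
      · rw [mem_sphere_fin3, m0, m1, m2]
        refine ⟨he1.le, ?_, by linarith, Or.inl he1⟩
        have := abs_add_le y (c * a)
        linarith
      · unfold rG
        rw [m0, m1, m2, hee, add_sub_cancel_left]
        have h1 : |c * a| - c ≤ 0 := by linarith
        have h2 : |d * b| - d ≤ 0 := by linarith
        have h3 : max (|c * a| - c) (|d * b| - d) = 0 := by
          apply le_antisymm (max_le h1 h2)
          rcases max_choice |a| |b| with h | h
          · rw [h] at hab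
            refine le_max_of_le_left ?_
            rw [habs c hc0, hab, mul_one, sub_self]
          · rw [h] at hab
            refine le_max_of_le_right ?_
            rw [habs d hd0, hab, mul_one, sub_self]
        rw [h3]
        norm_num
    · rintro v ⟨hvS, hv⟩
      obtain ⟨h0, h1, h2⟩ := rG_le_zero he hc hd hvS hv.le
      refine ⟨((v 1 - y) / c, v 2 / d), ?_, ?_⟩
      · rw [mem_sphere_zero_iff_norm, Prod.norm_def]
        simp only [Real.norm_eq_abs]
        rw [abs_div, abs_div, abs_of_pos hc0, abs_of_pos hd0]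
        have k1 : |v 1 - y| / c ≤ 1 := by rw [div_le_one hc0]; exact h1
        have k2 : |v 2| / d ≤ 1 := by rw [div_le_one hd0]; exact h2
        apply le_antisymm (max_le k1 k2)
        unfold rG at hv
        rw [h0, hee] at hv
        have h3 : max (|v 1 - y| - c) (|v 2| - d) = 0 := by
          rcases max_choice (max (|v 1 - y| - c) (|v 2| - d)) (-1) with h | h
          · rw [h] at hv; exact hv
          · rw [h] at hv; norm_num at hv
        rcases max_choice (|v 1 - y| - c) (|v 2| - d) with h | h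
        · rw [h] at h3
          refine le_max_of_le_left ?_
          rw [le_div_iff₀ hc0]; linarith
        · rw [h] at h3
          refine le_max_of_le_right ?_
          rw [le_div_iff₀ hd0]; linarith
      · funext i
        fin_cases i
        · exact h0.symm
        · show y + c * ((v 1 - y) / c) = v 1
          rw [mul_div_cancel₀ _ hc0.ne']; ring
        · show d * (v 2 / d) = v 2
          rw [mul_div_cancel₀ _ hd0.ne']
  exact ⟨(ConHomeo.ofCompact (isCompact_sphere _ _) m hmc.continuousOn hinj hmcon himg)⟩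

/-- a rectangle on a face and its complement are discs -/
theorem discIn_rect {e y c d : ℝ} (he : e = 1 ∨ e = -1) (hc0 : 0 < c) (hd0 : 0 < d)
    (hc : |y| + c < 1) (hd : d < 1) :
    DiscIn S2 {v | v ∈ S2 ∧ 0 ≤ rG e y c d v} {v | v ∈ S2 ∧ rG e y c d v = 0} ∧
    DiscIn S2 {v | v ∈ S2 ∧ rG e y c d v ≤ 0} {v | v ∈ S2 ∧ rG e y c d v = 0} := by
  have he1 : |e| = 1 := by rcases he with h | h <;> rw [h] <;> simp
  have hee : e * e = 1 := by rcases he with h | h <;> rw [h] <;> norm_num
  refine discIn_of_sign (continuous_rG e y c d) (isCircle_rG he hc0 hd0 hc hd) (a := N0)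
    (b := ![e, y, 0]) N0_mem ?_ ?_ ?_
  · refine lt_of_lt_of_le ?_ (le_max_left _ _)
    refine lt_of_lt_of_le ?_ (le_max_right _ _)
    show 0 < |(1:ℝ)| - d
    rw [abs_one]; linarith
  · rw [mem_sphere_fin3]
    show |e| ≤ 1 ∧ |y| ≤ 1 ∧ |(0:ℝ)| ≤ 1 ∧ (|e| = 1 ∨ |y| = 1 ∨ |(0:ℝ)| = 1)
    exact ⟨he1.le, by linarith, by simp, Or.inl he1⟩
  · show max (max (|y - y| - c) (|(0:ℝ)| - d)) (-(e * e)) < 0
    rw [sub_self, abs_zero, hee]
    exact max_lt (max_lt (by linarith) (by linarith)) (by norm_num)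

end P073.GB73
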