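import Vale.Agent.P073.GB73.Collar

/-!
# P073, block GB4c: `SpecCollar`
-/

open Set Metric Topology Filter

namespace P073.GB73

open P073
open Vale.Agent.P073.St (V)

/-- `specGB4` on any conical sphere -/
theorem iso_of_conHomeo {E : Type*} [NormedAddCommGroup E] [NormedSpace ℝ E] {S : Set E}
    (hS : IsCompact S) (g : ConHomeo S S2) {X : Set E} (hX : X.Finite) (hXS : X ⊆ S) :
    ∃ ρ > 0, ∀ φ : ConHomeo S S, (∀ x ∈ X, φ.toFun x = x) →
      (∀ x ∈ S, ‖φ.toFun x - x‖ ≤ ρ) → Iso S X φ := by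
  obtain ⟨ρ1, hρ1, H⟩ := specGB4 (g.toFun '' X) (hX.image _) (by
    rintro _ ⟨x, hx, rfl⟩; exact g.mapsTo (hXS hx))
  obtain ⟨ρ, hρ, hg⟩ := exists_conj_close hS g hρ1
  refine ⟨ρ, hρ, fun φ hφ hφc => Iso.conj g hXS (H _ ?_ ?_)⟩
  · rintro _ ⟨x, hx, rfl⟩
    show g.toFun (φ.toFun (g.invFun (g.toFun x))) = g.toFun x
    rw [g.left_inv (hXS hx), hφ x hx]
  · intro v hv
    have hm := g.mapsTo_inv hv
    have := hg _ hm _ (φ.mapsTo hm) (hφc _ hm)
    rw [g.right_inv hv] at this
    exact this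

/-- the affine chart of the surface of a box -/
theorem exists_boxSphere {a b : V} (hab : ∀ i, a i < b i) :
    ∃ g : ConHomeo S2 (frontier (Icc a b)), g.toFun = fun v => boxMap a b v := by
  have hc : Continuous (boxMap a b) := by
    refine continuous_pi fun i => ?_
    simp only [boxMap_apply]
    fun_prop
  have hcon : ConicalSet S2 := conicalSet_sphere_pi 3
  refine ⟨ConHomeo.ofCompact (isCompact_sphere (0:V) 1) (fun x => boxMap a b x) hc.continuousOn
    (boxMap_injective hab).injOn (conicalOn_of_affine (boxMap a b) hcon)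
    (boxMap_sphere (by norm_num) hab), ?_⟩
  rw [ConHomeo.ofCompact_toFun]

/-- surface of a box -/
theorem iso_box {a b : V} (hab : ∀ i, a i < b i) {X : Set V} (hX : X.Finite)
    (hXS : X ⊆ frontier (Icc a b)) :
    ∃ ρ > 0, ∀ φ : ConHomeo (frontier (Icc a b)) (frontier (Icc a b)),
      (∀ x ∈ X, φ.toFun x = x) → (∀ x ∈ frontier (Icc a b), ‖φ.toFun x - x‖ ≤ ρ) →
      Iso (frontier (Icc a b)) X φ := by
  obtain ⟨g, -⟩ := exists_boxSphere hab
  exact iso_of_conHomeo (isCompact_Icc.of_isClosed_subset isClosed_frontier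
      isClosed_Icc.frontier_subset) g.symm hX hXS

/-- the marked points lie on the surface -/
theorem mem_frontier_of_face {a b x : V} {m : ℝ} (hm : 0 < m) (hab : ∀ i, 2 * m < b i - a i)
    (hx : ∃ i, (x i = a i ∨ x i = b i) ∧ ∀ j ≠ i, a j + m ≤ x j ∧ x j ≤ b j - m) :
    x ∈ frontier (Icc a b) := by
  have hab' : ∀ i, a i < b i := fun i => by linarith [hab i]
  obtain ⟨i, hi, hj⟩ := hx
  rw [mem_frontier_iff_dep hab']
  apply le_antisymm
  · have := dep_le (a := a) (b := b) (z := x) i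
    rcases hi with hi | hi
    · rw [hi] at this; linarith [this.1]
    · rw [hi] at this; linarith [this.2]
  · rw [le_dep]
    intro j
    by_cases hji : j = i
    · subst hji
      rcases hi with hi | hi
      · rw [hi]; exact ⟨by linarith, by linarith [hab' j]⟩
      · rw [hi]; exact ⟨by linarith [hab' j], by linarith⟩
    · have := hj j hji
      exact ⟨by linarith [this.1], by linarith [this.2]⟩

/-- **(GB4c)** -/
theorem specCollar : SpecCollar := by
  intro a b m hm hab X hX hXf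
  have hab' : ∀ i, a i < b i := fun i => by linarith [hab i]
  have hXS : X ⊆ frontier (Icc a b) := fun x hx => mem_frontier_of_face hm hab (hXf x hx)
  obtain ⟨ρ, hρ, H⟩ := iso_box hab' hX hXS
  exact ⟨ρ, hρ, fun φ hφ hφc θ hθ hθm => collar_of_iso hm hab hXS hXf (H φ hφ hφc) hθ hθm⟩

end P073.GB73
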