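import Vale.Agent.P073.GB73.Half

/-!
# P073, block GB4: the steps at the marked points
-/

open Set Metric Topology Filter

namespace P073.GB73

open P073
open Vale.Agent.P073.St (V)

/-- the point opposite to the flat side -/
def cc : V := ![-1, 0, 0]

theorem cc_mem : cc ∈ equator3 := by rw [mem_equator3]; simp [cc]

/-- hypotheses on the given homeomorphism -/
structure Hyp (Y : Finset ℝ) (R : ℝ) (φ : ConHomeo S2 S2) : Prop where
  pos : 0 < R
  small : 8 * R ≤ 1
  inn : ∀ x ∈ Y, |x| + 8 * R ≤ 1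
  gap : ∀ x ∈ Y, ∀ y ∈ Y, x ≠ y → 8 * R ≤ |x - y|
  fix : ∀ x ∈ Y, φ.toFun (PP x) = PP x
  fixc : φ.toFun cc = cc
  close : ∀ v ∈ equator3, ‖φ.toFun v - v‖ ≤ R / 8
  side : 0 < φ.invFun N0 2

/-- state of the process: the points of `A` have been treated -/
structure VSt (X : Set V) (R : ℝ) (A : Finset ℝ) (φ φ' : ConHomeo S2 S2) : Prop where
  out : ∀ v ∈ equator3, (∀ x ∈ A, 0 ≤ fab (x - R) (x + R) v) → φ'.toFun v = φ.toFun v
  fix : ∀ x ∈ A, φ'.toFun (PP x) = PP x
  sec : ∀ x ∈ A, ∀ s : ℝ, (s = 1 ∨ s = -1) → ∀ u ∈ Ioc 0 R,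
    φ'.toFun (PP (x + s * u)) 0 = 1 ∧ 0 < s * (φ'.toFun (PP (x + s * u)) 1 - x) ∧
    ‖φ'.toFun (PP (x + s * u)) - PP x‖ ≤ 2 * R
  side : 0 < φ'.invFun N0 2
  iso : Iso S2 X φ' → Iso S2 X φ

theorem fab_PP_lt {a b y : ℝ} (h : a < y) (h' : y < b) : fab a b (PP y) < 0 := by
  rw [fab_PP]
  exact max_lt (max_lt (by linarith) (by linarith)) (by norm_num)

theorem fab_PP_nonneg {x R y : ℝ} (h : R ≤ |y - x|) : 0 ≤ fab (x - R) (x + R) (PP y) := by
  rw [fab_PP]
  rcases le_total 0 (y - x) with h1 | h1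
  · rw [abs_of_nonneg h1] at h
    exact le_max_of_le_left (le_max_of_le_right (by linarith))
  · rw [abs_of_nonpos h1] at h
    exact le_max_of_le_left (le_max_of_le_left (by linarith))

/-- points of the interval of `x` -/
theorem exists_of_fab_neg {x R : ℝ} (hR : 0 < R) (hx : |x| + 8 * R ≤ 1) {v : V}
    (hv : v ∈ equator3) (h : fab (x - R) (x + R) v < 0) :
    ∃ y, v = PP y ∧ |y - x| < R := by
  have hx' := abs_le.1 (show |x| ≤ 1 - 8 * R by linarith)
  obtain ⟨y, hy, rfl⟩ := (fab_le_zero (by linarith) (by linarith) hv).1 h.le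
  refine ⟨y, rfl, ?_⟩
  by_contra hcon
  push Not at hcon
  exact absurd h (not_lt.2 (fab_PP_nonneg hcon))

theorem sign_rep (y x : ℝ) (h : y ≠ x) : ∃ s : ℝ, (s = 1 ∨ s = -1) ∧ 0 < |y - x| ∧
    y = x + s * |y - x| := by
  rcases lt_or_gt_of_ne h with h1 | h1
  · refine ⟨-1, Or.inr rfl, abs_pos.2 (sub_ne_zero.2 h), ?_⟩
    rw [abs_of_neg (by linarith)]; ring
  · refine ⟨1, Or.inl rfl, abs_pos.2 (sub_ne_zero.2 h), ?_⟩
    rw [abs_of_pos (by linarith)]; ring

namespace VSt

variable {X : Set V} {R : ℝ} {Y A : Finset ℝ} {φ φ' : ConHomeo S2 S2}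

/-- a point of the interval of `x ∈ A` stays near `x` -/
theorem near (h : VSt X R A φ φ') (hR : 0 < R) {x : ℝ} (hx : x ∈ A) {y : ℝ} (hy : |y - x| ≤ R) :
    ‖φ'.toFun (PP y) - PP x‖ ≤ 2 * R := by
  by_cases hyx : y = x
  · rw [hyx, h.fix x hx, sub_self, norm_zero]; positivity
  · obtain ⟨s, hs, h0, h1⟩ := sign_rep y x hyx
    rw [h1]
    exact (h.sec x hx s hs |y - x| ⟨h0, hy⟩).2.2

/-- coarse closeness on the equator -/
theorem close (h : VSt X R A φ φ') (H : Hyp Y R φ) (hA : A ⊆ Y) {v : V} (hv : v ∈ equator3) :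
    ‖φ'.toFun v - v‖ ≤ 3 * R := by
  have hR := H.pos
  by_cases hall : ∀ x ∈ A, 0 ≤ fab (x - R) (x + R) v
  · rw [h.out v hv hall]
    linarith [H.close v hv]
  · push Not at hall
    obtain ⟨x, hx, hneg⟩ := hall
    obtain ⟨y, rfl, hy⟩ := exists_of_fab_neg hR (H.inn x (hA hx)) hv hneg
    calc ‖φ'.toFun (PP y) - PP y‖ ≤ ‖φ'.toFun (PP y) - PP x‖ + ‖PP x - PP y‖ :=
          norm_sub_le_norm_sub_add_norm_sub _ _ _
      _ ≤ 2 * R + R := by
          rw [norm_PP_sub, abs_sub_comm x y]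
          linarith [h.near hR hx hy.le]
      _ = 3 * R := by ring

theorem start (H : Hyp Y R φ) (X : Set V) : VSt X R ∅ φ φ where
  out := fun _ _ _ => rfl
  fix := fun x hx => absurd hx (Finset.notMem_empty x)
  sec := fun x hx => absurd hx (Finset.notMem_empty x)
  side := H.side
  iso := fun h => h

end VSt

/-- the path from the pole to the opposite point -/
noncomputable def sg (t : ℝ) : V := ![max (-1) (-(2 * t)), 0, min 1 (2 - 2 * t)]

theorem continuous_sg : Continuous sg := by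
  refine continuous_pi fun i => ?_
  fin_cases i
  · show Continuous fun t : ℝ => max (-1) (-(2 * t))
    fun_prop
  · exact continuous_const
  · show Continuous fun t : ℝ => min 1 (2 - 2 * t)
    fun_prop

theorem sg_zero : sg 0 = N0 := by
  funext i
  fin_cases i
  · show max (-1) (-(2 * (0:ℝ))) = 0
    norm_num
  · rfl
  · show min 1 (2 - 2 * (0:ℝ)) = 1
    norm_num

theorem sg_one : sg 1 = cc := by
  funext i
  fin_cases i
  · show max (-1) (-(2 * (1:ℝ))) = -1
    norm_num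
  · rfl
  · show min 1 (2 - 2 * (1:ℝ)) = 0
    norm_num

theorem sg_mem {t : ℝ} (ht : t ∈ Icc (0:ℝ) 1) : sg t ∈ S2 := by
  obtain ⟨h0, h1⟩ := ht
  rw [mem_sphere_fin3]
  show |max (-1) (-(2 * t))| ≤ 1 ∧ |(0:ℝ)| ≤ 1 ∧ |min 1 (2 - 2 * t)| ≤ 1 ∧
    (|max (-1) (-(2 * t))| = 1 ∨ |(0:ℝ)| = 1 ∨ |min 1 (2 - 2 * t)| = 1)
  rcases le_total t (1 / 2) with h | h
  · rw [max_eq_right (by linarith), min_eq_left (by linarith)]
    refine ⟨abs_le.2 ⟨by linarith, by linarith⟩, by simp, by simp, Or.inr (Or.inr (by simp))⟩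
  · rw [max_eq_left (by linarith), min_eq_right (by linarith)]
    refine ⟨by simp, by simp, abs_le.2 ⟨by linarith, by linarith⟩, Or.inl (by simp)⟩

theorem sg_neg {t : ℝ} (ht : t ∈ Icc (0:ℝ) 1) : sg t 0 ≤ 0 := by
  show max (-1) (-(2 * t)) ≤ 0
  exact max_le (by norm_num) (by linarith [ht.1])

/-- **the step at the marked point `x`** -/
theorem VSt.step {Y : Finset ℝ} {R : ℝ} {φ φ' : ConHomeo S2 S2} (H : Hyp Y R φ) {A : Finset ℝ}
    (hA : A ⊆ Y) (h : VSt (PP '' (Y : Set ℝ)) R A φ φ') {x : ℝ} (hx : x ∈ Y) (hxA : x ∉ A) :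
    ∃ φ'' : ConHomeo S2 S2, VSt (PP '' (Y : Set ℝ)) R (insert x A) φ φ'' := by
  have hR := H.pos
  have hxi := H.inn x hx
  have hx' := abs_le.1 (show |x| ≤ 1 - 8 * R by linarith)
  have hfar : ∀ x' ∈ A, 8 * R ≤ |x - x'| := fun x' hx'A =>
    H.gap x hx x' (hA hx'A) fun h => hxA (h ▸ hx'A)
  have hm : ∀ y, |y - x| ≤ R → PP y ∈ equator3 := fun y hy => by
    have := abs_le.1 hy
    exact PP_mem (abs_le.2 ⟨by linarith, by linarith⟩)
  -- on the interval of `x`, `φ'` is still `φ`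
  have hsame : ∀ y, |y - x| ≤ R → φ'.toFun (PP y) = φ.toFun (PP y) := by
    intro y hy
    refine h.out _ (hm y hy) fun x' hx'A => fab_PP_nonneg ?_
    have h1 := hfar x' hx'A
    have h2 : |x - x'| ≤ |x - y| + |y - x'| := abs_sub_le x y x'
    rw [abs_sub_comm x y] at h2
    linarith
  have hface : ∀ y, |y - x| ≤ R → φ'.toFun (PP y) 0 = 1 := by
    intro y hy
    rw [hsame y hy]
    have hy' := abs_le.1 hy
    exact (face_of_close (φ.mapsTo (hm y hy).1) (H.close _ (hm y hy)) (by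
      have : |y| ≤ |x| + R := by
        have := abs_add_le (y - x) x
        rw [sub_add_cancel] at this
        linarith
      linarith)).1
  obtain ⟨Np, hNp, hNpS, hNpP⟩ := exists_half φ hR hxi (Or.inl rfl) H.close (H.fix x hx)
  obtain ⟨Nm, hNm, hNmS, hNmP⟩ := exists_half φ hR hxi (Or.inr rfl) H.close (H.fix x hx)
  rw [one_mul] at hNp
  rw [neg_one_mul, ← sub_eq_add_neg] at hNm
  -- the new arc
  have hinter : Nm ∩ Np ⊆ {PP x} := by
    rintro v ⟨h1, h2⟩
    rcases (hNmP v h1).2.1 with h3 | h3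
    · exact h3
    · rcases (hNpP v h2).2.1 with h4 | h4
      · exact h4
      · exfalso; linarith
  have hN : IsArc (Nm ∪ Np) (φ.toFun (PP (x - R))) (φ.toFun (PP (x + R))) :=
    hNm.symm.trans hNp hinter
  have e1 : φ'.toFun (PP (x - R)) = φ.toFun (PP (x - R)) := hsame _ (by
    rw [sub_sub_cancel_left, abs_neg, abs_of_pos hR])
  have e2 : φ'.toFun (PP (x + R)) = φ.toFun (PP (x + R)) := hsame _ (by
    rw [add_sub_cancel_left, abs_of_pos hR])
  -- the parametrisation
  obtain ⟨αm, am1, am2⟩ := (isArc_flat (show x - R < x by linarith)).exists_homeo hNm.symm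
  obtain ⟨αp, ap1, ap2⟩ := (isArc_flat (show x < x + R by linarith)).exists_homeo hNp
  have hcl1 : IsClosed (PP '' Icc (x - R) x) := (isArc_flat (show x - R < x by linarith)).isClosed
  have hcl2 : IsClosed (PP '' Icc x (x + R)) := (isArc_flat (show x < x + R by linarith)).isClosed
  have hag : EqOn αm.toFun αp.toFun (PP '' Icc (x - R) x ∩ PP '' Icc x (x + R)) := by
    rintro v ⟨⟨y, hy, rfl⟩, ⟨y', hy', hyy⟩⟩
    have h1 : y' = y := PP_injective hyy
    have h2 : y = x := le_antisymm hy.2 (h1 ▸ hy'.1)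
    rw [h2, am2, ap1]
  have himg : Nm ∩ Np ⊆ αm.toFun '' (PP '' Icc (x - R) x ∩ PP '' Icc x (x + R)) := by
    intro v hv
    rw [mem_singleton_iff.1 (hinter hv)]
    exact ⟨PP x, ⟨⟨x, ⟨by linarith, le_refl _⟩, rfl⟩, ⟨x, ⟨le_refl _, by linarith⟩, rfl⟩⟩, am2⟩
  have hun : PP '' Icc (x - R) x ∪ PP '' Icc x (x + R) =
      {v | v ∈ equator3 ∧ fab (x - R) (x + R) v ≤ 0} := by
    rw [flat_eq (by linarith) (by linarith), ← image_union,
      Icc_union_Icc_eq_Icc (by linarith) (by linarith)]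
  let α : ConHomeo {v | v ∈ equator3 ∧ fab (x - R) (x + R) v ≤ 0} (Nm ∪ Np) :=
    (ConHomeo.glue αm αp hcl1 hcl2 hNm.isClosed hNp.isClosed hag himg).cast hun rfl
  have α1 : ∀ y ∈ Icc (x - R) x, α.toFun (PP y) = αm.toFun (PP y) := fun y hy =>
    ConHomeo.glue_left αm αp hcl1 hcl2 hNm.isClosed hNp.isClosed hag himg ⟨y, hy, rfl⟩
  have α2 : ∀ y ∈ Icc x (x + R), α.toFun (PP y) = αp.toFun (PP y) := fun y hy =>
    ConHomeo.glue_right αm αp hcl1 hcl2 hNm.isClosed hNp.isClosed hag himg ⟨y, hy, rfl⟩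
  have αx : α.toFun (PP x) = PP x := by rw [α1 x ⟨by linarith, le_refl _⟩, am2]
  -- the arc meets the rest only in its end points
  have hNC : ∀ v ∈ equator3, 0 ≤ fab (x - R) (x + R) v → φ'.toFun v ∈ Nm ∪ Np →
      v = PP (x - R) ∨ v = PP (x + R) := by
    intro v hv hv0 hvN
    have hcase : ∃ s : ℝ, (s = 1 ∨ s = -1) ∧ (‖φ'.toFun v - PP x‖ ≤ R / 2 ∨
        ∃ u ∈ Icc 0 R, φ'.toFun v = φ.toFun (PP (x + s * u))) := by
      rcases hvN with h1 | h1
      · exact ⟨-1, Or.inr rfl, (hNmP _ h1).2.2.2⟩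
      · exact ⟨1, Or.inl rfl, (hNpP _ h1).2.2.2⟩
    obtain ⟨s, hs, h1 | ⟨u, hu, h1⟩⟩ := hcase
    · exfalso
      by_cases hall : ∀ x' ∈ A, 0 ≤ fab (x' - R) (x' + R) v
      · rw [h.out v hv hall] at h1
        have h2 := H.close v hv
        have h3 : ‖v - PP x‖ ≤ R / 8 + R / 2 := by
          calc ‖v - PP x‖ ≤ ‖v - φ.toFun v‖ + ‖φ.toFun v - PP x‖ :=
                norm_sub_le_norm_sub_add_norm_sub _ _ _
            _ ≤ R / 8 + R / 2 := by rw [norm_sub_rev v]; linarith
        obtain ⟨g0, g1, -⟩ := face_of_close hv.1 h3 (by linarith)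
        have h4 : v = PP (v 1) := eq_PP g0 hv.2
        have g1' := abs_le.1 g1
        rw [h4] at hv0
        exact absurd (fab_PP_lt (by linarith) (by linarith)) (not_lt.2 hv0)
      · push Not at hall
        obtain ⟨x', hx'A, hneg⟩ := hall
        obtain ⟨y, rfl, hy⟩ := exists_of_fab_neg hR (H.inn x' (hA hx'A)) hv hneg
        have h2 := h.near hR hx'A hy.le
        have h3 : ‖PP x - PP x'‖ ≤ R / 2 + 2 * R := by
          calc ‖PP x - PP x'‖ ≤ ‖PP x - φ'.toFun (PP y)‖ + ‖φ'.toFun (PP y) - PP x'‖ :=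
                norm_sub_le_norm_sub_add_norm_sub _ _ _
            _ ≤ R / 2 + 2 * R := by rw [norm_sub_rev (PP x)]; linarith
        rw [norm_PP_sub] at h3
        linarith [hfar x' hx'A]
    · have hsabs : |s| = 1 := by rcases hs with h | h <;> rw [h] <;> simp
      have hsu : |x + s * u - x| = u := by
        rw [add_sub_cancel_left, abs_mul, hsabs, one_mul, abs_of_nonneg hu.1]
      have h2 : |x + s * u - x| ≤ R := by rw [hsu]; exact hu.2
      rw [← hsame _ h2] at h1
      have h3 : v = PP (x + s * u) := φ'.injOn hv.1 (hm _ h2).1 h1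
      have h4 : u = R := by
        by_contra hne
        have hlt : u < R := lt_of_le_of_ne hu.2 hne
        rw [h3] at hv0
        have h5 := abs_lt.1 (show |x + s * u - x| < R by rw [hsu]; exact hlt)
        exact absurd (fab_PP_lt (by linarith) (by linarith)) (not_lt.2 hv0)
      rcases hs with hs | hs
      · right; rw [h3, h4, hs, one_mul]
      · left; rw [h3, h4, hs, neg_one_mul, sub_eq_add_neg]
  have hflat := flat_eq (show -1 < x - R by linarith) (show x + R < 1 by linarith)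
  obtain ⟨φ'', f1, f2, f3, f4⟩ := (lens_flat (show -1 < x - R by linarith)
    (show x + R < 1 by linarith) (show x - R < x + R by linarith)).exchange_target φ'
    (N := Nm ∪ Np) (by rw [e1, e2]; exact hN) (union_subset hNmS hNpS) hNC α
    (by rw [e1, α1 _ ⟨le_refl _, by linarith⟩, am1])
    (by rw [e2, α2 _ ⟨by linarith, le_refl _⟩, ap2]) (p := PP x)
    (hm x (by rw [sub_self, abs_zero]; exact hR.le)) (fab_PP_lt (by linarith) (by linarith))
    (X := PP '' (Y : Set ℝ)) (by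
      rintro _ ⟨y, hy, rfl⟩
      have := H.inn y hy
      exact PP_mem (by linarith)) (by
      rintro _ ⟨y, hy, rfl⟩
      by_cases hyA : y ∈ A
      · exact h.fix y hyA
      · rw [h.out _ (PP_mem (by have := H.inn y hy; linarith)), H.fix y hy]
        intro x' hx'A
        refine fab_PP_nonneg ?_
        have := H.gap y hy x' (hA hx'A) fun he => hyA (he ▸ hx'A)
        linarith) (by
      rintro _ ⟨y, hy, rfl⟩ hneg
      have hyx : y = x := by
        by_contra hne
        have h1 := H.gap y hy x hx hne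
        exact absurd hneg (not_lt.2 (fab_PP_nonneg (by linarith)))
      rw [hyx]
      exact ⟨rfl, αx⟩) h.side sg continuous_sg.continuousOn (fun t ht => sg_mem ht) sg_zero
    cc_mem (by
      rw [sg_one, h.out cc cc_mem, H.fixc]
      intro x' _
      exact le_max_of_le_right (by show (0:ℝ) ≤ - -1; norm_num)) (by
      intro t ht hN'
      have h1 : sg t 0 = 1 := by
        rcases hN' with h | h
        · exact (hNmP _ h).1
        · exact (hNpP _ h).1
      linarith [sg_neg ht]) (by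
      intro t ht v hv hv0 he
      obtain ⟨y, hy, rfl⟩ := (fab_le_zero (by linarith) (by linarith) hv).1 hv0
      have h1 := hface y (abs_le.2 ⟨by linarith [hy.1], by linarith [hy.2]⟩)
      rw [← he] at h1
      linarith [sg_neg ht])
  refine ⟨φ'', ?_, ?_, ?_, f3, fun hI => h.iso (f4 hI)⟩
  · intro v hv hall
    rw [f1 v hv (hall x (Finset.mem_insert_self _ _)),
      h.out v hv fun x' hx'A => hall x' (Finset.mem_insert_of_mem hx'A)]
  · intro x' hx'
    rcases Finset.mem_insert.1 hx' with rfl | hx'A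
    · rw [f2 _ (hm x' (by rw [sub_self, abs_zero]; exact hR.le))
        (fab_PP_lt (by linarith) (by linarith)).le, αx]
    · rw [f1 _ (PP_mem (by have := H.inn x' (hA hx'A); linarith)) (fab_PP_nonneg (by
        rw [abs_sub_comm]
        linarith [hfar x' hx'A])), h.fix x' hx'A]
  · intro x' hx' s hs u hu
    have hsabs : |s| = 1 := by rcases hs with h | h <;> rw [h] <;> simp
    have hsu : ∀ z : ℝ, |z + s * u - z| = u := fun z => by
      rw [add_sub_cancel_left, abs_mul, hsabs, one_mul, abs_of_pos hu.1]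
    rcases Finset.mem_insert.1 hx' with rfl | hx'A
    · have hle : |x' + s * u - x'| ≤ R := by rw [hsu]; exact hu.2
      have hle' := abs_le.1 hle
      have hmem : fab (x' - R) (x' + R) (PP (x' + s * u)) ≤ 0 :=
        (fab_le_zero (by linarith) (by linarith) (hm _ hle)).2
          ⟨_, ⟨by linarith, by linarith⟩, rfl⟩
      rw [f2 _ (hm _ hle) hmem]
      have hne : α.toFun (PP (x' + s * u)) ≠ PP x' := by
        intro he
        have h1 : α.toFun (PP (x' + s * u)) = α.toFun (PP x') := he.trans αx.symm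
        have h2 := α.injOn ⟨hm _ hle, hmem⟩ ⟨hm x' (by rw [sub_self, abs_zero]; exact hR.le),
          (fab_PP_lt (by linarith) (by linarith)).le⟩ h1
        have h3 := PP_injective h2
        have h4 := hsu x'
        rw [h3, sub_self, abs_zero] at h4
        exact hu.1.ne h4
      have key : ∀ N : Set V, α.toFun (PP (x' + s * u)) ∈ N → (∀ v ∈ N, v 0 = 1 ∧
          (v = PP x' ∨ 0 < s * (v 1 - x')) ∧ ‖v - PP x'‖ ≤ 2 * R ∧
          (‖v - PP x'‖ ≤ R / 2 ∨ ∃ u ∈ Icc 0 R, v = φ.toFun (PP (x' + s * u)))) →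
          α.toFun (PP (x' + s * u)) 0 = 1 ∧ 0 < s * (α.toFun (PP (x' + s * u)) 1 - x') ∧
          ‖α.toFun (PP (x' + s * u)) - PP x'‖ ≤ 2 * R := by
        intro N hN hP
        obtain ⟨g1, g2, g3, -⟩ := hP _ hN
        exact ⟨g1, g2.resolve_left hne, g3⟩
      rcases hs with hs | hs
      · have hy : x' + s * u ∈ Icc x' (x' + R) := by
          rw [hs, one_mul]; exact ⟨by linarith [hu.1], by linarith [hu.2]⟩
        refine key Np ?_ (by rw [hs]; exact hNpP)
        rw [α2 _ hy]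
        exact αp.mapsTo ⟨_, hy, rfl⟩
      · have hy : x' + s * u ∈ Icc (x' - R) x' := by
          rw [hs, neg_one_mul]; exact ⟨by linarith [hu.2], by linarith [hu.1]⟩
        refine key Nm ?_ (by rw [hs]; exact hNmP)
        rw [α1 _ hy]
        exact αm.mapsTo ⟨_, hy, rfl⟩
    · have h1 : |x' + s * u - x'| ≤ R := by rw [hsu]; exact hu.2
      have h2 : |x - x'| ≤ |x - (x' + s * u)| + |x' + s * u - x'| := abs_sub_le _ _ _
      have h3 := hfar x' hx'A
      have hmq : PP (x' + s * u) ∈ equator3 := by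
        have := abs_le.1 h1
        have h5 := abs_le.1 (show |x'| ≤ 1 - 8 * R by linarith [H.inn x' (hA hx'A)])
        exact PP_mem (abs_le.2 ⟨by linarith, by linarith⟩)
      rw [f1 _ hmq (fab_PP_nonneg (by rw [abs_sub_comm]; linarith))]
      exact h.sec x' hx'A s hs u hu

/-- all marked points are treated -/
theorem exists_vst {Y : Finset ℝ} {R : ℝ} {φ : ConHomeo S2 S2} (H : Hyp Y R φ) :
    ∃ φ' : ConHomeo S2 S2, VSt (PP '' (Y : Set ℝ)) R Y φ φ' := by
  have : ∀ A : Finset ℝ, A ⊆ Y → ∃ φ' : ConHomeo S2 S2, VSt (PP '' (Y : Set ℝ)) R A φ φ' := by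
    intro A
    induction A using Finset.induction_on with
    | empty => exact fun _ => ⟨φ, VSt.start H _⟩
    | insert x A hxA ih =>
      intro hA
      obtain ⟨φ', h'⟩ := ih fun y hy => hA (Finset.mem_insert_of_mem hy)
      exact VSt.step H (fun y hy => hA (Finset.mem_insert_of_mem hy)) h'
        (hA (Finset.mem_insert_self _ _)) hxA
  exact this Y (Finset.Subset.refl _)

end P073.GB73
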